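import Crest.Agent.N067.M.Sheet0
import Crest.Agent.N067.A.Gib

-- ▼ part N067/F/Pl
section

/-!
# Row 67, FLUX, case F (helper10): every zero lies on a plane; projection of zeros; slabs

`Pl v S δ R b`: on `closedBall b R`, in the slab of half width `S` around the plane through `b`
with normal `nu v b`, the function `d` is the height up to `δ`.
-/

set_option autoImplicit false
set_option linter.unusedVariables false

open InnerProductSpace Set Metric Topology Filter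
open scoped RealInnerProductSpace Gradient

namespace Crest.Agent.N067.M.Pn

open Crest.Agent.R077 Crest.Agent.N067.V Crest.Agent.N067.M.Wd

variable {n : ℕ} {v : EE n → ℝ}

theorem dd_zero_iff (hv : Sol v) {y : EE n} : dd v y = 0 ↔ v y = 0 := by
  refine ⟨fun h => ?_, fun h => by simp [dd, h]⟩
  rcases lt_trichotomy (v y) 0 with h1 | h1 | h1
  · exact absurd h (hv.dd_lt_zero h1).ne
  · exact h1
  · exact absurd h (hv.dd_pos h1).ne'

theorem pos_of_dd (hv : Sol v) {y : EE n} (h : 0 < dd v y) : 0 < v y := by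
  rcases lt_trichotomy (v y) 0 with h1 | h1 | h1
  · exact absurd h (hv.dd_lt_zero h1).not_gt
  · exact absurd ((dd_zero_iff hv).2 h1) h.ne'
  · exact h1

theorem neg_of_dd (hv : Sol v) {y : EE n} (h : dd v y < 0) : v y < 0 := by
  rcases lt_trichotomy (v y) 0 with h1 | h1 | h1
  · exact h1
  · exact absurd ((dd_zero_iff hv).2 h1) h.ne
  · exact absurd h (hv.dd_pos h1).not_gt

theorem pos_conv (hv : Continuous v) {S : Set (EE n)} (hS : Convex ℝ S)
    (hz : ∀ x ∈ S, v x ≠ 0) {x0 : EE n} (h0 : x0 ∈ S) (hp : 0 < v x0) {x : EE n} (hx : x ∈ S) :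
    0 < v x := by
  by_contra h
  obtain ⟨y, hy, hy0⟩ := hS.isPreconnected.intermediate_value hx h0 hv.continuousOn
    ⟨not_lt.1 h, hp.le⟩
  exact hz y hy hy0

/-- a zero at distance `≤ 2 |d y| + C` -/
theorem near_zero (n : ℕ) : ∃ C : ℝ, 1 ≤ C ∧ ∀ v : EE n → ℝ, Sol v → ∀ y,
    ∃ z, v z = 0 ∧ ‖z - y‖ ≤ 2 * |dd v y| + C := by
  obtain ⟨C, hC, h⟩ := ball_dd n
  have key : ∀ v : EE n → ℝ, Sol v → ∀ y, 0 < v y →
      ∃ z, v z = 0 ∧ ‖z - y‖ ≤ 2 * |dd v y| + 4 * C := by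
    intro v hv y hy
    by_contra hne
    push Not at hne
    have ha := abs_nonneg (dd v y)
    have h1 := h v hv y y (2 * |dd v y| + 4 * C) (fun z hz => pos_conv hv.sm.continuous
      (convex_ball _ _) (fun x hx h0 => absurd (mem_ball_iff_norm.1 hx) (hne x h0).not_gt)
      (mem_ball_self (by positivity)) hy hz) (by simp; positivity)
    have h2 : √(‖y - y‖ ^ 2 + C * (2 * |dd v y| + 4 * C)) ≤ (2 * |dd v y| + 4 * C) / 4 + C :=
      Real.sqrt_le_iff.2 ⟨by positivity, by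
        simp only [sub_self, norm_zero]
        nlinarith [sq_nonneg ((2 * |dd v y| + 4 * C) / 4 - C)]⟩
    have := le_abs_self (dd v y)
    nlinarith
  refine ⟨4 * C, by linarith, fun v hv y => ?_⟩
  rcases lt_trichotomy (v y) 0 with h1 | h1 | h1
  · obtain ⟨z, hz, h2⟩ := key _ hv.neg' y (by simpa using h1)
    rw [hv.dd_neg', abs_neg] at h2
    exact ⟨z, by simpa using hz, h2⟩
  · exact ⟨y, h1, by simp; positivity⟩
  · exact key v hv y h1

/-- smallness of `t` and `B` on the band of depth `S` -/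
theorem band (n : ℕ) (S : ℝ) : ∃ K : ℝ, 1 ≤ K ∧ ∀ v : EE n → ℝ, Sol v → ∀ (y : EE n) (τ : ℝ),
    |dd v y| ≤ S → (∀ z ∈ closedBall y K, v z = 0 → tt v z ≤ τ) →
      tt v y ≤ K * τ ∧ ‖hb (dd v) y‖ ≤ K * √τ := by
  obtain ⟨C, hC, h⟩ := near_zero n
  have h3 : 2 * Real.sqrt 2 < 3 := by
    have : Real.sqrt 2 < 3 / 2 := Real.sqrt_lt' (by norm_num) |>.2 (by norm_num)
    linarith
  obtain ⟨K1, hK1, h1⟩ := hk_t_rate n h3
  obtain ⟨K2, hK2, h2⟩ := exists_hb n
  set A := K1 * Real.exp (3 * (2 * |S| + C)) with hA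
  have hA0 : 0 ≤ A := by positivity
  have hS := abs_nonneg S
  refine ⟨A + K2 * √A + (2 * |S| + C), by
    have : 0 ≤ K2 * √A := by positivity
    linarith, fun v hv y τ hy hz => ?_⟩
  obtain ⟨z, hz0, hzy⟩ := h v hv y
  have hd : ‖z - y‖ ≤ 2 * |S| + C := by linarith [le_abs_self S]
  have k1 : 0 ≤ K2 * √A := by positivity
  have ht := hz z (mem_closedBall_iff_norm.2 (by linarith)) hz0
  have hτ : 0 ≤ τ := (hv.tt_nonneg z).trans ht
  have hy1 : tt v y ≤ A * τ := (h1 v hv y z).trans (by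
    rw [dist_eq_norm, norm_sub_rev]
    exact mul_le_mul (by rw [hA]; gcongr) ht (hv.tt_nonneg z) hA0)
  refine ⟨hy1.trans (by gcongr; linarith), (h2 v hv y).trans ?_⟩
  calc K2 * √(tt v y) ≤ K2 * √(A * τ) := by gcongr
    _ = K2 * √A * √τ := by rw [Real.sqrt_mul hA0, mul_assoc]
    _ ≤ _ := by gcongr; linarith

/-- the plane of the zero `b` -/
structure Pl (v : EE n → ℝ) (S δ R : ℝ) (b : EE n) : Prop where
  unit : ‖nu v b‖ = 1
  near : ∀ w ∈ closedBall b R, |⟪nu v b, w - b⟫| ≤ S →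
    |dd v w - ⟪nu v b, w - b⟫| ≤ δ ∧ ‖nn v w - nu v b‖ ≤ δ ∧ tt v w ≤ δ ^ 2

/-- **PLANE** -/
theorem plane (n : ℕ) {S : ℝ} (hS : 0 ≤ S) : ∃ K : ℝ, 1 ≤ K ∧ ∀ v : EE n → ℝ, Sol v →
    ∀ (b : EE n) (R τ δ : ℝ), 0 ≤ R → v b = 0 → (∀ z ∈ closedBall b (R + K), v z = 0 → tt v z ≤ τ) →
      K * √τ * (1 + R) ^ 2 ≤ δ → δ ≤ 1 / 2 → Pl v S δ R b := by
  obtain ⟨K, hK, h⟩ := band n (S + 1)
  refine ⟨(S + 2) * K, by nlinarith, fun v hv b R τ δ hR hb0 hF hδ hδ1 => ?_⟩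
  have hK' : K ≤ (S + 2) * K := by nlinarith
  have htb := hF b (mem_closedBall_self (by positivity)) hb0
  have hτ : 0 ≤ τ := (hv.tt_nonneg b).trans htb
  have hs := Real.sqrt_nonneg τ
  have hs2 := Real.sq_sqrt hτ
  have hR1 : 1 ≤ (1 + R) ^ 2 := by nlinarith
  have k0 : (S + 2) * K * √τ ≤ δ := le_trans (le_mul_of_one_le_right (by positivity) hR1) hδ
  have k1 : K * √τ ≤ 1 / 4 := by nlinarith [mul_nonneg (by linarith : 0 ≤ K) hs]
  have k2 : √τ ≤ 1 / 4 := by nlinarith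
  have k3 : τ ≤ √τ := by nlinarith
  have hN : 0 < NN v b := NN_pos (by linarith)
  have hband : ∀ y ∈ closedBall b R, |dd v y| ≤ S + 1 →
      tt v y ≤ K * τ ∧ ‖hb (dd v) y‖ ≤ K * √τ := fun y hy hd =>
    h v hv y τ hd fun z hz => hF z (by
      rw [mem_closedBall] at *
      linarith [dist_triangle z y b])
  refine ⟨norm_nu hN, fun w hw hh => ?_⟩
  have hwb := mem_closedBall_iff_norm.1 hw
  have hseg : segment ℝ b w ⊆ closedBall b R :=
    (convex_closedBall b R).segment_subset (mem_closedBall_self hR) hw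
  have hd0 : dd v b = 0 := (dd_zero_iff hv).2 hb0
  have e1 : ⟪nn v b, w - b⟫ = NN v b * ⟪nu v b, w - b⟫ := by
    conv_lhs => rw [nn_eq hN, real_inner_smul_left]
  have hN1 := NN_le hv b
  have hN2 := one_sub_NN hv b
  have hw2 : ‖w - b‖ ^ 2 ≤ (1 + R) ^ 2 := by gcongr; linarith
  have k4 : K * √τ * ‖w - b‖ ^ 2 ≤ K * √τ * (1 + R) ^ 2 := by gcongr
  have k5 : 0 ≤ K * √τ * (1 + R) ^ 2 := by positivity
  have k6 : (S + 2) * (K * √τ * (1 + R) ^ 2) ≤ δ := by linarith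
  have a1 : |NN v b * ⟪nu v b, w - b⟫| ≤ S := by
    rw [abs_mul, abs_of_pos hN]
    exact (mul_le_of_le_one_left (abs_nonneg _) hN1).trans hh
  obtain ⟨s1, s2, s3⟩ := sheet hv (κ := K * √τ) (T := S + 1) (b := b) (p := w) (by positivity)
    (fun y hy hd => (hband y (hseg hy) hd).2) (by
      rw [hd0, zero_add, abs_zero, e1, max_eq_right (abs_nonneg _)]
      nlinarith) w (right_mem_segment ℝ b w)
  have k7 : √τ ≤ K * √τ * (1 + R) ^ 2 :=
    (le_mul_of_one_le_left hs hK).trans (le_mul_of_one_le_right (by positivity) hR1)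
  have a4 : K * √τ * ‖w - b‖ ≤ K * √τ * (1 + R) ^ 2 :=
    mul_le_mul_of_nonneg_left (by nlinarith) (by positivity)
  have a5 : K * √τ ≤ δ := by nlinarith [mul_nonneg (by linarith : 0 ≤ K) hs]
  have a6 : K * τ ≤ δ ^ 2 := by
    have a2 : (K * √τ) ^ 2 ≤ δ ^ 2 := by gcongr
    rw [mul_pow, hs2] at a2
    nlinarith [mul_nonneg (by linarith : 0 ≤ K) hτ]
  have a7 := mul_le_mul_of_nonneg_left k7 hS
  have a8 := mul_nonneg hS k5
  rw [add_mul] at k6
  refine ⟨?_, ?_, (hband w hw s1).1.trans a6⟩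
  · rw [hd0, sub_zero, e1] at s3
    have a2 : |(1 - NN v b) * ⟪nu v b, w - b⟫| ≤ √τ * S := by
      rw [abs_mul, abs_of_nonneg (by linarith)]
      exact mul_le_mul (by linarith) hh (abs_nonneg _) hs
    have a3 : dd v w - ⟪nu v b, w - b⟫ = (dd v w - NN v b * ⟪nu v b, w - b⟫) -
        (1 - NN v b) * ⟪nu v b, w - b⟫ := by ring
    rw [a3]
    refine (abs_sub _ _).trans ?_
    linarith
  · have a2 := norm_nn_sub_nu hv hN
    have a3 := norm_sub_le_norm_sub_add_norm_sub (nn v w) (nn v b) (nu v b)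
    linarith

theorem Pl.mono {S δ R S' δ' R' : ℝ} {b : EE n} (h : Pl v S δ R b) (hS : S' ≤ S) (h0 : 0 ≤ δ)
    (hδ : δ ≤ δ') (hR : R' ≤ R) : Pl v S' δ' R' b :=
  ⟨h.unit, fun w hw hh => by
    obtain ⟨h1, h2, h3⟩ := h.near w (closedBall_subset_closedBall hR hw) (hh.trans hS)
    exact ⟨h1.trans hδ, h2.trans hδ, h3.trans (by gcongr)⟩⟩

/-- **TILT**: the planes of two close zeros are parallel -/
theorem tilt {S δ R D : ℝ} {b y : EE n} (hb : Pl v S δ R b) (hy : Pl v S δ R y) (hS : 0 ≤ S)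
    (hδ : 0 ≤ δ) (hD : ‖y - b‖ ≤ D) (hR : 2 * D ≤ R) (hR0 : 0 < R) :
    ∃ σ : ℝ, (σ = 1 ∨ σ = -1) ∧ ‖nu v y - σ • nu v b‖ ≤ 2 * δ + 3 * D / R := by
  have he := hb.unit
  have he' := hy.unit
  have hD0 := (norm_nonneg _).trans hD
  generalize hE : nu v b = e at *
  generalize hE' : nu v y = e' at *
  have ee : ⟪e, e⟫ = (1 : ℝ) := by rw [real_inner_self_eq_norm_sq, he]; norm_num
  have ee' : ⟪e', e'⟫ = (1 : ℝ) := by rw [real_inner_self_eq_norm_sq, he']; norm_num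
  set c := ⟪e, e'⟫ with hc
  have hc' : ⟪e', e⟫ = c := real_inner_comm _ _
  set u := e - c • e' with hu
  have u1 : ⟪e, u⟫ = 1 - c ^ 2 := by rw [hu, inner_sub_right, real_inner_smul_right, ee]; ring
  have u2 : ⟪e', u⟫ = 0 := by rw [hu, inner_sub_right, real_inner_smul_right, ee', hc']; ring
  have u3 : ‖u‖ ^ 2 = 1 - c ^ 2 := by
    rw [← real_inner_self_eq_norm_sq]
    conv_lhs => rw [show ⟪u, u⟫ = ⟪e - c • e', u⟫ from rfl]
    rw [inner_sub_left, real_inner_smul_left, u1, u2]; ring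
  have ha : |⟪e, y - b⟫| ≤ D := (abs_real_inner_le_norm _ _).trans (by rw [he, one_mul]; exact hD)
  have hq : 0 ≤ 3 * D / R := by positivity
  by_cases hcase : ‖u‖ ≤ 2 * D / R
  · have hc1 : |c| ≤ 1 := (abs_real_inner_le_norm _ _).trans (by rw [he, he']; norm_num)
    have key : ∀ σ : ℝ, σ ^ 2 = 1 → σ * c = |c| → ‖e' - σ • e‖ ≤ 2 * δ + 3 * D / R := by
      intro σ h1 h2
      have n1 : ‖e' - σ • e‖ ^ 2 = 2 - 2 * |c| := by
        rw [norm_sub_sq_real, norm_smul, real_inner_smul_right, he, he', hc', h2, mul_pow,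
          Real.norm_eq_abs, sq_abs, h1]; ring
      have n2 : ‖u‖ ^ 2 ≤ (2 * D / R) ^ 2 := by gcongr
      have n3 : (3 * D / R) ^ 2 = 9 / 4 * (2 * D / R) ^ 2 := by ring
      have n4 : ‖e' - σ • e‖ ≤ 3 * D / R := by
        refine le_of_sq_le_sq ?_ hq
        have := sq_abs c
        have := abs_nonneg c
        nlinarith
      linarith
    rcases le_total 0 c with h | h
    · exact ⟨1, Or.inl rfl, key 1 (by norm_num) (by rw [abs_of_nonneg h, one_mul])⟩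
    · exact ⟨-1, Or.inr rfl, key (-1) (by norm_num) (by rw [abs_of_nonpos h]; ring)⟩
  · push Not at hcase
    have hu0 : 0 < ‖u‖ := lt_of_le_of_lt (by positivity) hcase
    set p := y - (⟪e, y - b⟫ / ‖u‖ ^ 2) • u with hp
    have p1 : ‖p - y‖ ≤ R / 2 := by
      rw [hp, sub_sub_cancel_left, norm_neg, norm_smul, Real.norm_eq_abs, abs_div,
        abs_of_pos (pow_pos hu0 2), div_mul_eq_mul_div, div_le_iff₀ (pow_pos hu0 2)]
      rw [div_lt_iff₀ hR0] at hcase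
      nlinarith
    have p2 : ‖p - b‖ ≤ R := by linarith [norm_sub_le_norm_sub_add_norm_sub p y b]
    have p3 : ⟪e, p - b⟫ = 0 := by
      rw [show p - b = (y - b) - (⟪e, y - b⟫ / ‖u‖ ^ 2) • u by rw [hp]; abel, inner_sub_right,
        real_inner_smul_right, u1, ← u3]
      field_simp
      ring
    have p4 : ⟪e', p - y⟫ = 0 := by
      rw [hp, sub_sub_cancel_left, inner_neg_right, real_inner_smul_right, u2]; ring
    have q1 := (hb.near p (mem_closedBall_iff_norm.2 p2) (by rw [hE, p3, abs_zero]; exact hS)).2.1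
    have q2 := (hy.near p (mem_closedBall_iff_norm.2 (by linarith))
      (by rw [hE', p4, abs_zero]; exact hS)).2.1
    rw [hE] at q1
    rw [hE', norm_sub_rev] at q2
    refine ⟨1, Or.inl rfl, ?_⟩
    rw [one_smul]
    linarith [norm_sub_le_norm_sub_add_norm_sub e' (nn v p) e]

end Crest.Agent.N067.M.Pn
end

-- ▼ part N067/F/Sl

/-!
# Row 67, FLUX, case F (helper10): projection of zeros on the axis, zero free slabs
-/

set_option autoImplicit false
set_option linter.unusedVariables false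

open InnerProductSpace Set Metric Topology Filter
open scoped RealInnerProductSpace Gradient

namespace Crest.Agent.N067.M.Pn

open Crest.Agent.R077 Crest.Agent.N067.V Crest.Agent.N067.M.Wd

variable {n : ℕ} {v : EE n → ℝ}

/-- all zeros near `b` lie on planes which are parallel to the plane `e^⊥`, with error `ε`:
the working form of case F -/
structure Par (v : EE n → ℝ) (S ε D : ℝ) (b e : EE n) : Prop where
  sol : Sol v
  unit : ‖e‖ = 1
  S2 : 2 ≤ S
  e0 : 0 ≤ ε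
  e1 : ε ≤ 1 / 8
  par : ∀ y ∈ closedBall b D, v y = 0 → ∃ σ : ℝ, (σ = 1 ∨ σ = -1) ∧ ∀ w ∈ closedBall b (2 * D),
    |⟪e, w - y⟫| ≤ S → |dd v w - σ * ⟪e, w - y⟫| ≤ ε ∧ ‖nn v w - σ • e‖ ≤ ε ∧ tt v w ≤ ε ^ 2

/-- **PROJ** -/
theorem par_of_pl (hv : Sol v) {S δ R D ε : ℝ} {b : EE n} (hS : 2 ≤ S) (hδ : 0 ≤ δ) (hD : 1 ≤ D)
    (hR : 3 * D ≤ R) (hb : v b = 0) (h : ∀ y ∈ closedBall b D, v y = 0 → Pl v (S + 1) δ R y)
    (hε : δ + 3 * D * (2 * δ + 3 * D / R) ≤ ε) (hε1 : ε ≤ 1 / 8) : Par v S ε D b (nu v b) := by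
  have hb' := h b (mem_closedBall_self (by linarith)) hb
  have hR0 : 0 < R := by linarith
  have hθ : 0 ≤ 2 * δ + 3 * D / R := by positivity
  have hθ1 : 2 * δ + 3 * D / R ≤ 3 * D * (2 * δ + 3 * D / R) :=
    le_mul_of_one_le_left hθ (by linarith)
  refine ⟨hv, hb'.unit, hS, by linarith, hε1, fun y hy hy0 => ?_⟩
  have hyb := mem_closedBall_iff_norm.1 hy
  obtain ⟨σ, hσ, h1⟩ := tilt hb' (h y hy hy0) (by linarith) hδ hyb (by linarith) hR0
  refine ⟨σ, hσ, fun w hw hh => ?_⟩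
  have hwb := mem_closedBall_iff_norm.1 hw
  have hwy : ‖w - y‖ ≤ 3 * D := by
    have := norm_sub_le_norm_sub_add_norm_sub w b y
    rw [norm_sub_rev b y] at this
    linarith
  have a1 : |⟪nu v y, w - y⟫ - σ * ⟪nu v b, w - y⟫| ≤ 3 * D * (2 * δ + 3 * D / R) := by
    rw [← real_inner_smul_left, ← inner_sub_left, mul_comm]
    exact (abs_real_inner_le_norm _ _).trans (mul_le_mul h1 hwy (norm_nonneg _) hθ)
  have a2 : |σ * ⟪nu v b, w - y⟫| ≤ S := by
    rcases hσ with rfl | rfl <;> simpa using hh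
  obtain ⟨q1, q2, q3⟩ := (h y hy hy0).near w (mem_closedBall_iff_norm.2 (by linarith)) (by
    have := abs_sub_abs_le_abs_sub ⟪nu v y, w - y⟫ (σ * ⟪nu v b, w - y⟫)
    linarith)
  refine ⟨?_, ?_, q3.trans (by gcongr; linarith)⟩
  · have := abs_sub_le (dd v w) ⟪nu v y, w - y⟫ (σ * ⟪nu v b, w - y⟫)
    linarith
  · linarith [norm_sub_le_norm_sub_add_norm_sub (nn v w) (nu v y) (σ • nu v b)]

/-- from smallness of `t` at the zeros to `Par` -/
theorem par_of_small (n : ℕ) {S : ℝ} (hS : 2 ≤ S) : ∃ K : ℝ, 1 ≤ K ∧ ∀ v : EE n → ℝ, Sol v →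
    ∀ (b : EE n) (D R τ ε : ℝ), 1 ≤ D → 3 * D ≤ R → v b = 0 →
      (∀ z ∈ closedBall b (D + R + K), v z = 0 → tt v z ≤ τ) →
      7 * D * (K * √τ * (1 + R) ^ 2) + 9 * D ^ 2 / R ≤ ε → ε ≤ 1 / 8 →
      Par v S ε D b (nu v b) ∧ ∀ w ∈ closedBall b (2 * D), |⟪nu v b, w - b⟫| ≤ S →
        |dd v w - ⟪nu v b, w - b⟫| ≤ ε ∧ ‖nn v w - nu v b‖ ≤ ε := by
  obtain ⟨K, hK, h⟩ := plane n (S := S + 1) (by linarith)
  refine ⟨K, hK, fun v hv b D R τ ε hD hR hb hF hε hε1 => ?_⟩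
  have hR0 : 0 < R := by linarith
  have h0 : 0 ≤ K * √τ * (1 + R) ^ 2 := by positivity
  have h1 : 0 ≤ 9 * D ^ 2 / R := by positivity
  have h2 := mul_le_mul_of_nonneg_right hD h0
  have hp : ∀ y ∈ closedBall b D, v y = 0 → Pl v (S + 1) (K * √τ * (1 + R) ^ 2) R y :=
    fun y hy hy0 => h v hv y R τ _ hR0.le hy0 (fun z hz => hF z (by
      rw [mem_closedBall] at *
      linarith [dist_triangle z y b])) le_rfl (by linarith)
  refine ⟨par_of_pl hv hS h0 hD hR hb hp ?_ hε1, fun w hw hh => ?_⟩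
  · have : 3 * D * (3 * D / R) = 9 * D ^ 2 / R := by ring
    rw [mul_add, this]
    linarith
  · obtain ⟨q1, q2, -⟩ := (hp b (mem_closedBall_self (by linarith)) hb).near w
      (closedBall_subset_closedBall (by linarith) hw) (by linarith)
    exact ⟨by linarith, by linarith⟩

namespace Par

variable {S ε D : ℝ} {b e : EE n}

theorem neg (h : Par v S ε D b e) : Par v S ε D b (-e) :=
  ⟨h.sol, by rw [norm_neg]; exact h.unit, h.S2, h.e0, h.e1, fun y hy hy0 => by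
    obtain ⟨σ, hσ, h1⟩ := h.par y hy hy0
    refine ⟨-σ, by rcases hσ with rfl | rfl <;> simp, fun w hw hh => ?_⟩
    rw [inner_neg_left, abs_neg] at hh
    simpa [inner_neg_left] using h1 w hw hh⟩

theorem ng (h : Par v S ε D b e) : Par (M.ng v) S ε D b e :=
  ⟨h.sol.neg', h.unit, h.S2, h.e0, h.e1, fun y hy hy0 => by
    obtain ⟨σ, hσ, h1⟩ := h.par y hy (by simpa [M.ng] using hy0)
    have hd : dd (M.ng v) = fun x => -dd v x := funext h.sol.dd_neg'
    have hn : ∀ x, nn (M.ng v) x = -nn v x := fun x => by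
      simp only [nn, hd, gradient, fderiv_fun_neg, map_neg]
    refine ⟨-σ, by rcases hσ with rfl | rfl <;> simp, fun w hw hh => ?_⟩
    obtain ⟨q1, q2, q3⟩ := h1 w hw hh
    refine ⟨?_, ?_, ?_⟩
    · rw [hd, ← abs_neg]; convert q1 using 2; ring
    · rwa [hn, show -nn v w - -σ • e = -(nn v w - σ • e) by module, norm_neg]
    · have : tt (M.ng v) w = tt v w := by
        change 1 - ‖nn (M.ng v) w‖ ^ 2 = 1 - ‖nn v w‖ ^ 2
        rw [hn, norm_neg]
      rwa [this]⟩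


theorem axis (h : Par v S ε D b e) (s : ℝ) (y : EE n) : ⟪e, b + s • e - y⟫ = s - ⟪e, y - b⟫ := by
  rw [show b + s • e - y = s • e - (y - b) by abel, inner_sub_right, real_inner_smul_right,
    real_inner_self_eq_norm_sq, h.unit]
  ring

theorem abs_le (h : Par v S ε D b e) (w : EE n) : |⟪e, w⟫| ≤ ‖w‖ :=
  (abs_real_inner_le_norm _ _).trans (by rw [h.unit, one_mul])

theorem axis_mem (h : Par v S ε D b e) {s r : ℝ} (hs : |s| ≤ r) : b + s • e ∈ closedBall b r := by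
  rw [mem_closedBall_iff_norm, add_sub_cancel_left, norm_smul, h.unit, mul_one]
  exact hs

/-- a zero at height `a` forces both signs on the axis near the height `a` -/
theorem signs (h : Par v S ε D b e) (hD : 1 ≤ D) {y : EE n} (hy : y ∈ closedBall b D)
    (hy0 : v y = 0) {c : ℝ} (hc : ε < c) (hc1 : c ≤ 1) :
    v (b + (⟪e, y - b⟫ + c) • e) < 0 ∨ v (b + (⟪e, y - b⟫ - c) • e) < 0 := by
  obtain ⟨σ, hσ, h1⟩ := h.par y hy hy0
  have ha := _root_.abs_le.1 ((h.abs_le (y - b)).trans (mem_closedBall_iff_norm.1 hy))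
  have hS := h.S2
  have h0 := h.e0
  have key : ∀ c' : ℝ, |c'| ≤ 1 → |dd v (b + (⟪e, y - b⟫ + c') • e) - σ * c'| ≤ ε := by
    intro c' h2
    have h3 := _root_.abs_le.1 h2
    have := (h1 (b + (⟪e, y - b⟫ + c') • e)
      (h.axis_mem (_root_.abs_le.2 ⟨by linarith, by linarith⟩))
      (by rw [h.axis, add_sub_cancel_left]; linarith)).1
    rwa [h.axis, add_sub_cancel_left] at this
  rcases hσ with rfl | rfl
  · have := _root_.abs_le.1 (key (-c) (by rw [abs_neg, abs_of_nonneg (by linarith)]; exact hc1))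
    exact Or.inr (neg_of_dd h.sol (by rw [sub_eq_add_neg]; linarith))
  · have := _root_.abs_le.1 (key c (by rw [abs_of_nonneg (by linarith)]; exact hc1))
    exact Or.inl (neg_of_dd h.sol (by linarith))

/-- **ZF**: positivity on the axis gives positivity in the slab -/
theorem pos (h : Par v S ε D b e) (hD : 1 ≤ D) {s1 s2 c : ℝ} (hc : ε < c) (hc1 : c ≤ 1)
    (hax : ∀ s, s1 ≤ s → s ≤ s2 → 0 < v (b + s • e)) {w : EE n} (hw : w ∈ closedBall b D)
    (h1 : s1 + c ≤ ⟪e, w - b⟫) (h2 : ⟪e, w - b⟫ ≤ s2 - c) : 0 < v w := by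
  have h0 := h.e0
  have hcv : Convex ℝ (closedBall b D ∩ {w | s1 + c + ⟪e, b⟫ ≤ ⟪e, w⟫} ∩
      {w | ⟪e, w⟫ ≤ s2 - c + ⟪e, b⟫}) :=
    ((convex_closedBall b D).inter (convex_halfSpace_ge (innerSL ℝ e).toLinearMap.isLinear _)).inter
      (convex_halfSpace_le (innerSL ℝ e).toLinearMap.isLinear _)
  have hm : ∀ x, x ∈ closedBall b D → s1 + c ≤ ⟪e, x - b⟫ → ⟪e, x - b⟫ ≤ s2 - c →
      x ∈ closedBall b D ∩ {w | s1 + c + ⟪e, b⟫ ≤ ⟪e, w⟫} ∩ {w | ⟪e, w⟫ ≤ s2 - c + ⟪e, b⟫} :=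
    fun x a1 a2 a3 => by
      rw [inner_sub_right] at a2 a3
      exact ⟨⟨a1, by simp only [mem_ofPred_eq]; linarith⟩, by simp only [mem_ofPred_eq]; linarith⟩
  have e1 : ⟪e, b + ⟪e, w - b⟫ • e - b⟫ = ⟪e, w - b⟫ := by rw [h.axis]; simp
  refine pos_conv h.sol.sm.continuous hcv (fun x hx hx0 => ?_) (x0 := b + ⟪e, w - b⟫ • e)
    (hm _ (h.axis_mem ((h.abs_le _).trans (mem_closedBall_iff_norm.1 hw))) (by rwa [e1])
      (by rwa [e1])) (hax _ (by linarith) (by linarith)) (hm w hw h1 h2)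
  have a2 : s1 + c + ⟪e, b⟫ ≤ ⟪e, x⟫ := hx.1.2
  have a3 : ⟪e, x⟫ ≤ s2 - c + ⟪e, b⟫ := hx.2
  have a4 : ⟪e, x - b⟫ = ⟪e, x⟫ - ⟪e, b⟫ := inner_sub_right _ _ _
  rcases h.signs hD hx.1.1 hx0 hc hc1 with q | q
  · exact absurd (hax _ (by linarith) (by linarith)) q.not_gt
  · exact absurd (hax _ (by linarith) (by linarith)) q.not_gt

/-- the plane of a zero with `v > 0` just below it on the axis has normal `-e` -/
theorem down (h : Par v S ε D b e) (hD : 1 ≤ D) {y : EE n} (hy : y ∈ closedBall b D)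
    (hy0 : v y = 0) {c : ℝ} (hc : ε < c) (hc1 : c ≤ 1) (hp : 0 ≤ v (b + (⟪e, y - b⟫ - c) • e)) :
    ∀ w ∈ closedBall b (2 * D), |⟪e, w - y⟫| ≤ S →
      |dd v w + ⟪e, w - y⟫| ≤ ε ∧ ‖nn v w + e‖ ≤ ε ∧ tt v w ≤ ε ^ 2 := by
  obtain ⟨σ, hσ, h1⟩ := h.par y hy hy0
  have ha := _root_.abs_le.1 ((h.abs_le (y - b)).trans (mem_closedBall_iff_norm.1 hy))
  have hS := h.S2
  have h0 := h.e0
  rcases hσ with rfl | rfl
  · have := (h1 (b + (⟪e, y - b⟫ - c) • e) (h.axis_mem (_root_.abs_le.2 ⟨by linarith, by linarith⟩))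
      (by rw [h.axis, sub_sub_cancel_left, abs_neg, abs_of_nonneg (by linarith)]; linarith)).1
    rw [h.axis, sub_sub_cancel_left] at this
    exact absurd hp (neg_of_dd h.sol (by linarith [_root_.abs_le.1 this])).not_ge
  · intro w hw hh
    simpa using h1 w hw hh

/-- the plane of a zero with `v > 0` just above it on the axis has normal `e` -/
theorem up (h : Par v S ε D b e) (hD : 1 ≤ D) {y : EE n} (hy : y ∈ closedBall b D)
    (hy0 : v y = 0) {c : ℝ} (hc : ε < c) (hc1 : c ≤ 1) (hp : 0 ≤ v (b + (⟪e, y - b⟫ + c) • e)) :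
    ∀ w ∈ closedBall b (2 * D), |⟪e, w - y⟫| ≤ S →
      |dd v w - ⟪e, w - y⟫| ≤ ε ∧ ‖nn v w - e‖ ≤ ε ∧ tt v w ≤ ε ^ 2 := by
  intro w hw hh
  have := h.neg.down hD hy hy0 hc hc1 (by
    rw [inner_neg_left, show (-⟪e, y - b⟫ - c) • -e = (⟪e, y - b⟫ + c) • e by module]
    exact hp) w hw (by rwa [inner_neg_left, abs_neg])
  simpa [inner_neg_left, sub_eq_add_neg] using this

end Par

/-- first zero on a ray -/
theorem first_zero (hv : Continuous v) (b e : EE n) {s1 s2 : ℝ} (h12 : s1 ≤ s2)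
    (h1 : 0 < v (b + s1 • e)) (h2 : v (b + s2 • e) ≤ 0) :
    ∃ f, s1 < f ∧ f ≤ s2 ∧ v (b + f • e) = 0 ∧ ∀ s, s1 ≤ s → s < f → 0 < v (b + s • e) := by
  have hc : Continuous fun s : ℝ => v (b + s • e) := by fun_prop
  have hcl : IsClosed (Icc s1 s2 ∩ {s : ℝ | v (b + s • e) ≤ 0}) :=
    isClosed_Icc.inter (isClosed_le hc continuous_const)
  obtain ⟨f, hf, hmin⟩ := (isCompact_Icc.of_isClosed_subset hcl inter_subset_left).exists_isLeast
    ⟨s2, right_mem_Icc.2 h12, h2⟩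
  have hpos : ∀ s, s1 ≤ s → s < f → 0 < v (b + s • e) := fun s a1 a2 => by
    by_contra a3
    exact absurd (hmin ⟨⟨a1, a2.le.trans hf.1.2⟩, not_lt.1 a3⟩) a2.not_ge
  have hlt : s1 < f := lt_of_le_of_ne hf.1.1 fun h => absurd hf.2 (by rw [← h]; exact h1.not_ge)
  refine ⟨f, hlt, hf.1.2, ?_, hpos⟩
  obtain ⟨s, hs, hs0⟩ := intermediate_value_Icc' hlt.le hc.continuousOn ⟨hf.2, h1.le⟩
  rcases eq_or_lt_of_le hs.2 with h | h
  · rwa [h] at hs0
  · exact absurd hs0 (hpos s hs.1 h).ne'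

end Crest.Agent.N067.M.Pn
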