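import Crest.Agent.N067.F.Hf
import Crest.Agent.N067.M.FDefs
import Crest.Agent.N067.M.FL0
import Crest.Agent.N067.M.Bas

-- ▼ part N067/F/SlH
section

/-!
# Row 67, FLUX, case F (helper10): parallel planes up to a given height; one side of a sheet
-/

set_option autoImplicit false
set_option linter.unusedVariables false

open InnerProductSpace Set Metric Topology Filter
open scoped RealInnerProductSpace Gradient

namespace Crest.Agent.N067.M.Pn

open Crest.Agent.R077 Crest.Agent.N067.V Crest.Agent.N067.M.Wd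

variable {n : ℕ} {v : EE n → ℝ}


/-- all zeros near `b` of height at most `H` lie on planes parallel to `e^⊥` -/
structure ParH (v : EE n → ℝ) (S ε D H : ℝ) (b e : EE n) : Prop where
  sol : Sol v
  unit : ‖e‖ = 1
  S2 : 2 ≤ S
  e0 : 0 ≤ ε
  e1 : ε ≤ 1 / 8
  D1 : 1 ≤ D
  par : ∀ y ∈ closedBall b D, v y = 0 → |⟪e, y - b⟫| ≤ H → ∃ σ : ℝ, (σ = 1 ∨ σ = -1) ∧
    ∀ w ∈ closedBall b (2 * D), |⟪e, w - y⟫| ≤ S →
      |dd v w - σ * ⟪e, w - y⟫| ≤ ε ∧ ‖nn v w - σ • e‖ ≤ ε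


theorem axis_in {e : EE n} (he : ‖e‖ = 1) (b : EE n) (s : ℝ) (y : EE n) :
    ⟪e, b + s • e - y⟫ = s - ⟪e, y - b⟫ := by
  rw [show b + s • e - y = s • e - (y - b) by abel, inner_sub_right, real_inner_smul_right,
    real_inner_self_eq_norm_sq, he]
  ring

theorem abs_in {e : EE n} (he : ‖e‖ = 1) (w : EE n) : |⟪e, w⟫| ≤ ‖w‖ :=
  (abs_real_inner_le_norm _ _).trans (by rw [he, one_mul])

theorem axis_ball {e : EE n} (he : ‖e‖ = 1) (b : EE n) {s r : ℝ} (hs : |s| ≤ r) :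
    b + s • e ∈ closedBall b r := by
  rw [mem_closedBall_iff_norm, add_sub_cancel_left, norm_smul, he, mul_one]
  exact hs

namespace ParH

variable {S ε D H : ℝ} {b e : EE n}

theorem neg (h : ParH v S ε D H b e) : ParH v S ε D H b (-e) :=
  ⟨h.sol, by rw [norm_neg]; exact h.unit, h.S2, h.e0, h.e1, h.D1, fun y hy hy0 hH => by
    obtain ⟨σ, hσ, h1⟩ := h.par y hy hy0 (by rwa [inner_neg_left, abs_neg] at hH)
    refine ⟨-σ, by rcases hσ with rfl | rfl <;> simp, fun w hw hh => ?_⟩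
    rw [inner_neg_left, abs_neg] at hh
    simpa [inner_neg_left] using h1 w hw hh⟩

theorem ng (h : ParH v S ε D H b e) : ParH (M.ng v) S ε D H b e :=
  ⟨h.sol.neg', h.unit, h.S2, h.e0, h.e1, h.D1, fun y hy hy0 hH => by
    obtain ⟨σ, hσ, h1⟩ := h.par y hy (by simpa [M.ng] using hy0) hH
    have hd : dd (M.ng v) = fun x => -dd v x := funext h.sol.dd_neg'
    have hn : ∀ x, nn (M.ng v) x = -nn v x := fun x => by
      simp only [nn, hd, gradient, fderiv_fun_neg, map_neg]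
    refine ⟨-σ, by rcases hσ with rfl | rfl <;> simp, fun w hw hh => ?_⟩
    obtain ⟨q1, q2⟩ := h1 w hw hh
    refine ⟨?_, ?_⟩
    · rw [hd, ← abs_neg]; convert q1 using 2; ring
    · rwa [hn, show -nn v w - -σ • e = -(nn v w - σ • e) by module, norm_neg]⟩

/-- a zero at height `a` forces a negative value on the axis near the height `a` -/
theorem signs (h : ParH v S ε D H b e) {y : EE n} (hy : y ∈ closedBall b D)
    (hy0 : v y = 0) (hH : |⟪e, y - b⟫| ≤ H) {c : ℝ} (hc : ε < c) (hc1 : c ≤ 1) :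
    v (b + (⟪e, y - b⟫ + c) • e) < 0 ∨ v (b + (⟪e, y - b⟫ - c) • e) < 0 := by
  obtain ⟨σ, hσ, h1⟩ := h.par y hy hy0 hH
  have ha := abs_le.1 ((abs_in h.unit (y - b)).trans (mem_closedBall_iff_norm.1 hy))
  have hS := h.S2
  have h0 := h.e0
  have hD := h.D1
  have key : ∀ c' : ℝ, |c'| ≤ 1 → |dd v (b + (⟪e, y - b⟫ + c') • e) - σ * c'| ≤ ε := by
    intro c' h2
    have h3 := abs_le.1 h2
    have := (h1 (b + (⟪e, y - b⟫ + c') • e)
      (axis_ball h.unit b (abs_le.2 ⟨by linarith, by linarith⟩))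
      (by rw [axis_in h.unit, add_sub_cancel_left]; linarith)).1
    rwa [axis_in h.unit, add_sub_cancel_left] at this
  rcases hσ with rfl | rfl
  · have := abs_le.1 (key (-c) (by rw [abs_neg, abs_of_nonneg (by linarith)]; exact hc1))
    exact Or.inr (neg_of_dd h.sol (by rw [sub_eq_add_neg]; linarith))
  · have := abs_le.1 (key c (by rw [abs_of_nonneg (by linarith)]; exact hc1))
    exact Or.inl (neg_of_dd h.sol (by linarith))

/-- positivity on the axis gives positivity in the slab -/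
theorem pos (h : ParH v S ε D H b e) {s1 s2 c : ℝ} (hc : ε < c) (hc1 : c ≤ 1) (k1 : -H ≤ s1)
    (k2 : s2 ≤ H) (hax : ∀ s, s1 ≤ s → s ≤ s2 → 0 < v (b + s • e)) {w : EE n}
    (hw : w ∈ closedBall b D) (h1 : s1 + c ≤ ⟪e, w - b⟫) (h2 : ⟪e, w - b⟫ ≤ s2 - c) : 0 < v w := by
  have h0 := h.e0
  have hcv : Convex ℝ (closedBall b D ∩ {w | s1 + c + ⟪e, b⟫ ≤ ⟪e, w⟫} ∩
      {w | ⟪e, w⟫ ≤ s2 - c + ⟪e, b⟫}) :=
    ((convex_closedBall b D).inter (convex_halfSpace_ge (innerSL ℝ e).toLinearMap.isLinear _)).inter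
      (convex_halfSpace_le (innerSL ℝ e).toLinearMap.isLinear _)
  have hm : ∀ x, x ∈ closedBall b D → s1 + c ≤ ⟪e, x - b⟫ → ⟪e, x - b⟫ ≤ s2 - c →
      x ∈ closedBall b D ∩ {w | s1 + c + ⟪e, b⟫ ≤ ⟪e, w⟫} ∩ {w | ⟪e, w⟫ ≤ s2 - c + ⟪e, b⟫} :=
    fun x a1 a2 a3 => by
      rw [inner_sub_right] at a2 a3
      exact ⟨⟨a1, by simp only [mem_ofPred_eq]; linarith⟩, by simp only [mem_ofPred_eq]; linarith⟩
  have e1 : ⟪e, b + ⟪e, w - b⟫ • e - b⟫ = ⟪e, w - b⟫ := by rw [axis_in h.unit]; simp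
  refine pos_conv h.sol.sm.continuous hcv (fun x hx hx0 => ?_) (x0 := b + ⟪e, w - b⟫ • e)
    (hm _ (axis_ball h.unit b ((abs_in h.unit _).trans (mem_closedBall_iff_norm.1 hw)))
      (by rwa [e1]) (by rwa [e1])) (hax _ (by linarith) (by linarith)) (hm w hw h1 h2)
  have a2 : s1 + c + ⟪e, b⟫ ≤ ⟪e, x⟫ := hx.1.2
  have a3 : ⟪e, x⟫ ≤ s2 - c + ⟪e, b⟫ := hx.2
  have a4 : ⟪e, x - b⟫ = ⟪e, x⟫ - ⟪e, b⟫ := inner_sub_right _ _ _
  rcases h.signs hx.1.1 hx0 (abs_le.2 ⟨by linarith, by linarith⟩) hc hc1 with q | q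
  · exact absurd (hax _ (by linarith) (by linarith)) q.not_gt
  · exact absurd (hax _ (by linarith) (by linarith)) q.not_gt

/-- the plane of a zero with `v ≥ 0` just below it on the axis has normal `-e` -/
theorem down (h : ParH v S ε D H b e) {y : EE n} (hy : y ∈ closedBall b D) (hy0 : v y = 0)
    (hH : |⟪e, y - b⟫| ≤ H) {c : ℝ} (hc : ε < c) (hc1 : c ≤ 1)
    (hp : 0 ≤ v (b + (⟪e, y - b⟫ - c) • e)) : ∀ w ∈ closedBall b (2 * D), |⟪-e, w - y⟫| ≤ S →
      |dd v w - ⟪-e, w - y⟫| ≤ ε ∧ ‖nn v w - -e‖ ≤ ε := by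
  obtain ⟨σ, hσ, h1⟩ := h.par y hy hy0 hH
  have ha := abs_le.1 ((abs_in h.unit (y - b)).trans (mem_closedBall_iff_norm.1 hy))
  have hS := h.S2
  have h0 := h.e0
  have hD := h.D1
  rcases hσ with rfl | rfl
  · have := (h1 (b + (⟪e, y - b⟫ - c) • e)
      (axis_ball h.unit b (abs_le.2 ⟨by linarith, by linarith⟩))
      (by rw [axis_in h.unit, sub_sub_cancel_left, abs_neg, abs_of_nonneg (by linarith)]
          linarith)).1
    rw [axis_in h.unit, sub_sub_cancel_left] at this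
    exact absurd hp (neg_of_dd h.sol (by linarith [abs_le.1 this])).not_ge
  · intro w hw hh
    rw [inner_neg_left, abs_neg] at hh
    simpa [inner_neg_left] using h1 w hw hh

end ParH


end Crest.Agent.N067.M.Pn
end

-- ▼ part N067/F/Bot

/-! # Row 67, FLUX, case F (helper10): the two-sided sheet below `x` -/

set_option autoImplicit false
set_option linter.unusedVariables false

open InnerProductSpace Set Metric Topology Filter
open scoped RealInnerProductSpace Gradient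

namespace Crest.Agent.N067.M

open Crest.Agent.R077 Crest.Agent.N067.V Crest.Agent.N067.M.Wd Crest.Agent.N067.M.Pn

variable {n : ℕ} {v : EE n → ℝ}

namespace Pn

theorem small_log (A : ℝ) : ∃ M : ℝ, 1 ≤ M ∧ ∀ u : ℝ, 0 < u → u ≤ 1 / M →
    A ≤ Real.log (1 / u) ∧ A * Real.log (1 / u) ^ 3 * u ≤ 1 ∧ Real.exp (-Real.log (1 / u)) = u := by
  have hA := abs_nonneg A
  refine ⟨Real.exp (24 * |A| + 1), Real.one_le_exp (by positivity), fun u hu h => ?_⟩
  have h1 : 24 * |A| + 1 ≤ Real.log (1 / u) := by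
    rw [Real.le_log_iff_exp_le (by positivity), le_div_iff₀ hu]
    rw [le_div_iff₀ (Real.exp_pos _)] at h
    linarith
  have h2 := Real.pow_div_factorial_le_exp (Real.log (1 / u)) (by linarith) 4
  rw [Real.exp_log (by positivity), le_div_iff₀ hu] at h2
  have h5 : ((Nat.factorial 4 : ℕ) : ℝ) = 24 := by norm_num [Nat.factorial]
  rw [h5] at h2
  refine ⟨by linarith [le_abs_self A], ?_, by
    rw [Real.exp_neg, Real.exp_log (by positivity), one_div, inv_inv]⟩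
  generalize Real.log (1 / u) = L at *
  have h3 : 0 ≤ L ^ 3 * u := by
    have : 0 ≤ L := by linarith
    positivity
  have h4 := mul_le_mul_of_nonneg_right (show 24 * A ≤ L by linarith [le_abs_self A]) h3
  nlinarith

/-- `Par` at a zero near a point in case F -/
theorem par_ff (n : ℕ) {S : ℝ} (hS : 2 ≤ S) : ∃ A : ℝ, 1 ≤ A ∧ ∀ (v : EE n → ℝ) (x b : EE n),
    Sol v → 0 < ph0 v x → A * ph0 v x ≤ 1 → FF v x → v b = 0 → ‖b - x‖ ≤ 1 / ph0 v x →
    Par v S (82 * ph0 v x ^ 6) (3 * (1 / ph0 v x) ^ 2) b (nu v b) ∧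
      ∀ w ∈ closedBall b (2 * (3 * (1 / ph0 v x) ^ 2)), |⟪nu v b, w - b⟫| ≤ S →
        |dd v w - ⟪nu v b, w - b⟫| ≤ 82 * ph0 v x ^ 6 ∧ ‖nn v w - nu v b‖ ≤ 82 * ph0 v x ^ 6 := by
  obtain ⟨K, hK, h⟩ := par_of_small n hS
  refine ⟨84 * K, by linarith, fun v x b hv h0 hA hF hb hx => ?_⟩
  have hF' : ∀ z, ‖z - x‖ ≤ (1 / ph0 v x) ^ 11 → v z = 0 → tt v z ≤ ph0 v x ^ 100 :=
    fun z hz h1 => hF z hz (by rw [(dd_zero_iff hv).2 h1]; simp)
  generalize ph0 v x = u at *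
  have hρ : 84 * K ≤ 1 / u := by rw [le_div_iff₀ h0]; exact hA
  have hu : u = 1 / (1 / u) := by simp
  have hu1 : u ≤ 1 / 84 := by nlinarith
  have e6 : 9 * (3 * (1 / u) ^ 2) ^ 2 / (1 / u) ^ 10 = 81 * u ^ 6 := by field_simp; ring
  have e7 : √(u ^ 100) = u ^ 50 := by
    rw [show u ^ 100 = (u ^ 50) ^ 2 by ring, Real.sqrt_sq (by positivity)]
  have e8 : (1 / u) ^ 2 * (u ^ 50 * (2 * (1 / u) ^ 10) ^ 2) = 4 * u ^ 28 := by field_simp; ring
  have e9 : u ^ 28 ≤ u ^ 7 := pow_le_pow_of_le_one h0.le (by linarith) (by norm_num)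
  have e10 : u ^ 6 ≤ u ^ 2 := pow_le_pow_of_le_one h0.le (by linarith) (by norm_num)
  have r1 : (84 : ℝ) ≤ 1 / u := by linarith
  have r2 : (1 / u) ^ 2 ≤ (1 / u) ^ 9 := pow_le_pow_right₀ (by linarith) (by norm_num)
  have r3 : (1 / u) ^ 1 ≤ (1 / u) ^ 9 := pow_le_pow_right₀ (by linarith) (by norm_num)
  have r4 : 84 * (1 / u) ^ 9 ≤ (1 / u) ^ 10 := by
    rw [pow_succ' (1 / u) 9]; exact mul_le_mul_of_nonneg_right r1 (by positivity)
  have r5 : 84 * (1 / u) ^ 10 ≤ (1 / u) ^ 11 := by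
    rw [pow_succ' (1 / u) 10]; exact mul_le_mul_of_nonneg_right r1 (by positivity)
  rw [pow_one] at r3
  refine h v hv b _ ((1 / u) ^ 10) (u ^ 100) _ (by nlinarith) (by linarith) hb
    (fun z hz h1 => hF' z ?_ h1) ?_ (by nlinarith)
  · have := norm_sub_le_norm_sub_add_norm_sub z b x
    linarith [mem_closedBall_iff_norm.1 hz]
  · rw [e6, e7]
    have a1 : (1 + (1 / u) ^ 10) ^ 2 ≤ (2 * (1 / u) ^ 10) ^ 2 := by gcongr; linarith
    have a2 : (1 / u) ^ 2 * (u ^ 50 * (1 + (1 / u) ^ 10) ^ 2) ≤ 4 * u ^ 7 :=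
      le_trans (by gcongr) (e8.le.trans (by linarith))
    have a3 := mul_le_mul_of_nonneg_left a2 (by linarith : 0 ≤ 21 * K)
    have a4 := mul_le_mul_of_nonneg_right hA (pow_pos h0 6).le
    nlinarith

/-- one side of a sheet -/
theorem sheet_of (n : ℕ) : ∃ S0 C : ℝ, 2 ≤ S0 ∧ 1 ≤ C ∧ ∀ v : EE n → ℝ, Sol v →
    ∀ (y e : EE n) (S ε R l L δ : ℝ), ‖e‖ = 1 → S0 ≤ S → 0 ≤ ε → 0 ≤ l → 0 ≤ L →
    (∀ w, ‖w - y‖ ≤ R + (42 * l + 20 * L + S + 2) → |⟪e, w - y⟫| ≤ S →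
      |dd v w - ⟪e, w - y⟫| ≤ ε ∧ ‖nn v w - e‖ ≤ ε) →
    (∀ w, ‖w - y‖ ≤ R + (42 * l + 20 * L + S + 2) → 1 ≤ ⟪e, w - y⟫ →
      ⟪e, w - y⟫ ≤ 42 * l + 20 * L + S + 2 → 0 < v w) →
    C * (ε + Real.exp (-L)) ≤ δ → Sheet v y e R S l δ := by
  obtain ⟨S0, C, hS0, hC, H⟩ := half n
  refine ⟨S0, 2 * C, hS0, by linarith, fun v hv y e S ε R l L δ he hS hε hl hL hP hZ hδ =>
    ⟨he, fun q h1 h2 h3 => ?_⟩⟩
  have hE := Real.exp_pos (-L)
  rcases le_total ⟪e, q - y⟫ S with k | k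
  · obtain ⟨a1, a2⟩ := hP q (by linarith) (abs_le.2 ⟨h2, k⟩)
    have a3 := tt_le_two hv he q
    have a4 : 2 * ε ≤ δ := by nlinarith
    exact ⟨by linarith, by linarith, by linarith⟩
  have hin : ∀ w ∈ closedBall q (41 * l + 20 * L + 1 + S0 + 1),
      ‖w - y‖ ≤ R + (42 * l + 20 * L + S + 2) ∧ ⟪e, w - y⟫ ≤ 42 * l + 20 * L + S + 2 := by
    intro w hw
    have a1 := mem_closedBall_iff_norm.1 hw
    have a2 := (abs_le.1 (abs_in he (w - q))).2
    have a3 : ⟪e, w - y⟫ = ⟪e, w - q⟫ + ⟪e, q - y⟫ := by rw [← inner_add_right]; simp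
    exact ⟨by linarith [norm_sub_le_norm_sub_add_norm_sub w q y], by linarith⟩
  obtain ⟨b1, b2, b3⟩ := H v hv y e q (41 * l + 20 * L + 1) ε he hε
    (fun w hw a => hZ w (hin w hw).1 a (hin w hw).2)
    (fun w hw a => (hP w (hin w (closedBall_subset_closedBall (by linarith) hw)).1 (a.trans hS)).1)
    (by linarith) (by rw [abs_of_nonneg (by linarith)]; linarith)
  have a1 : Real.exp (2 * ⟪e, q - y⟫ - (41 * l + 20 * L + 1) / 20) ≤ Real.exp (-L) :=
    Real.exp_le_exp.2 (by linarith)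
  have a2 : C * (ε + Real.exp (2 * ⟪e, q - y⟫ - (41 * l + 20 * L + 1) / 20)) ≤ δ :=
    le_trans (mul_le_mul (by linarith) (by linarith) (by positivity) (by linarith)) hδ
  exact ⟨b1.trans a2, b2.trans a2, b3.trans a2⟩

theorem exp_six {u L : ℝ} (h : Real.exp (-L) = u) : Real.exp (-(6 * L)) = u ^ 6 := by
  rw [← h, ← Real.exp_nat_mul]; congr 1; push_cast; ring

set_option maxHeartbeats 1600000 in
/-- the upper side of the sheet through a zero near `x` -/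
theorem one (n : ℕ) {C3 : ℝ} (h3 : 1 ≤ C3) : ∃ M : ℝ, 1 ≤ M ∧ ∀ (v : EE n → ℝ) (x b : EE n),
    PS v → 0 < ph0 v x → ph0 v x ≤ 1 / M → FF v x → v b = 0 → ‖b - x‖ ≤ C3 * lg v x →
    Sheet v b (nu v b) ((1 / ph0 v x) ^ 2) 2 (C3 * lg v x) (ph0 v x ^ 5) := by
  obtain ⟨S0, C, hS0, hC, H⟩ := sheet_of n
  obtain ⟨A, hA, hp⟩ := par_ff n hS0
  obtain ⟨C1, hC1, hf⟩ := fl_ph0 n
  set B := 42 * C3 + 120 + S0 + 3 with hB
  have hB1 : 1 ≤ B := by linarith
  have k0 : 0 ≤ 16 * C1 * C3 ^ 2 * B := by positivity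
  obtain ⟨M, hM, hs⟩ := small_log (A + 83 * C + 16 * C1 * C3 ^ 2 * B + B)
  refine ⟨M, hM, fun v x b hv h0 hu hF hb hx => ?_⟩
  obtain ⟨s1, s2, s3⟩ := hs _ h0 hu
  have hsol : Sol v := hv.toSol
  have hfb := hf v hsol hv.stab x b
  have hL : Real.log (1 / ph0 v x) = lg v x := rfl
  rw [hL] at s1 s2 s3
  have hL1 : 1 ≤ lg v x := by linarith
  have hL3 : 1 ≤ lg v x ^ 3 := one_le_pow₀ hL1
  have hLL : lg v x ≤ lg v x ^ 3 := by simpa using pow_le_pow_right₀ hL1 (by norm_num : 1 ≤ 3)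
  have hsm : ∀ a, 0 ≤ a → a ≤ A + 83 * C + 16 * C1 * C3 ^ 2 * B + B →
      a * ph0 v x ≤ 1 ∧ a * lg v x * ph0 v x ≤ 1 ∧ a * lg v x ^ 3 * ph0 v x ≤ 1 := by
    intro a a0 a1
    have a2 : a * lg v x ^ 3 * ph0 v x ≤ 1 := le_trans (by gcongr) s2
    exact ⟨le_trans (mul_le_mul_of_nonneg_right (le_mul_of_one_le_right a0 hL3) h0.le) a2,
      le_trans (by gcongr) a2, a2⟩
  have hBρ : B * lg v x ≤ 1 / ph0 v x := by
    rw [le_div_iff₀ h0]; exact (hsm B (by linarith) (by linarith)).2.1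
  have hC3 : C3 * lg v x ≤ B * lg v x := by gcongr; linarith
  obtain ⟨P, hup⟩ := hp v x b hsol h0 (hsm A (by linarith) (by linarith)).1 hF hb (by linarith)
  have hρ1 : 1 ≤ 1 / ph0 v x := by nlinarith
  have hρ2 : 1 / ph0 v x ≤ (1 / ph0 v x) ^ 2 := by nlinarith
  have hH : 42 * (C3 * lg v x) + 20 * (6 * lg v x) + S0 + 2 + 1 ≤ B * lg v x := by
    rw [hB]; nlinarith
  -- the axis
  have hN : 7 / 8 ≤ ⟪nn v b, nu v b⟫ := by
    have a1 := (hup b (mem_closedBall_self (by positivity)) (by simp; linarith)).2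
    have a2 := abs_le.1 ((abs_in P.unit (nn v b - nu v b)).trans a1)
    rw [inner_sub_right, real_inner_self_eq_norm_sq, P.unit, real_inner_comm] at a2
    linarith [P.e1]
  have hκ : ph0 v b * (B * lg v x) ≤ 1 / 4 := by
    have a1 : (1 + ‖x - b‖) ^ 2 ≤ (2 * C3 * lg v x) ^ 2 := by
      rw [norm_sub_rev]; gcongr; nlinarith
    have a2 : ph0 v b ≤ C1 * ((2 * C3 * lg v x) ^ 2 * ph0 v x) := hfb.trans (by gcongr)
    have a3 := mul_le_mul_of_nonneg_right a2 (by positivity : 0 ≤ B * lg v x)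
    have a4 := (hsm _ k0 (by linarith)).2.2
    nlinarith
  have hax : ∀ s, 1 / 4 ≤ s → s ≤ B * lg v x → 0 < v (b + s • nu v b) := fun s a1 a2 => by
    have a3 := (abs_le.1 (flat_ph0 hsol b (b + s • nu v b))).1
    rw [add_sub_cancel_left, (dd_zero_iff hsol).2 hb, real_inner_smul_right, norm_smul, P.unit,
      Real.norm_of_nonneg (by linarith), mul_one] at a3
    have a4 : ph0 v b * s ≤ 1 / 4 :=
      le_trans (mul_le_mul_of_nonneg_left a2 (ph0_nonneg hsol b)) hκ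
    have a5 : ∇ (dd v) b = nn v b := rfl
    rw [a5] at a3
    exact pos_of_dd hsol (by nlinarith)
  refine (H v hsol b (nu v b) S0 _ _ _ (6 * lg v x) _ P.unit le_rfl P.e0 (by positivity)
    (by positivity) (fun w hw => hup w (mem_closedBall_iff_norm.2 (by linarith)))
    (fun w hw a1 a2 => P.pos (by linarith) (c := 1 / 4) (by linarith [P.e1]) (by norm_num) hax
      (mem_closedBall_iff_norm.2 (by linarith)) (by linarith) (by linarith)) ?_).mono
    le_rfl hS0 le_rfl le_rfl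
  rw [exp_six s3]
  have a1 := mul_le_mul_of_nonneg_right (hsm (83 * C) (by linarith) (by linarith)).1
    (pow_pos h0 5).le
  nlinarith

/-- both sides -/
theorem two (n : ℕ) {C3 : ℝ} (h3 : 1 ≤ C3) : ∃ M : ℝ, 1 ≤ M ∧ ∀ (v : EE n → ℝ) (x b : EE n),
    PS v → 0 < ph0 v x → ph0 v x ≤ 1 / M → FF v x → v b = 0 → ‖b - x‖ ≤ C3 * lg v x →
    Sheet v b (nu v b) ((1 / ph0 v x) ^ 2) (C3 * lg v x) (C3 * lg v x) (ph0 v x ^ 5) := by
  obtain ⟨M, hM, h⟩ := one n h3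
  refine ⟨M, hM, fun v x b hv h0 hu hF hb hx => ?_⟩
  have h1 := (h (ng v) x b (ps_ng hv) (by rwa [ph0_ng]) (by rwa [ph0_ng]) (hF.ng hv.toSol)
    (by simp [ng, hb]) (by rwa [lg, ph0_ng])).ng (sol_ng hv.toSol)
  rw [ng_ng, nu_ng hv.toSol, neg_neg, lg, ph0_ng] at h1
  exact (h v x b hv h0 hu hF hb hx).both h1 (by norm_num) (by norm_num)

end Pn

theorem val_pos {M C2 ρm : ℝ} {x : EE n} (hv : Sol v) (h : x ∈ Val v M C2 ρm) : 0 < ph0 v x := by
  refine (ph0_nonneg hv x).lt_of_ne' fun h0 => ?_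
  have := h.2.1
  rw [h0] at this
  simp at this
  exact absurd this (abs_nonneg _).not_gt

set_option maxHeartbeats 1600000 in
/-- **BOT** -/
theorem bot (n : ℕ) : BotStmt n := by
  intro C2 C3
  obtain ⟨C, hC, hz⟩ := near_zero n
  have p2 := abs_nonneg C2
  have p3 := abs_nonneg C3
  set B := |C3| + 4 * |C2| + 2 * C + 2 with hB
  obtain ⟨M1, hM1, h1⟩ := two n (C3 := B) (by linarith)
  obtain ⟨M2, hM2, h2⟩ := small_log (4 * B)
  refine ⟨max M1 M2, le_max_of_le_left hM1, fun v ρm x hv hx hF => ?_⟩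
  have hsol : Sol v := hv.toSol
  have h0 := val_pos hsol hx
  have hu1 : ph0 v x ≤ 1 / M1 :=
    hx.1.le.trans (one_div_le_one_div_of_le (by linarith) (le_max_left _ _))
  obtain ⟨s1, s2, -⟩ := h2 _ h0
    (hx.1.le.trans (one_div_le_one_div_of_le (by linarith) (le_max_right _ _)))
  have hd := hx.2.1.le
  have hL : Real.log (1 / ph0 v x) = lg v x := rfl
  rw [hL] at s1 s2 hd
  have hL1 : 1 ≤ lg v x := by linarith
  have hd' : |dd v x| ≤ |C2| * lg v x := hd.trans (by gcongr; exact le_abs_self _)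
  have hLL : lg v x ≤ lg v x ^ 3 := by simpa using pow_le_pow_right₀ hL1 (by norm_num : 1 ≤ 3)
  have s4 : 4 * B * lg v x * ph0 v x ≤ 1 := le_trans (by gcongr) s2
  have hBL : B ≤ B * lg v x := le_mul_of_one_le_right (by linarith) hL1
  have hu : ph0 v x ≤ 1 / 8 := by nlinarith
  have hρ : 4 * (B * lg v x) ≤ (1 / ph0 v x) ^ 2 := by
    have a1 : 4 * (B * lg v x) ≤ 1 / ph0 v x := by rw [le_div_iff₀ h0]; linarith
    nlinarith
  have hu5 : ph0 v x ^ 5 ≤ ph0 v x ^ 2 := pow_le_pow_of_le_one h0.le (by linarith) (by norm_num)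
  have hu6 : ph0 v x ^ 5 ≤ 1 / 8 := by nlinarith
  obtain ⟨b, hb, hbx⟩ := hz v hsol x
  have hbx' : 2 * ‖b - x‖ + 2 ≤ B * lg v x := by rw [hB]; nlinarith
  have n0 := norm_nonneg (b - x)
  have S := h1 v x b hv h0 hu1 hF hb (by linarith)
  have he := S.unit
  generalize nu v b = e at S he
  set h := ⟪e, x - b⟫ with hh
  have hab : |h| ≤ ‖b - x‖ := (abs_in he _).trans (norm_sub_rev _ _).le
  have hline : ∀ s : ℝ, |s| ≤ 1 → |dd v (x + (s - h) • e) - s| ≤ ph0 v x ^ 5 ∧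
      ‖nn v (x + (s - h) • e) - e‖ ≤ ph0 v x ^ 5 ∧ tt v (x + (s - h) • e) ≤ ph0 v x ^ 5 := by
    intro s hs
    have a1 : ⟪e, x + (s - h) • e - b⟫ = s := by
      rw [axis_in he, ← neg_sub x b, inner_neg_right]; ring
    have a2 := mem_closedBall_iff_norm.1 (axis_ball he x ((abs_sub s h).trans le_rfl))
    have a3 := norm_sub_le_norm_sub_add_norm_sub (x + (s - h) • e) x b
    rw [norm_sub_rev x b] at a3
    have := S.est _ (by linarith) (by rw [a1]; linarith [abs_le.1 hs])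
      (by rw [a1]; linarith [abs_le.1 hs])
    rwa [a1] at this
  have hc : Continuous fun s : ℝ => dd v (x + (s - h) • e) :=
    (hsol.dd_cd 0).continuous.comp (by fun_prop)
  obtain ⟨s, hs1, hs0⟩ := intermediate_value_Icc (show (-1 / 4 : ℝ) ≤ 1 / 4 by norm_num)
    hc.continuousOn (show (0 : ℝ) ∈ _ from
      ⟨by linarith [abs_le.1 (hline (-1 / 4) (by rw [abs_le]; norm_num)).1],
        by linarith [abs_le.1 (hline (1 / 4) (by rw [abs_le]; norm_num)).1]⟩)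
  have hs : |s| ≤ 1 := abs_le.2 ⟨by linarith [hs1.1], by linarith [hs1.2]⟩
  obtain ⟨q1, q2, q3⟩ := hline s hs
  have hs0' : dd v (x + (s - h) • e) = 0 := hs0
  have q4 := (S.est x (by rw [norm_sub_rev]; linarith) (by linarith [abs_le.1 hab])
    (by linarith [abs_le.1 hab])).1
  have q5 := mem_closedBall_iff_norm.1 (axis_ball he x ((abs_sub s h).trans le_rfl))
  refine ⟨x + (s - h) • e, hs0', (h1 v x _ hv h0 hu1 hF ((dd_zero_iff hsol).1 hs0')
    (by linarith)).mono le_rfl ?_ ?_ le_rfl, ?_⟩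
  · gcongr; linarith [le_abs_self C3]
  · gcongr; linarith [le_abs_self C3]
  have q6 := norm_nn_sub_nu hsol (NN_pos (y := x + (s - h) • e) (by linarith))
  rw [hs0', zero_sub, abs_neg] at q1
  generalize nu v (x + (s - h) • e) = e' at *
  have q7 : ‖e - e'‖ ≤ 2 * ph0 v x ^ 5 := by
    rw [norm_sub_rev] at q2
    linarith [norm_sub_le_norm_sub_add_norm_sub e (nn v (x + (s - h) • e)) e']
  rw [show x - (x + (s - h) • e + dd v x • e') = (h - dd v x - s) • e + dd v x • (e - e') by module]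
  refine (norm_add_le _ _).trans ?_
  rw [norm_smul, norm_smul, he, mul_one, Real.norm_eq_abs, Real.norm_eq_abs]
  have q8 : |h - dd v x - s| ≤ 2 * ph0 v x ^ 5 := by
    rw [abs_sub_comm] at q4
    exact (abs_sub _ _).trans (by linarith)
  have q9 : |dd v x| + 1 ≤ B * lg v x := by rw [hB]; nlinarith
  have q10 := mul_le_mul_of_nonneg_left q7 (abs_nonneg (dd v x))
  have q11 := mul_le_mul q9 hu5 (pow_pos h0 5).le (by linarith)
  have q12 := mul_le_mul_of_nonneg_right s4 h0.le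
  nlinarith

end Crest.Agent.N067.M
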