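import Crest.Agent.N067.A.HKS
import Crest.Agent.N067.A.Ball
import Crest.Agent.N067.V.Phi3
import Crest.Agent.N067.K.Defs

/-!
# Row 67, block FLAT (helper72), part 1: first order consequences of `Flat v κ x`

With `|∇d x| ≥ 1/2`: `t x ≤ C κ`, all derivatives of `d - affine` are `≤ C κ (1 + |y - x|)²`
on the whole space, flatness propagates, `φ_±` are `C κ`-Lipschitz near `x`.
-/

set_option autoImplicit false

open MeasureTheory Laplacian InnerProductSpace Topology Filter Set Metric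
open scoped RealInnerProductSpace ContDiff Gradient

namespace Crest.Agent.N067

open Crest.Agent.R077 V

noncomputable section

variable {n : ℕ} {v : EE n → ℝ} {κ : ℝ} {x : EE n}

/-! ### the symmetry `v → -v` -/

theorem Sol.neg (h : Sol v) : Sol fun x => -v x :=
  ⟨h.sm.neg, fun x => by rw [abs_neg]; exact h.lt x, h.isSol.neg.eq⟩

theorem Sol.dd_neg (h : Sol v) : dd (fun y => -v y) = fun y => -dd v y := funext fun x => by
  rw [dd, h.eq_tanh x, ← Real.tanh_neg, Real.artanh_tanh, mul_neg, mul_div_cancel₀ _ sqrt2_pos.ne']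

theorem grad_neg (f : EE n → ℝ) (x : EE n) : ∇ (fun y => -f y) x = -∇ f x := by
  ext i; simp only [PiLp.neg_apply, grad_apply, pdv_neg]

theorem Sol.grad_dd_neg (h : Sol v) (x : EE n) : ∇ (dd fun y => -v y) x = -∇ (dd v) x := by
  rw [h.dd_neg, grad_neg]

theorem Sol.tt_neg (h : Sol v) : tt (fun y => -v y) = tt v := funext fun x => by
  rw [tt, tt, h.grad_dd_neg, norm_neg]


theorem Flat.neg (hF : Flat v κ x) (h : Sol v) : Flat (fun y => -v y) κ x := fun z => by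
  rw [h.grad_dd_neg, h.dd_neg, inner_neg_left, ← abs_neg]
  convert hF z using 2
  ring


theorem Flat.nonneg (hF : Flat v κ x) (hN : 1 / 2 ≤ ‖∇ (dd v) x‖) : 0 ≤ κ := by
  have h1 := (abs_nonneg _).trans (hF (x + ∇ (dd v) x))
  rw [add_sub_cancel_left] at h1
  exact nonneg_of_mul_nonneg_left h1 (by positivity)

theorem flat_iff_tay : Flat v κ x ↔ ∀ p, |tay (dd v) p x| ≤ κ * ‖p‖ ^ 2 := by
  refine ⟨fun h p => ?_, fun h z => ?_⟩
  · have := h (x + p)
    rw [add_sub_cancel_left, inner_grad, ← abs_neg] at this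
    convert this using 2
    rw [tay]; ring
  · have := h (z - x)
    rw [tay, add_sub_cancel, ← abs_neg] at this
    rw [inner_grad]
    convert this using 2
    ring

theorem tay_neg (f : EE n → ℝ) (p x : EE n) : tay (fun y => -f y) p x = -tay f p x := by
  simp only [tay, fderiv_fun_neg, neg_apply]; ring

/-- `Flat` in terms of the two-point functions `φ₊ = phi (dd v)`, `φ₋ = phi (dd (-v))` -/
theorem Sol.flat_iff (h : Sol v) (hκ : 0 ≤ κ) :
    Flat v κ x ↔ phi (dd v) x ≤ 2 * κ ∧ phi (dd fun y => -v y) x ≤ 2 * κ := by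
  rw [flat_iff_tay, phi_le_iff h (by positivity), phi_le_iff h.neg (by positivity), h.dd_neg,
    ← forall_and]
  refine forall_congr' fun p => ?_
  rw [tay_neg, abs_le, mul_div_cancel_left₀ _ two_ne_zero]
  constructor <;> rintro ⟨h1, h2⟩ <;> constructor <;> linarith

/-! ### a maximum principle on balls -/

theorem mp_ball {W : EE n → ℝ} (hW : ContDiff ℝ 2 W) {y : EE n} {r : ℝ}
    (hb : ∀ z, ‖z - y‖ = r → 0 ≤ W z)
    (hi : ∀ z, ‖z - y‖ < r → W z < 0 → (∀ i, pdv i W z = 0) → (Δ W) z < 0) (z : EE n)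
    (hz : ‖z - y‖ ≤ r) : 0 ≤ W z := by
  obtain ⟨m, hm, h1⟩ := (isCompact_closedBall y r).exists_isMinOn
    ⟨z, mem_closedBall_iff_norm.2 hz⟩ hW.continuous.continuousOn
  refine le_trans ?_ (h1 (mem_closedBall_iff_norm.2 hz))
  by_contra hneg
  rcases (mem_closedBall_iff_norm.1 hm).eq_or_lt with h2 | h2
  · exact hneg (hb m h2)
  · have h3 : IsLocalMin W m :=
      h1.isLocalMin (closedBall_mem_nhds_of_mem (mem_ball_iff_norm.2 h2))
    exact (lap_of_min hW.contDiffAt h3).not_gt (hi m h2 (not_le.1 hneg) (pdv_of_min h3))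

theorem lap_aff (c : ℝ) (a x0 x : EE n) : (Δ (aff c a x0)) x = 0 := by
  have e : aff c a x0 = fun y => ⟪a, y⟫ - (⟪a, x0⟫ - c) := funext fun y => by
    rw [aff, inner_sub_right]; ring
  rw [e, lap_sub_const (f := fun y => ⟪a, y⟫) (innerSL ℝ a).contDiff.contDiffAt, lap_inner]

theorem pdv_aff (c : ℝ) (a x0 x : EE n) (i : Fin n) : pdv i (aff c a x0) x = a i := by
  rw [pdv, (hasFDerivAt_aff c a x0 x).fderiv, innerSL_apply_apply]
  simp [ev, inner_eq_sum]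

/-- `d` minus its tangent plane at `x` -/
def wF (v : EE n → ℝ) (x y : EE n) : ℝ := dd v y - aff (dd v x) (∇ (dd v) x) x y

theorem Flat.abs_wF (hF : Flat v κ x) (z : EE n) : |wF v x z| ≤ κ * ‖z - x‖ ^ 2 := by
  simpa only [wF, aff, sub_sub] using hF z

theorem Sol.wF_sm (h : Sol v) (x : EE n) : ContDiff ℝ ∞ (wF v x) := h.dd_sm.sub (aff_sm _ _ _)

theorem Sol.lap_wF (h : Sol v) (x y : EE n) : (Δ (wF v x)) y = -√2 * v y * tt v y := by
  rw [show wF v x = fun y => dd v y - aff _ _ x y from rfl,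
    lap_sub' (c2_of h.dd_sm y) (c2_of (aff_sm _ _ _) y), lap_aff, h.lap_dd, sub_zero]

theorem Sol.pdv_wF (h : Sol v) (x y : EE n) (i : Fin n) :
    pdv i (wF v x) y = pdv i (dd v) y - pdv i (dd v) x := by
  rw [show wF v x = fun y => dd v y - aff _ _ x y from rfl,
    pdv_sub (h.dd_diff y) (hasFDerivAt_aff _ _ _ _).differentiableAt, pdv_aff, grad_apply]

theorem tanh_strictMono : StrictMono Real.tanh := fun a b h => by
  rw [← Real.artanh_lt_artanh_iff ⟨Real.neg_one_lt_tanh a, Real.tanh_lt_one a⟩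
    ⟨Real.neg_one_lt_tanh b, Real.tanh_lt_one b⟩, Real.artanh_tanh, Real.artanh_tanh]
  exact h

theorem Sol.v_ge (h : Sol v) {z : EE n} {s : ℝ} (hz : s ≤ dd v z) : Real.tanh (s / √2) ≤ v z := by
  rw [h.eq_tanh z]
  exact tanh_strictMono.monotone (div_le_div_of_nonneg_right hz sqrt2_pos.le)

theorem flat_t1_pos (n : ℕ) : ∃ C : ℝ, 1 ≤ C ∧ ∀ (v : EE n → ℝ) (κ : ℝ) (x : EE n), Sol v →
    Flat v κ x → 1 / 2 ≤ ‖∇ (dd v) x‖ → 0 ≤ dd v x → tt v x ≤ C * κ := by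
  obtain ⟨C, hC, h1⟩ := hk_har n
  have c0 : 0 < Real.tanh (1 / √2) := by
    rw [← Real.tanh_zero]; exact tanh_strictMono (by positivity)
  set c := √2 * Real.tanh (1 / √2) * Real.exp (-(C * 9)) with hc
  have hc0 : 0 < c := by positivity
  refine ⟨200 + 162 * (2 * n + 1) / c, le_add_of_le_of_nonneg (by norm_num) (by positivity),
    fun v κ x h hF hN hd => ?_⟩
  have hκ := hF.nonneg hN
  have h2 : 0 ≤ 162 * (2 * n + 1) / c * κ := by positivity
  by_cases hk : 1 / 200 ≤ κ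
  · nlinarith [tt_le_one v x]
  rcases (h.tt_nonneg x).eq_or_lt with h0 | h0
  · rw [← h0]; positivity
  set g := ∇ (dd v) x with hg
  have hg1 : ‖g‖ ≤ 1 := h.norm_grad_dd_le x
  set y := x + (8 : ℝ) • g with hy
  have hzx : ∀ z, ‖z - y‖ ≤ 1 → ‖z - x‖ ≤ 9 := fun z hz => by
    have := norm_add_le (z - y) ((8 : ℝ) • g)
    rw [norm_smul, Real.norm_of_nonneg (by norm_num), show z - y + (8 : ℝ) • g = z - x by
      rw [hy]; abel] at this
    linarith
  have hw : ∀ z, ‖z - y‖ ≤ 1 → |wF v x z| ≤ 81 * κ := fun z hz => by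
    have := pow_le_pow_left₀ (norm_nonneg _) (hzx z hz) 2
    nlinarith [hF.abs_wF z]
  set a := c * tt v x / (2 * n + 1) with ha
  have key := mp_ball (W := fun z => wF v x z + (a * ‖z - y‖ ^ 2 + (81 * κ - a)))
    ((contDiff_infty.1 (h.wF_sm x) 2).add
      ((contDiff_const.mul (contDiff_sq y)).add contDiff_const)) (y := y) (r := 1)
    (fun z hz => by rw [hz]; linarith [(abs_le.1 (hw z hz.le)).1]) (fun z hz _ _ => ?_) y (by simp)
  · have h3 := (abs_le.1 (hw y (by simp))).2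
    simp only [sub_self, norm_zero] at key
    have h4 : a ≤ 162 * κ := by linarith
    rw [ha, div_le_iff₀ (by positivity)] at h4
    have h5 : tt v x ≤ 162 * (2 * n + 1) / c * κ := by
      rw [div_mul_eq_mul_div, le_div_iff₀ hc0]; linarith
    nlinarith
  · have h3 : 1 ≤ dd v z := by
      have h4 := (abs_le.1 (hw z hz.le)).1
      have h5 := (abs_le.1 (abs_real_inner_le_norm g (z - y))).1
      rw [wF, aff, ← hg, show z - x = z - y + (8 : ℝ) • g by rw [hy]; abel, inner_add_right,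
        real_inner_smul_right, real_inner_self_eq_norm_sq] at h4
      nlinarith [mul_le_mul hg1 hz.le (norm_nonneg _) zero_le_one]
    have h4 : Real.exp (-(C * 9)) * tt v x ≤ tt v z := by
      have h5 := (h1 v h z x).trans (mul_le_mul_of_nonneg_right (Real.exp_le_exp.2
        (mul_le_mul_of_nonneg_left (hzx z hz.le) hC)) (h.tt_nonneg z))
      rwa [Real.exp_neg, inv_mul_le_iff₀ (Real.exp_pos _)]
    have h5 : c * tt v x ≤ √2 * v z * tt v z := by
      have := mul_le_mul (h.v_ge h3) h4 (by positivity) (c0.le.trans (h.v_ge h3))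
      rw [hc]; nlinarith [sqrt2_pos]
    have e2 : ContDiffAt ℝ 2 (fun z : EE n => a * ‖z - y‖ ^ 2) z :=
      (contDiff_const.mul (contDiff_sq y)).contDiffAt
    rw [lap_add' (c2_of (h.wF_sm x) z) (e2.add contDiffAt_const), lap_add' e2 contDiffAt_const,
      lap_const_mul (contDiff_sq y).contDiffAt, lap_normSq, lap_const, h.lap_wF]
    have h6 : a * (2 * n) < c * tt v x := by
      rw [ha, div_mul_eq_mul_div, div_lt_iff₀ (by positivity)]
      nlinarith [mul_pos hc0 h0]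
    linarith

/-- `t ≤ C κ` at a flat point -/
theorem flat_t1 (n : ℕ) : ∃ C : ℝ, 1 ≤ C ∧ ∀ (v : EE n → ℝ) (κ : ℝ) (x : EE n), Sol v →
    Flat v κ x → 1 / 2 ≤ ‖∇ (dd v) x‖ → tt v x ≤ C * κ := by
  obtain ⟨C, hC, h1⟩ := flat_t1_pos n
  refine ⟨C, hC, fun v κ x h hF hN => ?_⟩
  rcases le_total 0 (dd v x) with hd | hd
  · exact h1 v κ x h hF hN hd
  · rw [← h.tt_neg]
    exact h1 _ κ x h.neg (hF.neg h) (by rwa [h.grad_dd_neg, norm_neg])
      (by rw [h.dd_neg]; exact neg_nonneg.2 hd)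

/-! ### the interior estimates -/

theorem UB.reindex {ι ι' : Type*} {ρ f : ι → EE n → ℝ} {k : ℕ} (h : UB ρ k f) (φ : ι' → ι) :
    UB (fun a => ρ (φ a)) k fun a => f (φ a) := by
  have h0 : ∀ {f : ι → EE n → ℝ}, UB0 ρ f → UB0 (fun a => ρ (φ a)) fun a => f (φ a) :=
    fun ⟨h1, C, hC, h2⟩ => ⟨fun a => h1 _, C, hC, fun a => h2 _⟩
  induction k generalizing f with
  | zero => exact h0 h
  | succ k ih => exact ⟨h0 h.1, fun i => ih (h.2 i)⟩

theorem ub_cst {ι : Type*} {ρ : ι → EE n → ℝ} {c : ι → ℝ} {C : ℝ} (hC : 0 ≤ C)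
    (h : ∀ a y, |c a| ≤ C * ρ a y) (k : ℕ) : UB ρ k fun a _ => c a := by
  have h0 : UB0 ρ fun a _ => c a := ⟨fun _ => contDiff_const, C, hC, h⟩
  cases k with
  | zero => exact h0
  | succ k => exact ⟨h0, fun i => ub_zero.congr fun a x => pdv_const (c a) i x⟩

/-- the family of all flat points -/
structure FP (n : ℕ) where
  v : EE n → ℝ
  κ : ℝ
  x : EE n
  sol : Sol v
  flat : Flat v κ x
  half : 1 / 2 ≤ ‖∇ (dd v) x‖

/-- the weight `κ (1 + |y - x|)²` -/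
def FP.w (a : FP n) (y : EE n) : ℝ := a.κ * (1 + ‖y - a.x‖) ^ 2

theorem FP.k0 (a : FP n) : 0 ≤ a.κ := a.flat.nonneg a.half

theorem FP.le_w (a : FP n) (y : EE n) : a.κ ≤ a.w y :=
  le_mul_of_one_le_right a.k0 (one_le_pow₀ (le_add_of_nonneg_right (norm_nonneg _)))

theorem wc_FP : WC (FP.w (n := n)) := by
  refine ⟨fun a y => a.k0.trans (a.le_w y), 4, by norm_num, fun a x y hy => ?_⟩
  have h1 := norm_sub_le_norm_sub_add_norm_sub y x a.x
  rw [dist_eq_norm] at hy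
  have h2 : (1 + ‖y - a.x‖) ^ 2 ≤ (2 * (1 + ‖x - a.x‖)) ^ 2 :=
    pow_le_pow_left₀ (by positivity) (by linarith [norm_nonneg (x - a.x)]) 2
  unfold FP.w
  nlinarith [a.k0]

theorem ub_wF (k : ℕ) : UB (FP.w (n := n)) k fun a => wF a.v a.x := by
  have h0 : UB (FP.w (n := n)) 0 fun a => wF a.v a.x :=
    ⟨fun a => a.sol.wF_sm a.x, 1, zero_le_one, fun a y => by
      rw [one_mul]
      exact (a.flat.abs_wF y).trans (mul_le_mul_of_nonneg_left
        (pow_le_pow_left₀ (norm_nonneg _) (by linarith) 2) a.k0)⟩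
  obtain ⟨C, hC, h1⟩ := flat_t1 n
  cases k with
  | zero => exact h0
  | succ k =>
    let φ : FP n → SS n := fun a => ⟨a.v, a.sol⟩
    have hv := (ub_v (n := n) k).reindex φ
    refine UB.gain wc_FP
      (b := fun j a y => √2 * (a.v y * (pdv j (dd a.v) a.x + pdv j (dd a.v) y)))
      (fun j => (hv.bmul ((ub_cst zero_le_one (fun a _ => by
        simpa using a.sol.abs_pdv_dd_le j a.x) k).add ((ub_d k j).reindex φ))).const_mul _)
      ((hv.bmul (ub_cst (c := fun a : FP n => tt a.v a.x) (zero_le_one.trans hC) (fun a y => ?_)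
        k)).const_mul (-√2)) h0 fun a y => ?_
    · rw [abs_of_nonneg (a.sol.tt_nonneg _)]
      exact (h1 _ _ _ a.sol a.flat a.half).trans
        (mul_le_mul_of_nonneg_left (a.le_w y) (zero_le_one.trans hC))
    · simp only [a.sol.lap_wF, a.sol.pdv_wF, tt_eq, gsq, φ]
      have : ∀ j, √2 * (a.v y * (pdv j (dd a.v) a.x + pdv j (dd a.v) y)) *
          (pdv j (dd a.v) y - pdv j (dd a.v) a.x)
          = √2 * a.v y * (pdv j (dd a.v) y ^ 2 - pdv j (dd a.v) a.x ^ 2) := fun j => by ring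
      simp only [this, ← Finset.mul_sum, Finset.sum_sub_distrib]
      ring

theorem ub_hs_FP (k : ℕ) (i j : Fin n) : UB (FP.w (n := n)) k fun a => hs (dd a.v) i j :=
  (((ub_wF (k + 2)).pdv j).pdv i).congr fun a y => by
    rw [show pdv j (wF a.v a.x) = fun y => pdv j (dd a.v) y - pdv j (dd a.v) a.x from
      funext fun y => a.sol.pdv_wF a.x y j, pdv_sub_const, hs]

/-- all higher derivatives of `d` near (and far from) a flat point -/
theorem flat_iter (n k : ℕ) : ∃ C : ℝ, 0 ≤ C ∧ ∀ (v : EE n → ℝ) (κ : ℝ) (x : EE n), Sol v →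
    Flat v κ x → 1 / 2 ≤ ‖∇ (dd v) x‖ → ∀ y,
      ‖iteratedFDeriv ℝ (k + 2) (dd v) y‖ ≤ C * (κ * (1 + ‖y - x‖) ^ 2) := by
  choose C hC h1 using fun j : Fin n =>
    ub_iter_succ (fun a : FP n => a.sol.pdv_dd_sm j) fun i => ub_hs_FP k i j
  refine ⟨∑ j, C j, Finset.sum_nonneg fun j _ => hC j, fun v κ x h hF hN y =>
    (norm_iter_succ_le h.dd_sm (k + 1) y).trans ?_⟩
  rw [Finset.sum_mul]
  exact Finset.sum_le_sum fun j _ => h1 j ⟨v, κ, x, h, hF, hN⟩ y

theorem Sol.grad_wF (h : Sol v) (x y : EE n) : ∇ (wF v x) y = ∇ (dd v) y - ∇ (dd v) x := by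
  ext i; simp only [PiLp.sub_apply, grad_apply, h.pdv_wF]

theorem Sol.abs_tt_sub (h : Sol v) (x y : EE n) :
    |tt v y - tt v x| ≤ 2 * ‖∇ (dd v) y - ∇ (dd v) x‖ := by
  have h1 := abs_norm_sub_norm_le (∇ (dd v) y) (∇ (dd v) x)
  have h2 := h.norm_grad_dd_le x
  have h3 := h.norm_grad_dd_le y
  rw [tt, tt, show 1 - ‖∇ (dd v) y‖ ^ 2 - (1 - ‖∇ (dd v) x‖ ^ 2) = -((‖∇ (dd v) y‖ + ‖∇ (dd v) x‖)
    * (‖∇ (dd v) y‖ - ‖∇ (dd v) x‖)) by ring, abs_neg, abs_mul, abs_of_nonneg (by positivity)]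
  exact mul_le_mul (by linarith) h1 (abs_nonneg _) zero_le_two

/-- the package: slope, `t`, Hessian -/
theorem flat_bd (n : ℕ) : ∃ C : ℝ, 1 ≤ C ∧ ∀ (v : EE n → ℝ) (κ : ℝ) (x : EE n), Sol v →
    Flat v κ x → 1 / 2 ≤ ‖∇ (dd v) x‖ → ∀ y,
      ‖∇ (dd v) y - ∇ (dd v) x‖ ≤ C * (κ * (1 + ‖y - x‖) ^ 2) ∧
      tt v y ≤ C * (κ * (1 + ‖y - x‖) ^ 2) ∧
      ‖hb (dd v) y‖ ≤ C * (κ * (1 + ‖y - x‖) ^ 2) ∧
      hsq (dd v) y ≤ (C * (κ * (1 + ‖y - x‖) ^ 2)) ^ 2 := by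
  obtain ⟨C0, p0, h0⟩ := flat_t1 n
  obtain ⟨C1, p1, h1⟩ := (ub_wF (n := n) 1).iter
  obtain ⟨C2, p2, h2⟩ := flat_iter n 0
  obtain ⟨C3, p3, h3⟩ := ub_bd_all (wc_FP (n := n)).1 fun ij : Fin n × Fin n => ub_hs_FP 0 ij.1 ij.2
  refine ⟨C0 + 2 * C1 + C2 + n * C3, by nlinarith [Nat.cast_nonneg (α := ℝ) n],
    fun v κ x h hF hN y => ?_⟩
  let a : FP n := ⟨v, κ, x, h, hF, hN⟩
  have w0 : 0 ≤ κ * (1 + ‖y - x‖) ^ 2 := wc_FP.1 a y
  have w1 : κ ≤ κ * (1 + ‖y - x‖) ^ 2 := a.le_w y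
  have k1 : ‖∇ (dd v) y - ∇ (dd v) x‖ ≤ C1 * (κ * (1 + ‖y - x‖) ^ 2) := by
    rw [← h.grad_wF, norm_grad, ← norm_iteratedFDeriv_one]; exact h1 a y
  have k3 : 0 ≤ n * C3 := by positivity
  refine ⟨k1.trans (by gcongr; linarith), ?_, ?_, ?_⟩
  · have := (abs_le.1 (h.abs_tt_sub x y)).2
    nlinarith [h0 v κ x h hF hN]
  · rw [norm_hb]
    exact (h2 v κ x h hF hN y).trans (by gcongr; linarith)
  · refine le_trans ?_ (pow_le_pow_left₀ (a := n * C3 * (κ * (1 + ‖y - x‖) ^ 2)) (by positivity)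
      (by gcongr; linarith) 2)
    refine (Finset.sum_le_sum fun i _ => Finset.sum_le_sum fun j _ =>
      (sq_abs _).ge.trans (pow_le_pow_left₀ (abs_nonneg _) (h3 (i, j) a y) 2)).trans_eq ?_
    simp only [Finset.sum_const, Finset.card_univ, Fintype.card_fin, nsmul_eq_mul, FP.w, a]
    ring

/-! ### propagation of flatness -/

theorem abs_tay_le_loc {f : EE n → ℝ} (hf : ContDiff ℝ ∞ f) {C : ℝ} (p x : EE n)
    (h : ∀ z ∈ closedBall x ‖p‖, ‖hb f z‖ ≤ C) : |tay f p x| ≤ C * ‖p‖ ^ 2 := by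
  have hx : x ∈ closedBall x ‖p‖ := mem_closedBall_self (norm_nonneg p)
  have h6 := (convex_closedBall x ‖p‖).norm_image_sub_le_of_norm_fderiv_le' (f := f)
    (φ := fderiv ℝ f x) (C := C * ‖p‖) (fun z _ => hf.differentiable (by simp) z)
    (fun z hz => ((convex_closedBall x ‖p‖).norm_image_sub_le_of_norm_fderiv_le
      (fun w _ => diff_fderiv hf w) h hx hz).trans
        (mul_le_mul_of_nonneg_left (mem_closedBall_iff_norm.1 hz)
          ((norm_nonneg (hb f x)).trans (h x hx)))) hx (show x + p ∈ _ by simp)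
  rw [add_sub_cancel_left, Real.norm_eq_abs, abs_sub_comm] at h6
  rw [tay, sq, ← mul_assoc]
  convert h6 using 2
  ring

theorem tay_quad {g : EE n → ℝ} (hg : ContDiff ℝ ∞ g) {A : ℝ} (hA : 0 ≤ A)
    (h0 : ∀ z, |g z| ≤ A * (1 + ‖z - x‖) ^ 2) (h1 : ∀ z, ‖fderiv ℝ g z‖ ≤ A * (1 + ‖z - x‖) ^ 2)
    (h2 : ∀ z, ‖hb g z‖ ≤ A * (1 + ‖z - x‖) ^ 2) (p w : EE n) :
    |tay g p w| ≤ 6 * A * (1 + ‖w - x‖) ^ 2 * ‖p‖ ^ 2 := by
  have hl := norm_nonneg (w - x)
  have hw : 0 ≤ A * (1 + ‖w - x‖) ^ 2 := by positivity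
  rcases le_total ‖p‖ 1 with hp | hp
  · refine abs_tay_le_loc hg p w fun z hz => (h2 z).trans ?_
    have h3 := norm_sub_le_norm_sub_add_norm_sub z w x
    have h4 : (1 + ‖z - x‖) ^ 2 ≤ (2 * (1 + ‖w - x‖)) ^ 2 :=
      pow_le_pow_left₀ (by positivity) (by linarith [mem_closedBall_iff_norm.1 hz]) 2
    nlinarith
  · have h3 := norm_sub_le_norm_sub_add_norm_sub (w + p) w x
    rw [add_sub_cancel_left] at h3
    have h4 : (1 + ‖w + p - x‖) ^ 2 ≤ (2 * (1 + ‖w - x‖) * ‖p‖) ^ 2 :=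
      pow_le_pow_left₀ (by positivity) (by nlinarith) 2
    have h5 : |fderiv ℝ g w p| ≤ A * (1 + ‖w - x‖) ^ 2 * ‖p‖ :=
      ((fderiv ℝ g w).le_opNorm p).trans (mul_le_mul_of_nonneg_right (h1 w) (norm_nonneg p))
    have h6 := (h0 (w + p)).trans (mul_le_mul_of_nonneg_left h4 hA)
    have h7 : 1 ≤ ‖p‖ ^ 2 := one_le_pow₀ hp
    have h8 : ‖p‖ ≤ ‖p‖ ^ 2 := by nlinarith
    have h9 := (abs_sub (g w + fderiv ℝ g w p) (g (w + p))).trans
      (add_le_add (abs_add_le _ _) le_rfl)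
    rw [tay]
    nlinarith [h0 w, mul_le_mul_of_nonneg_left h7 hw, mul_le_mul_of_nonneg_left h8 hw]

theorem ub_tay {g : FP n → EE n → ℝ} (h : UB FP.w 2 g) : ∃ C : ℝ, 0 ≤ C ∧ ∀ a p w,
    |tay (g a) p w| ≤ C * a.w w * ‖p‖ ^ 2 := by
  obtain ⟨C0, p0, h0⟩ := h.bd
  obtain ⟨C1, p1, h1⟩ := h.of_succ.iter
  obtain ⟨C2, p2, h2⟩ := h.iter
  refine ⟨6 * (C0 + C1 + C2), by positivity, fun a p w => ?_⟩
  have k := a.k0
  have hw := wc_FP.1 a
  refine (tay_quad (x := a.x) (h.sm a) (A := (C0 + C1 + C2) * a.κ) (by positivity) (fun z => ?_)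
    (fun z => ?_) (fun z => ?_) p w).trans_eq (by unfold FP.w; ring)
  · rw [mul_assoc]; exact (h0 a z).trans (mul_le_mul_of_nonneg_right (by linarith) (hw z))
  · rw [mul_assoc, ← norm_iteratedFDeriv_one]
    exact (h1 a z).trans (mul_le_mul_of_nonneg_right (by linarith) (hw z))
  · rw [mul_assoc, norm_hb]; exact (h2 a z).trans (mul_le_mul_of_nonneg_right (by linarith) (hw z))

theorem Sol.tay_wF (h : Sol v) (x p w : EE n) : tay (wF v x) p w = tay (dd v) p w := by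
  rw [tay, tay, ← inner_grad, ← inner_grad, h.grad_wF]
  simp only [wF, aff, inner_sub_left, inner_sub_right, inner_add_right]
  ring


/-- flatness propagates -/
theorem flat_near (n : ℕ) : ∃ C : ℝ, 0 ≤ C ∧ ∀ (v : EE n → ℝ) (κ : ℝ) (x : EE n), Sol v →
    Flat v κ x → 1 / 2 ≤ ‖∇ (dd v) x‖ → ∀ y, Flat v (C * (κ * (1 + ‖y - x‖) ^ 2)) y := by
  obtain ⟨C, hC, h1⟩ := ub_tay (ub_wF (n := n) 2)
  exact ⟨C, hC, fun v κ x h hF hN y => flat_iff_tay.2 fun p => by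
    rw [← h.tay_wF x]; exact h1 ⟨v, κ, x, h, hF, hN⟩ p y⟩



end

end Crest.Agent.N067
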