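import Crest.Agent.N067.U.Pup
import Crest.Agent.N067.U.VT
import Crest.Agent.N067.F.Sl
import Crest.Agent.N067.M.FDefs

-- ▼ part N067/U/PupB
section

/-!
# Row 67: PUP from a zero-free ball (helper88)
-/

set_option autoImplicit false

open MeasureTheory Laplacian InnerProductSpace Topology Filter Set Metric
open scoped RealInnerProductSpace Gradient ContDiff

namespace Crest.Agent.N067

open Crest.Agent.R077 Ker

variable {n : ℕ}


/-- the part of the forward cone above the height `h` -/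
def Top (e q0 : EE n) (κ h : ℝ) : Set (EE n) :=
  {y | (1 - κ) * ‖y - q0‖ ≤ ⟪e, y - q0⟫ ∧ h ≤ ⟪e, y - q0⟫}






end Crest.Agent.N067
end

-- ▼ part N067/U/Src
section

/-!
# Row 67: the source `P = ψ² t / 4` in a zero-free slab (helper88)
-/

set_option autoImplicit false

open MeasureTheory Laplacian InnerProductSpace Topology Filter Set Metric
open scoped RealInnerProductSpace Gradient ContDiff

namespace Crest.Agent.N067

open Crest.Agent.R077 Ker

variable {n : ℕ}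

/-- lower bounds of `d` in a zero-free slab of height `f` over `q0` -/
theorem slab_pos_dd (n : ℕ) : ∃ C : ℝ, 1 ≤ C ∧ ∀ (v : EE n → ℝ) (e q0 : EE n) (f A : ℝ),
    Sol v → ‖e‖ = 1 → 0 ≤ A → 4 * A ≤ f →
    (∀ y, ‖y - q0‖ ≤ 3 * f → A ≤ ⟪e, y - q0⟫ → ⟪e, y - q0⟫ ≤ f - A → 0 < v y) →
    ∀ y, ‖y - q0‖ ≤ 2 * f →
      (⟪e, y - q0⟫ ≤ f / 4 → ⟪e, y - q0⟫ - (A + C) ≤ |dd v y|) ∧
      (⟪e, y - q0⟫ ≤ 3 / 4 * f → ⟪e, y - q0⟫ / 9 - (A + C) ≤ |dd v y|) ∧
      (3 / 4 * f ≤ ⟪e, y - q0⟫ → f - ⟪e, y - q0⟫ - (A + C) ≤ |dd v y|) := by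
  obtain ⟨C, hC1, hC⟩ := ball_dd' n
  refine ⟨C, hC1, fun v e q0 f A hv he hA hf hp y hy => ?_⟩
  set s := ⟪e, y - q0⟫ with hs
  have key : ∀ a ρ : ℝ, ρ / 2 ≤ |a| → |a| < ρ → 2 * ρ ≤ f → A ≤ s + a - ρ → s + a + ρ ≤ f - A →
      ρ - |a| - C ≤ |dd v y| := by
    intro a ρ h1 h2 h3 h4 h5
    have e1 : ‖y - (y + a • e)‖ = |a| := by
      rw [sub_add_cancel_left, norm_neg, norm_smul, he, mul_one, Real.norm_eq_abs]
    have := hC v hv (y + a • e) y ρ (fun z hz => ?_) (by rwa [e1]) (by rwa [e1])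
    · rw [e1] at this
      exact this.trans (le_abs_self _)
    rw [mem_ball_iff_norm] at hz
    have b1 := abs_real_inner_le_norm e (z - (y + a • e))
    have b2 : ⟪e, z - q0⟫ = ⟪e, z - (y + a • e)⟫ + s + a := by
      simp only [hs, inner_sub_right, inner_add_right, inner_smul_right,
        real_inner_self_eq_norm_sq, he]
      ring
    rw [he, one_mul, abs_le] at b1
    have b3 := norm_sub_le_norm_sub_add_norm_sub z (y + a • e) y
    have b4 := norm_sub_le_norm_sub_add_norm_sub z y q0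
    rw [norm_sub_rev (y + a • e) y, e1] at b3
    exact hp z (by linarith) (by linarith [b1.1]) (by linarith [b1.2])
  clear_value s
  have hd := abs_nonneg (dd v y)
  have low : s ≤ f / 4 → s - (A + C) ≤ |dd v y| := fun h => by
    rcases le_or_gt s A with h1 | h1
    · linarith
    have h2 : 0 ≤ f / 2 - s := by linarith
    have := key (f / 2 - s) (f / 2 - A) (by rw [abs_of_nonneg h2]; linarith)
      (by rw [abs_of_nonneg h2]; linarith) (by linarith) (by linarith) (by linarith)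
    rw [abs_of_nonneg h2] at this
    linarith
  refine ⟨low, fun h => ?_, fun h => ?_⟩
  · rcases le_or_gt s (3 * A) with h1 | h1
    · linarith
    have h2 : 0 ≤ (s / 3 - A) / 3 := by linarith
    have := key ((s / 3 - A) / 3) (2 * ((s / 3 - A) / 3)) (by rw [abs_of_nonneg h2]; linarith)
      (by rw [abs_of_nonneg h2]; linarith) (by linarith) (by linarith) (by linarith)
    rw [abs_of_nonneg h2] at this
    linarith
  · rcases le_or_gt (f - A) s with h1 | h1
    · linarith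
    have h2 : f / 2 - s ≤ 0 := by linarith
    have := key (f / 2 - s) (f / 2 - A) (by rw [abs_of_nonpos h2]; linarith)
      (by rw [abs_of_nonpos h2]; linarith) (by linarith) (by linarith) (by linarith)
    rw [abs_of_nonpos h2] at this
    linarith

/-- **SRC**, `u_e` form: heights are measured along `e'` from `q0`; the slab has height `f` -/
theorem src_ue (hn : 4 ≤ n) {ε A : ℝ} (hε : 0 < ε) (hA : 0 ≤ A) :
    ∃ C L δ f0 : ℝ, 0 ≤ C ∧ 0 ≤ L ∧ 0 < δ ∧ ∀ (v : EE n → ℝ) (e e' q0 q : EE n) (T f : ℝ),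
      Sol v → ‖e‖ = 1 → ‖e'‖ = 1 → ‖e - e'‖ * f ≤ 1 → f0 ≤ f → 0 ≤ T → 250 * T ≤ f →
      ‖q - (q0 + T • e')‖ ≤ A → ⟪e', q - q0⟫ - δ ≤ |dd v q| →
      (∀ y, ‖y - q0‖ ≤ 3 * f → A ≤ ⟪e', y - q0⟫ → ⟪e', y - q0⟫ ≤ f - A → 0 < v y) →
      (∀ y, ‖y - q0‖ ≤ 2 * f → |⟪e', y - q0⟫ - f| ≤ L →
        |⟪e', y - q0⟫ - f| - δ ≤ |dd v y|) →
      psi v q * ue v e q ≤ C * Real.exp (-(T / 4)) * ue v e q0 +
        (1 + ε) * (32 * Real.exp (-√2 * f)) := by
  obtain ⟨Cb, hCb1, hCb⟩ := slab_pos_dd n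
  obtain ⟨C, hC0, hC⟩ := pupA hn (c := 2 / 25) (κ := 1 / 4) (A := A + Cb + 2) (by norm_num)
    (by norm_num) (by norm_num) le_rfl (by linarith)
  obtain ⟨L, δ, h0, hL, hδ, H⟩ := vtP n (C0 := A + Cb) (lam := 3 / 2) hε (by linarith) (by norm_num)
  obtain ⟨G, hG1, hG⟩ := ue_grad n
  refine ⟨C + Real.exp (G * (2 * A + Cb + 2) + (A + Cb + 2)), L, min δ 1,
    1000 + 8 * A + 2 * |h0|, by positivity, hL, lt_min hδ one_pos,
    fun v e e' q0 q T f hv he he' hee hf hT0 hT hq hd hp hN => ?_⟩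
  have hu0 := hv.ue_nonneg he q0
  have hE := Real.exp_pos (-(T / 4))
  have hh0 := abs_nonneg h0
  have hI : 0 ≤ (1 + ε) * (32 * Real.exp (-√2 * f)) := by positivity
  have hqq : ‖q - q0‖ ≤ A + T := by
    have := norm_sub_le_norm_sub_add_norm_sub q (q0 + T • e') q0
    rw [add_sub_cancel_left, norm_smul, he', mul_one, Real.norm_eq_abs, abs_of_nonneg hT0] at this
    linarith
  rcases le_or_gt T (A + Cb + 2) with hs | hs
  · have h2 := (hG v e hv he).2 q0 q
    have h3 : Real.exp (G * ‖q - q0‖) ≤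
        Real.exp (G * (2 * A + Cb + 2) + (A + Cb + 2)) * Real.exp (-(T / 4)) := by
      rw [← Real.exp_add]
      have h4 := mul_le_mul_of_nonneg_left (show ‖q - q0‖ ≤ 2 * A + Cb + 2 by linarith)
        (show 0 ≤ G by linarith)
      exact Real.exp_le_exp.2 (by linarith)
    have h4 := mul_le_mul_of_nonneg_right h3 hu0
    have h5 := mul_le_of_le_one_left (hv.ue_nonneg he q) (psi_le_one v q)
    have h6 : 0 ≤ C * Real.exp (-(T / 4)) * ue v e q0 := by positivity
    linarith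
  have hsl := hCb v e' q0 f A hv he' hA (by linarith) hp
  have hee1 : ‖e - e'‖ ≤ 1 / 1000 := by
    have := mul_le_mul_of_nonneg_left (show 1000 ≤ f by linarith) (norm_nonneg (e - e'))
    linarith
  have hin : ∀ y, ⟪e, y - q0⟫ - 1 / 1000 * ‖y - q0‖ ≤ ⟪e', y - q0⟫ := fun y => by
    have h1 := real_inner_le_norm (e - e') (y - q0)
    have h2 := mul_le_mul_of_nonneg_right hee1 (norm_nonneg (y - q0))
    rw [inner_sub_left] at h1
    linarith
  have hle : ∀ y, ⟪e', y - q0⟫ ≤ ‖y - q0‖ := fun y => by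
    simpa [he'] using real_inner_le_norm e' (y - q0)
  set T' := ⟪e', q - q0⟫ with hT'
  have hT1 : |T' - T| ≤ A := by
    have b1 := abs_real_inner_le_norm e' (q - (q0 + T • e'))
    have b2 : ⟪e', q - (q0 + T • e')⟫ = T' - T := by
      simp only [hT', inner_sub_right, inner_add_right, inner_smul_right,
        real_inner_self_eq_norm_sq, he']
      ring
    rw [b2, he', one_mul] at b1
    linarith
  obtain ⟨hT2, hT3⟩ := abs_le.1 hT1
  have hq' : ‖q - (q0 + T • e)‖ ≤ A + Cb + 2 := by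
    have b1 := norm_sub_le_norm_sub_add_norm_sub q (q0 + T • e') (q0 + T • e)
    rw [add_sub_add_left_eq_sub, ← smul_sub, norm_smul, Real.norm_eq_abs, abs_of_nonneg hT0,
      norm_sub_rev e' e] at b1
    have b2 := mul_le_mul_of_nonneg_left (show T ≤ f by linarith) (norm_nonneg (e - e'))
    linarith
  have mT : MeasurableSet {y : EE n | 3 / 4 * f ≤ ⟪e', y - q0⟫} :=
    (isClosed_le (by fun_prop) (by fun_prop)).measurableSet
  have m1 := min_le_left δ 1
  have m2 := min_le_right δ 1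
  have h1 := hC v e q0 q T _ hv he mT hs.le (by linarith) hq' (by linarith)
    (fun y _ h1 h2 => by
      have := (hsl y (by linarith)).1 (by linarith [hle y])
      linarith [hin y])
    (fun y hy _ h2 => by
      have h3 : ⟪e', y - q0⟫ < 3 / 4 * f := lt_of_not_ge hy
      have := (hsl y (by linarith [hin y, norm_nonneg (y - q0)])).2.1 h3.le
      linarith [hin y, norm_nonneg (y - q0)])
  have hyq : ∀ y, ⟪e', y - q⟫ = ⟪e', y - q0⟫ - T' := fun y => by
    simp only [hT', inner_sub_right]; ring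
  have hr : ∀ y, ‖y - q‖ < 3 / 2 * (f - T') → ‖y - q0‖ ≤ 2 * f := fun y hy => by
    linarith [norm_sub_le_norm_sub_add_norm_sub y q q0]
  have h2 := H v e' q T' (f - T') _ hv he' (by linarith [le_abs_self h0]) mT (by linarith)
    (fun y hy h1 _ => by
      have := (hsl y (hr y h1)).2.2 hy
      rw [hyq]; linarith)
    (fun y _ h1 h2 => by
      rw [hyq, show ⟪e', y - q0⟫ - T' - (f - T') = ⟪e', y - q0⟫ - f by ring] at h2 ⊢
      linarith [hN y (hr y h1) h2])
  rw [show T' + (f - T') = f by ring] at h2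
  rw [show 1 / 4 * T = T / 4 by ring] at h1
  have : 0 ≤ Real.exp (G * (2 * A + Cb + 2) + (A + Cb + 2)) * Real.exp (-(T / 4)) * ue v e q0 := by
    positivity
  linarith

/-- **SRC**: `P(q) ≤ C e^{-T/4} t(q0) + (1 + ε) 16 e^{-√2 f}` in a zero-free slab -/
theorem src_slab (hn : 4 ≤ n) {ε A : ℝ} (hε : 0 < ε) (hA : 0 ≤ A) :
    ∃ C L δ f0 : ℝ, 0 ≤ C ∧ 0 ≤ L ∧ 0 < δ ∧ ∀ (v : EE n → ℝ) (e e' q0 q : EE n) (T f : ℝ),
      Sol v → ‖e‖ = 1 → ⟪e, ∇ (dd v) q0⟫ = ‖∇ (dd v) q0‖ → ‖e'‖ = 1 → ‖e - e'‖ * f ≤ 1 →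
      f0 ≤ f → 0 ≤ T → 250 * T ≤ f →
      ‖q - (q0 + T • e')‖ ≤ A → ⟪e', q - q0⟫ - δ ≤ |dd v q| →
      (∀ y, ‖y - q0‖ ≤ 3 * f → A ≤ ⟪e', y - q0⟫ → ⟪e', y - q0⟫ ≤ f - A → 0 < v y) →
      (∀ y, ‖y - q0‖ ≤ 2 * f → |⟪e', y - q0⟫ - f| ≤ L →
        |⟪e', y - q0⟫ - f| - δ ≤ |dd v y|) →
      psi v q ^ 2 * tt v q / 4 ≤ C * Real.exp (-(T / 4)) * tt v q0 +
        (1 + ε) * (16 * Real.exp (-√2 * f)) := by
  obtain ⟨C, L, δ, f0, hC, hL, hδ, H⟩ := src_ue hn hε hA
  refine ⟨C, L, δ, f0, hC, hL, hδ,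
    fun v e e' q0 q T f hv he hq0 he' hee hf hT0 hT hq hd hp hN => ?_⟩
  have h2 := H v e e' q0 q T f hv he he' hee hf hT0 hT hq hd hp hN
  have h3 := mul_le_mul_of_nonneg_left (hv.ue_le_tt hq0)
    (by positivity : 0 ≤ C * Real.exp (-(T / 4)))
  have h4 := mul_nonneg (by positivity : 0 ≤ C * Real.exp (-(T / 4))) (hv.tt_nonneg q0)
  linarith [hv.P_le_ue he q]

end Crest.Agent.N067
end

-- ▼ part N067/F/Src
section

/-!
# Row 67: SRC on parallel sheets (helper88)
-/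

set_option autoImplicit false
set_option linter.dupNamespace false

open MeasureTheory Laplacian InnerProductSpace Topology Filter Set Metric
open scoped RealInnerProductSpace Gradient ContDiff

namespace Crest.Agent.N067.M.Pn

open Crest.Agent.R077 Ker Crest.Agent.N067.V

variable {n : ℕ}

theorem inner_nu_nn {v : EE n → ℝ} {x : EE n} (h : ‖nu v x‖ = 1) :
    ⟪nu v x, ∇ (dd v) x⟫ = ‖∇ (dd v) x‖ := by
  have h0 : NN v x ≠ 0 := fun h0 => by simp [nu, h0] at h
  change ⟪(NN v x)⁻¹ • nn v x, nn v x⟫ = NN v x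
  rw [inner_smul_left, real_inner_self_eq_norm_sq]
  change (NN v x)⁻¹ * NN v x ^ 2 = NN v x
  field_simp



end Crest.Agent.N067.M.Pn
end

-- ▼ part N067/F/SrcS

/-!
# Row 67, FLUX: the leaf SRC (helper88)
-/

set_option autoImplicit false
set_option linter.dupNamespace false

open MeasureTheory InnerProductSpace Topology Filter Set Metric
open scoped RealInnerProductSpace Gradient ContDiff ENNReal

namespace Crest.Agent.N067.M

open Crest.Agent.R077 Crest.Agent.N067.V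

variable {n : ℕ}

/-- the unit normal on a sheet -/
theorem Sheet.nu_near {v : EE n → ℝ} {q e y : EE n} {R a b δ : ℝ} (hv : Sol v)
    (h : Sheet v q e R a b δ) (hδ : δ ≤ 1 / 2) (h1 : ‖y - q‖ ≤ R) (h2 : -a ≤ ⟪e, y - q⟫)
    (h3 : ⟪e, y - q⟫ ≤ b) : ‖nu v y‖ = 1 ∧ ‖nu v y - e‖ ≤ 2 * δ := by
  obtain ⟨-, k2, k3⟩ := h.est y h1 h2 h3
  have hN : 0 < NN v y := by
    have := norm_sub_norm_le e (nn v y)
    rw [h.unit, norm_sub_rev] at this
    change 0 < ‖nn v y‖
    linarith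
  have h5 := Wd.norm_nn_sub_nu hv hN
  have h6 := norm_sub_le_norm_sub_add_norm_sub (nu v y) (nn v y) e
  rw [norm_sub_rev (nu v y) (nn v y)] at h6
  exact ⟨Wd.norm_nu hN, by linarith⟩

theorem src (hn : 4 ≤ n) : SrcStmt n := by
  intro ε hε
  obtain ⟨C, L, δ0, f0, hC, hL, hδ0, H⟩ := src_slab hn (A := 1) hε zero_le_one
  refine ⟨C, L + 1, max f0 2, min δ0 (1 / 2), hC, lt_min hδ0 (by norm_num),
    fun v x0 e q f R T l δ a hv h hT hf hR hδ hl ha hal haf hq => ?_⟩
  have hf2 : 2 ≤ f := (le_max_right _ _).trans hf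
  have he := h.bot.unit
  have h0 : 0 ≤ δ := (abs_nonneg _).trans
    (h.bot.est x0 (by simp; linarith) (by simp; linarith) (by simp; linarith)).1
  have m1 := min_le_left δ0 (1 / 2)
  have m2 := min_le_right δ0 (1 / 2)
  have d1 : 2 * δ ≤ δ * f := by nlinarith
  obtain ⟨u1, u2⟩ := h.bot.nu_near (y := x0) hv (by linarith) (by simp; linarith)
    (by simp; linarith) (by simp; linarith)
  have hn' : ∀ c : ℝ, 0 ≤ c → ‖x0 + c • e - x0‖ = c := fun c hc => by
    rw [add_sub_cancel_left, norm_smul, he, mul_one, Real.norm_eq_abs, abs_of_nonneg hc]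
  have hs : ∀ (y : EE n) (c : ℝ), ⟪e, y - (x0 + c • e)⟫ = ⟪e, y - x0⟫ - c := fun y c => by
    simp only [inner_sub_right, inner_add_right, inner_smul_right, real_inner_self_eq_norm_sq, he]
    ring
  refine H v (nu v x0) e x0 q a f hv u1 (Pn.inner_nu_nn u1) he
    (by linarith [mul_le_mul_of_nonneg_right u2 (show 0 ≤ f by linarith)])
    ((le_max_left _ _).trans hf) ha haf hq ?_ (fun y h1 h2 h3 => h.mid y ?_ (by linarith)
      (by linarith)) fun y h1 h2 => ?_
  · have b1 := abs_real_inner_le_norm e (q - (x0 + a • e))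
    rw [hs, he, one_mul, abs_le] at b1
    have b2 := norm_sub_le_norm_sub_add_norm_sub q (x0 + a • e) x0
    rw [hn' a ha] at b2
    have := (abs_le.1 (h.bot.est q (by linarith) (by linarith [b1.1]) (by linarith [b1.2])).1).1
    linarith [le_abs_self (dd v q)]
  · have := norm_sub_le_norm_sub_add_norm_sub y x0 (x0 + (f / 2) • e)
    rw [norm_sub_rev x0, hn' _ (by linarith)] at this
    linarith
  · have b2 := norm_sub_le_norm_sub_add_norm_sub y x0 (x0 + f • e)
    rw [norm_sub_rev x0, hn' _ (by linarith)] at b2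
    obtain ⟨h3, h4⟩ := abs_le.1 h2
    have b3 := (h.top.est y (by linarith) (by rw [inner_neg_left, hs]; linarith)
      (by rw [inner_neg_left, hs]; linarith)).1
    rw [inner_neg_left, hs] at b3
    have b4 := abs_sub_abs_le_abs_sub (-(⟪e, y - x0⟫ - f)) (dd v y)
    rw [abs_sub_comm, abs_neg] at b4
    linarith

end Crest.Agent.N067.M
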