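import Crest.Agent.N067.M.Asm0
import Crest.Agent.N067.M.PDefs
import Crest.Agent.N067.F.SrcS
import Crest.Agent.N067.M.Foot
import Crest.Agent.N067.M.Col
import Crest.Agent.N067.U.VT
import Crest.Agent.N067.M.FDefs
import Crest.Agent.N067.Y.StG
import Crest.Agent.N067.X0.Cont
import Crest.Agent.N067.M.FL0
import Crest.Agent.N067.V.Phi4

-- ▼ part N067/M/Asm
section

/-!
# Row 67 (helper26): `FluxStmt` from its pointwise form
-/

set_option autoImplicit false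
set_option linter.dupNamespace false

open MeasureTheory Laplacian InnerProductSpace Topology Filter Set Metric
open scoped RealInnerProductSpace Gradient ENNReal

namespace Crest.Agent.N067.M

open Crest.Agent.R077 Crest.Agent.N067.V Crest.Agent.N067.Y

noncomputable section

variable {n : ℕ}

/-- powers of the logarithm are small -/
theorem polylog (A : ℝ) (k : ℕ) {η : ℝ} (hη : 0 < η) : ∃ M : ℝ, 1 ≤ M ∧ ∀ ρ l, M ≤ ρ → 0 ≤ l →
    l ≤ A * (1 + Real.log ρ) → l ^ k ≤ η * ρ := by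
  have h0 : 0 < (2 * (|A| + 1)) ^ k := by positivity
  obtain ⟨M, hM⟩ := eventually_atTop.1
    (((Real.isLittleO_pow_log_id_atTop (n := k)).bound (div_pos hη h0)).and
      (Real.tendsto_log_atTop.eventually_ge_atTop 1))
  refine ⟨max M 1, le_max_right _ _, fun ρ l h l0 hl => ?_⟩
  obtain ⟨h1, h2⟩ := hM ρ (le_of_max_le_left h)
  have r0 : 0 ≤ ρ := zero_le_one.trans (le_of_max_le_right h)
  rw [Real.norm_of_nonneg (by positivity), id, Real.norm_of_nonneg r0, div_mul_eq_mul_div,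
    le_div_iff₀ h0, ← mul_pow] at h1
  refine (pow_le_pow_left₀ l0 (hl.trans ?_) k).trans h1
  nlinarith [le_abs_self A, abs_nonneg A]

theorem continuous_Bn {v : EE n → ℝ} (hv : Sol v) : Continuous (Bn v) :=
  hv.hsq_sm.continuous.sqrt

theorem Dat.Ok.meas_gam {D : Dat n} {K lam C1 rs : ℝ} (O : D.Ok K lam C1 rs) (B : D.Bas)
    (ε T : ℝ) : Measurable (D.gam ε T) := by
  have h1 := continuous_nn B.sol
  have h2 := B.sol.dd_sm.continuous
  have h3 := B.sol.psi_sm.continuous.measurable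
  have h4 := O.meas_Z B
  have h5 := O.Wcd.continuous.measurable
  have h6 := Ker.measurable_Gk (n := n) 2
  have hS : MeasurableSet {z : EE n × EE n |
      Opp D.v ε T 0 z.1 z.2 ∧ 0 < ⟪z.2 - z.1, nn D.v z.1⟫} := by
    refine MeasurableSet.inter (s₂ := {z : EE n × EE n | 0 < ⟪z.2 - z.1, nn D.v z.1⟫})
      (IsClosed.measurableSet ?_) (isOpen_lt continuous_const (by fun_prop)).measurableSet
    exact (isClosed_le (f := fun z : EE n × EE n => |dd D.v z.1|) (by fun_prop)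
      continuous_const).inter ((isClosed_le (f := fun z : EE n × EE n => |dd D.v z.2|) (by fun_prop)
      continuous_const).inter ((isClosed_le continuous_const
        (g := fun z : EE n × EE n => ‖z.1 - z.2‖) (by fun_prop)).inter
        (isClosed_le (f := fun z : EE n × EE n => ⟪nn D.v z.1, nn D.v z.2⟫) (by fun_prop)
          continuous_const)))
  have hF : Measurable fun z : EE n × EE n => ENNReal.ofReal
      (9 * psi D.v z.1 ^ 2 * Ker.Gk 2 (z.1 - z.2) * psi D.v z.2 ^ 2 *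
        ((D.Z z.1 * D.W z.1 + D.Z z.2 * D.W z.2) ^ 2 / 2)) := by fun_prop
  refine (funext fun x => ?_ : _ = D.gam ε T) ▸
    (hF.indicator hS).lintegral_prod_right' (ν := volume)
  rw [Dat.gam, ← lintegral_indicator (s := {y | Opp D.v ε T 0 x y ∧ 0 < ⟪y - x, nn D.v x⟫})
    (measurable_prodMk_left hS)]
  rfl

/-- the main case -/
theorem flux_main (fl : FLStmt n) (x0 : X0Stmt n) (sh : ShiftStmt n) {ε : ℝ} (hε : 0 < ε)
    (ε1 : ε ≤ 1 / 100) : ∃ δ : ℝ, 0 < δ ∧ ∀ (β : Bo) (K lam κ0 T : ℝ), 0 < lam →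
      Big n K lam κ0 β fun D => ∀ c : EE n → ℝ,
        ∫⁻ x in {x | x ∈ D.Cut ∧ D.Main lam ε T δ (c x) x}, ENNReal.ofReal (c x) ≤
          ENNReal.ofReal ((1 + 10 * ε) * lam / (2 * √2)) * ∫⁻ x, D.gam ε T x := by
  obtain ⟨η, η0, sh⟩ := sh (ε / 2) (half_pos hε)
  obtain ⟨δ, δ0, δ1, kb, mk, ik, hk⟩ := exists_kb (half_pos hε)
  obtain ⟨Cc, C1, cmp⟩ := fl.cmp
  refine ⟨δ / 2, half_pos δ0, fun β K lam κ0 T l0 => ?_⟩
  have hs : Big n K lam κ0 β fun D => ∀ x ∈ D.Om, ∀ a, |a| ≤ T →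
      ∀ y ∈ closedBall x (2 * |dd D.v x - a|), |dd D.v x - a| * Bn D.v y ≤ η := by
    refine ((big_bas fl x0 K lam κ0 β).and (big_M (P := fun D => ∀ ρ l, D.M ≤ ρ → 0 ≤ l →
      l ≤ (1 + 2 * |T| + 2 * |D.C2|) * (1 + Real.log ρ) → l ^ 3 ≤ η / Cc * ρ) fun C2 => ?_)).mono ?_
    · obtain ⟨M, -, h⟩ := polylog (1 + 2 * |T| + 2 * |C2|) 3 (show 0 < η / Cc by positivity)
      exact ⟨M, fun D _ _ _ _ e hM _ ρ l h1 => e ▸ h ρ l (hM.trans h1)⟩
    rintro D ⟨B, h⟩ x hx a ha y hy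
    have p0 := B.ph x
    have r1 := (B.rho hx).le
    have l1 := Real.log_nonneg (B.M1.trans r1)
    have h1 : |dd D.v x - a| ≤ |D.C2| * Real.log (1 / ph0 D.v x) + |T| := by
      linarith [abs_sub (dd D.v x) a, hx.2.1, le_abs_self T,
        mul_le_mul_of_nonneg_right (le_abs_self D.C2) l1]
    have h2 := h _ (1 + 2 * |dd D.v x - a|) r1 (by positivity) (by
      nlinarith [abs_nonneg T, abs_nonneg D.C2])
    have h3 := (cmp _ B.pos x y).2.2.2
    have h4 : ‖x - y‖ ≤ 2 * |dd D.v x - a| := by rwa [mem_closedBall', dist_eq_norm] at hy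
    have h5 : Bn D.v y ≤ Cc * (1 + 2 * |dd D.v x - a|) ^ 2 * ph0 D.v x := h3.trans (by gcongr)
    have h6 := abs_nonneg (dd D.v x - a)
    generalize |dd D.v x - a| = s at *
    rw [mul_one_div, div_div, le_div_iff₀ (by positivity)] at h2
    calc s * Bn D.v y ≤ (1 + 2 * s) * (Cc * (1 + 2 * s) ^ 2 * ph0 D.v x) :=
          mul_le_mul (by linarith) h5 (Real.sqrt_nonneg _) (by positivity)
      _ = (1 + 2 * s) ^ 3 * (Cc * ph0 D.v x) := by ring
      _ ≤ η := h2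
  refine ((big_bas fl x0 K lam κ0 β).and (hs.and (big_num n K lam κ0 β 1))).mono ?_
  rintro D ⟨B, hs, -, -, -, -, C1, rs, -, -, O⟩ c
  have h1 := continuous_nn B.sol
  have h2 := continuous_Bn B.sol
  have hA : IsClosed {z : EE n × ℝ | ∀ y ∈ closedBall z.1 (2 * |z.2|), |z.2| * Bn D.v y ≤ η} := by
    have : {z : EE n × ℝ | ∀ y ∈ closedBall z.1 (2 * |z.2|), |z.2| * Bn D.v y ≤ η} =
        ⋂ u ∈ closedBall (0 : EE n) 1,
          {z : EE n × ℝ | |z.2| * Bn D.v (z.1 + (2 * |z.2|) • u) ≤ η} := by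
      ext z
      simp only [mem_ofPred_eq, mem_iInter]
      refine ⟨fun h u hu => h _ ?_, fun h y hy => ?_⟩
      · rw [mem_closedBall_iff_norm, add_sub_cancel_left, norm_smul,
          Real.norm_of_nonneg (by positivity)]
        exact mul_le_of_le_one_right (by positivity) (mem_closedBall_zero_iff.1 hu)
      · rcases (abs_nonneg z.2).eq_or_lt with e | e
        · rw [← e, zero_mul]; exact η0.le
        · have := h ((2 * |z.2|)⁻¹ • (y - z.1)) (by
            rw [mem_closedBall_zero_iff, norm_smul, Real.norm_of_nonneg (by positivity),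
              inv_mul_le_one₀ (by positivity)]
            exact mem_closedBall_iff_norm.1 hy)
          rwa [smul_inv_smul₀ (by positivity), add_sub_cancel] at this
    rw [this]
    exact isClosed_biInter fun u _ => isClosed_le (by fun_prop) continuous_const
  set c1 := ENNReal.ofReal ((1 + 8 * ε) * lam / (2 * √2))
  have mγ := O.meas_gam B ε T
  refine (sharp (p := fun x h => x - h • nn D.v x) (by fun_prop) hA.measurableSet (sh _ B.sol)
    (b := fun x => dd D.v x - D.Th x) (B.sol.dd_sm.continuous.measurable.sub O.Tmeas)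
    (γ := fun x => c1 * D.gam ε T x) (mγ.const_mul _) mk ?_).trans ?_
  · rintro x ⟨hx, d0, A, a1, a2, a3⟩
    have hu : |dd D.v x| - D.Th x ∈ Icc (0 : ℝ) 1 := ⟨by linarith [hx.2], by linarith [hx.1.2]⟩
    have e1 : 2 * D.ch x * D.chd x = kc (|dd D.v x| - D.Th x) := rfl
    rw [e1] at a1
    refine (ENNReal.ofReal_le_ofReal a1).trans ?_
    rw [ENNReal.ofReal_mul (kc_nonneg _)]
    refine (mul_le_mul_right a2 _).trans ?_
    rw [← lintegral_const_mul' _ _ ENNReal.ofReal_ne_top,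
      ← lintegral_const_mul' _ _ ENNReal.ofReal_ne_top, ← lintegral_indicator measurableSet_Icc,
      ← lintegral_indicator (s := {h | (x, h) ∈ _}) (measurable_prodMk_left hA.measurableSet),
      ← lintegral_sub_left_eq_self _ (dd D.v x)]
    refine lintegral_mono fun h => ?_
    by_cases hh : dd D.v x - h ∈ Icc (-T) T
    · have b1 := abs_le.2 hh
      have b2 := hs x hx.1.1 _ b1
      obtain ⟨b3, b4⟩ := a3 _ b1
      have e2 : pr D.v (dd D.v x - h) x = x - h • nn D.v x := by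
        rw [pr, sub_sub_cancel_left, neg_smul, sub_eq_add_neg]
      rw [sub_sub_cancel] at b2
      rw [e2] at b3 b4
      have p0 := B.ph x
      have p1 : ph0 D.v x ≤ 1 := hx.1.1.1.le.trans ((div_le_one (by linarith [B.M1])).2 B.M1)
      have b5 := (O.Tlip x hx.1 _ (b4.trans (by nlinarith))).trans ((div_le_iff₀ p0).2 b4)
      rw [indicator_of_mem hh, indicator_of_mem (by exact b2), e2]
      refine mul_le_mul_left (hk _ _ hu ?_) _
      rw [abs_of_nonneg d0, abs_le]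
      constructor <;> linarith [abs_le.1 b3, abs_le.1 b5]
    · rw [indicator_of_notMem hh]; exact zero_le
  · rw [lintegral_const_mul _ mγ, ← mul_assoc, ← mul_assoc]
    refine mul_le_mul_left ?_ _
    refine (mul_le_mul_left (mul_le_mul_right ik _) _).trans ?_
    rw [← ENNReal.ofReal_mul (by positivity), ← ENNReal.ofReal_mul (by positivity)]
    refine ENNReal.ofReal_le_ofReal ?_
    rw [← mul_div_assoc, ← mul_assoc]
    gcongr
    nlinarith [mul_pos hε hε, mul_le_mul_of_nonneg_left ε1 hε.le,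
      mul_le_mul_of_nonneg_left ε1 (mul_pos hε hε).le]

/-- the crude bound of the cost -/
theorem cost_crude (fl : FLStmt n) (x0 : X0Stmt n) (β : Bo) (K lam κ0 : ℝ) (hl : lam ≤ 3) :
    Big n K lam κ0 β fun D => ∀ th, D.Th' th → ∀ x ∈ D.Cut, D.cost th x ≤ 0 ∨
      (1 / ph0 D.v x / 2 ≤ D.ρm ∧ D.cost th x ≤ D.dens x * (1 / ph0 D.v x) ^ 5) := by
  obtain ⟨L, L1, hL⟩ := exists_kc_le
  refine ((big_bas fl x0 K lam κ0 β).and
    (big_num n K lam κ0 β (3 * L * (2 * (3 + 72 * K / κ0)) ^ 2))).mono ?_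
  rintro D ⟨B, -, e0, hM, -, C1, rs, -, -, O⟩ th T x hx
  have ho := hx.1.1
  by_cases h0 : th x = 0
  · left; simp [Dat.cost, h0]
  by_cases h1 : D.rp x = D.ρm
  · left; simp [Dat.cost, show ∇ D.rp x = 0 from B.p.top x ho h1]
  have h2 : D.rp x < D.ρm := lt_of_le_of_ne (B.p.le x ho) h1
  have h3 := (B.le_min ho).trans (min_le_left _ _)
  refine Or.inr ⟨?_, mul_le_mul_of_nonneg_left ?_ (by unfold Dat.dens; positivity)⟩
  · rcases min_choice D.ρm (1 / ph0 D.v x / 2) with e | e <;> rw [e] at h3 <;> linarith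
  have hu : |dd D.v x| - D.Th x ∈ Icc (0 : ℝ) 1 := ⟨by linarith [hx.2], by linarith [hx.1.2]⟩
  have e1 : 2 * D.ch x * D.chd x = kc (|dd D.v x| - D.Th x) := rfl
  have p0 := B.ph x
  have r1 := (B.rho ho).le
  have h4 := O.act_ph B hl ho (T.act x ho h0)
  rw [e0, ← le_div_iff₀ p0, div_eq_mul_one_div] at h4
  have h5 : ‖∇ D.rp x‖ ≤ D.M * D.rp x ^ 2 := B.p.grad x ho
  have h6 : -(SignType.sign (dd D.v x) * ⟪nn D.v x, ∇ D.rp x⟫) ≤ ‖∇ D.rp x‖ := by
    refine (neg_le_abs _).trans ?_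
    rw [abs_mul]
    refine (mul_le_of_le_one_left (abs_nonneg _) ?_).trans ((abs_real_inner_le_norm _ _).trans
      (mul_le_of_le_one_left (norm_nonneg _) (B.sol.norm_grad_dd_le x)))
    rcases SignType.sign (dd D.v x) with _ | _ | _ <;> simp
  have r8 := B.rp8 ho
  have M1 := B.M1
  set ρ := 1 / ph0 D.v x
  set K' := 2 * (3 + 72 * K / κ0)
  rw [e1]
  calc _ ≤ kc (|dd D.v x| - D.Th x) * th x * (D.M * D.rp x ^ 2) :=
        mul_le_mul_of_nonneg_left (h6.trans h5) (mul_nonneg (kc_nonneg _) (T.nonneg x))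
    _ ≤ L * 3 * (ρ * (K' * ρ) ^ 2) := by
        have := O.th_three B hl T ho
        have := hL _ hu
        have := T.nonneg x
        gcongr
    _ = 3 * L * K' ^ 2 * ρ ^ 3 := by ring
    _ ≤ ρ ^ 2 * ρ ^ 3 := by
        gcongr
        nlinarith
    _ = ρ ^ 5 := by ring


end

end Crest.Agent.N067.M
end

-- ▼ part N067/M/Pt
section

/-!
# Row 67, block FLUX (helper89): `FluxStmt` from the pointwise leaves
-/

set_option autoImplicit false
set_option linter.dupNamespace false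

open MeasureTheory InnerProductSpace Topology Filter Set Metric
open scoped RealInnerProductSpace Gradient ContDiff ENNReal

namespace Crest.Agent.N067.M

open Crest.Agent.R077 Crest.Agent.N067.V Crest.Agent.N067.Y

noncomputable section

variable {n : ℕ}

/-- Harnack inequality for `t` at a zero -/
theorem tt_harn (n : ℕ) : ∃ H : ℝ, 0 ≤ H ∧ ∀ v : EE n → ℝ, Sol v → ∀ x y, tt v y < 1 →
    dd v x = 0 → ‖x - y‖ ≤ 1 → tt v x ≤ H * tt v y := by
  obtain ⟨K, K0, h⟩ := ue_flat n (a := 2) (by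
    rw [show (2 : ℝ) = √4 by rw [show (4 : ℝ) = 2 ^ 2 by norm_num, Real.sqrt_sq zero_le_two]]
    exact Real.sqrt_lt_sqrt (by norm_num) (by norm_num))
  refine ⟨K * Real.exp 2, by positivity, fun v hv x y ht hd hxy => ?_⟩
  have hN := Wd.NN_pos ht
  have hu := Wd.norm_nu hN
  have h1 := h v _ hv hu y x
  have h2 : ue v (nu v y) y ≤ tt v y := hv.ue_le_tt (by
    change ⟪nu v y, nn v y⟫ = NN v y
    rw [Wd.nn_eq hN, inner_smul_right, real_inner_self_eq_norm_sq, hu]; ring)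
  have h3 := hv.ue_nonneg hu y
  rw [hd, abs_zero, mul_zero, add_zero, dist_eq_norm] at h1
  have h4 : Real.exp (2 * ‖x - y‖) ≤ Real.exp 2 := Real.exp_le_exp.2 (by linarith)
  calc tt v x ≤ K * Real.exp (2 * ‖x - y‖) * ue v (nu v y) y := by
        linarith [sq_nonneg ‖∇ (dd v) x - nu v y‖]
    _ ≤ K * Real.exp 2 * tt v y := by gcongr

/-- case S with the exponents of `FF` -/
def InS' (v : EE n → ℝ) (x : EE n) : Prop :=
  ∃ y, ‖y - x‖ ≤ (1 / ph0 v x) ^ 11 ∧ |dd v y| ≤ 1 ∧ ph0 v x ^ 100 ≤ tt v y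

/-- the pointwise form of FLUX -/
def PtStmt' (n : ℕ) : Prop := ∀ ε : ℝ, 0 < ε → ε ≤ 1 / 100 → ∃ T1 e0 : ℝ, 0 < e0 ∧
  ∀ (β : Bo) (ηt C K lam κ0 T e δ : ℝ), β.η ≤ e0 → 0 < ηt → XAt n β ε ηt C →
    0 < lam → lam ≤ 3 → T1 ≤ T → 0 < e → 0 < δ → Big n K lam κ0 β fun D => ∀ th, D.Th' th →
      ∀ᵐ x, x ∈ D.Cut → InS' D.v x ∨ D.cost th x ≤ e * D.kept th x ∨
        D.Chg id (D.cost th x) e x ∨ D.Chg (Phi D.v) (D.cost th x) e x ∨
        D.Main lam ε T δ (D.cost th x) x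

theorem ff_of {v : EE n → ℝ} {x : EE n} (h : ¬ InS' v x) : FF v x := fun y h1 h2 =>
  le_of_not_ge fun h3 => h ⟨y, h1, h2, h3⟩

/-- the ball around the bottom foot -/
theorem Dat.FP.ball {D : Dat n} {ε C K T a C3 : ℝ} {x x0 w om z y : EE n}
    (h : D.FP ε C K T a C3 x x0 w om z) (B : D.Bas) (h2 : 2 ≤ D.M) (hx : x ∈ D.Om)
    (hy : y ∈ ball x0 (1 / 4)) : |dd D.v y| ≤ 1 ∧ tt D.v y < 1 ∧ ‖x0 - y‖ ≤ 1 ∧
      ‖x - y‖ ≤ 2 * |dd D.v x| + 2 ∧ D.rp y ≤ D.rp x + a := by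
  have p0 := B.ph x
  have r2 : 2 < 1 / ph0 D.v x := h2.trans_lt (B.rho hx)
  have p1 : ph0 D.v x ≤ 1 / 2 := by
    rw [lt_div_iff₀ p0] at r2; linarith
  have p5 : ph0 D.v x ^ 5 ≤ (1 / 2) ^ 5 := pow_le_pow_left₀ p0.le p1 5
  rw [mem_ball, dist_eq_norm] at hy
  have u := h.bot.sh.unit
  have i1 : |⟪nu D.v x0, y - x0⟫| ≤ 1 / 4 := by
    have := abs_real_inner_le_norm (nu D.v x0) (y - x0)
    rw [u] at this; linarith
  have c3 := h.c3
  have a1 := abs_nonneg (dd D.v x)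
  have a2 := abs_nonneg T
  obtain ⟨k1, -, k3⟩ := h.bot.sh.est y (by nlinarith) (by linarith [(abs_le.1 i1).1])
    (by linarith [(abs_le.1 i1).2])
  refine ⟨?_, by linarith, by rw [norm_sub_rev]; linarith, ?_, h.colp y (by linarith)⟩
  · have := abs_sub_abs_le_abs_sub (dd D.v y) ⟪nu D.v x0, y - x0⟫
    linarith
  · have e1 : x - y = (x - (x0 + dd D.v x • nu D.v x0)) + dd D.v x • nu D.v x0 - (y - x0) := by abel
    have e2 := norm_sub_le (x - (x0 + dd D.v x • nu D.v x0) + dd D.v x • nu D.v x0) (y - x0)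
    have e3 := norm_add_le (x - (x0 + dd D.v x • nu D.v x0)) (dd D.v x • nu D.v x0)
    rw [norm_smul, u, Real.norm_eq_abs] at e3
    rw [e1]; linarith [h.bot.near]

theorem pt_of (fl : FLStmt n) (x0S : X0Stmt n) (hS : SetStmt n) (hM : MinusStmt n)
    (hA : PaStmt n) (hP : PphiStmt n) (hN : PmainStmt n) : PtStmt' n := by
  intro ε e0 e1
  obtain ⟨G, T1, G0, hA⟩ := hA ε e0 e1
  obtain ⟨T2, hN⟩ := hN ε e0 e1
  obtain ⟨H, H0, hH⟩ := tt_harn n
  refine ⟨max (max T1 T2) 4, 1, one_pos, fun β ηt C K lam κ0 T e δ _ hη hX l0 l3 hT he hδ => ?_⟩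
  simp only [max_le_iff] at hT
  obtain ⟨a1, a10, hA⟩ := hA β C K lam κ0 T l3 hT.1.1
  obtain ⟨a2, a20, hN⟩ := hN β C K lam κ0 T δ l0 l3 hT.1.2 hδ
  obtain ⟨a3, a30, hP⟩ := hP β ε C K lam κ0 T (4 / ε * G) e l3 hT.2 (by positivity) he
  set a := min (min a1 a2) (min a3 1) with ha
  have a0 : 0 < a := lt_min (lt_min a10 a20) (lt_min a30 one_pos)
  have b1 : a ≤ a1 := (min_le_left _ _).trans (min_le_left _ _)
  have b2 : a ≤ a2 := (min_le_left _ _).trans (min_le_right _ _)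
  have b3 : a ≤ a3 := (min_le_right _ _).trans (min_le_left _ _)
  have b4 : a ≤ 1 := (min_le_right _ _).trans (min_le_right _ _)
  refine (((((big_bas fl x0S K lam κ0 β).and (big_num n K lam κ0 β 2)).and
    ((hS β ε ηt C K lam κ0 T a hη hX l3 a0).and (hM β ε C K lam κ0 e l3 he))).and
    ((hA.and hP).and (hN.and (big_deep fl x0S K lam κ0 β 2)))).and
    ((foot_chg fl x0S K lam κ0 β l3 0 (G := G) (A := 2) (k := 1 / 4) G0 zero_le_two
      (by norm_num) he).and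
    (foot_chg fl x0S K lam κ0 β l3 0 (G := 4 / ε * G * H) (A := 2) (k := 1 / 4) (by positivity)
      zero_le_two (by norm_num) he))).mono ?_
  rintro D ⟨⟨⟨⟨B, -, -, M2, -, C1, rs, -, -, O⟩, hS, hM⟩, ⟨hA, hP⟩, hN, hd⟩, hF, hF'⟩ th hth
  filter_upwards [hS] with x hS hx
  have hO := hx.1.1
  by_cases h1 : InS' D.v x
  · exact Or.inl h1
  refine Or.inr ?_
  by_cases h2 : th x = 0
  · exact Or.inl (by simp [Dat.cost, Dat.kept, h2])
  have act := hth.act x hO h2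
  rcases hS hO (ff_of h1) act with h3 | ⟨C3, x0, w, om, z, P⟩
  · exact Or.inl (by simp [Dat.cost, Dat.kept, h3])
  have d2 := hd x hx
  rcases lt_or_ge (dd D.v x) 0 with h4 | h4
  · exact (hM th hth x hx h4 T a C3 x0 w om z b4 P).imp_right Or.inl
  rw [abs_of_nonneg h4] at d2
  refine Or.inr ?_
  obtain ⟨f, Q⟩ := P.tops d2
  obtain ⟨c1, X, c2, c3⟩ := hA th hth x hx (by linarith) a C3 f x0 w om z b1 P Q
  rcases le_total (ph0 D.v x ^ 2) (D.lw x) with h5 | h5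
  · refine Or.inl ⟨x0, fun y hy => ?_⟩
    obtain ⟨k1, -, -, k4, k5⟩ := P.ball B M2 hO hy
    exact ⟨k1, hF x hx act y _ k4 (fun _ => by linarith) (Or.inr (Or.inr ⟨h5, c1⟩))⟩
  set Y := 2 * D.ch x * D.chd x * (th x * D.Z x ^ 2 * D.W x ^ 2 * (32 * Real.exp (-√2 * f)))
  have Y0 : 0 ≤ Y := mul_nonneg (kc_nonneg _) (by have := hth.nonneg x; positivity)
  have c2' : D.cost th x ≤ X + (1 + 4 * ε) * Y := c2.trans_eq (by simp only [Y]; ring)
  rcases le_total X (2 * ε * Y) with h6 | h6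
  · refine Or.inr (Or.inr (hN th hth x hx (by linarith) a C3 f _ x0 w om z a0.le b2 P Q h5 ?_))
    exact (by linarith : D.cost th x ≤ (1 + 6 * ε) * Y).trans_eq (by simp only [Y]; ring)
  have X0 : 0 ≤ X := le_trans (by positivity) h6
  have c4 : D.cost th x ≤ 2 / ε * X := by
    rw [div_mul_eq_mul_div, le_div_iff₀ e0]
    nlinarith [mul_le_mul_of_nonneg_left h6 e0.le, mul_le_mul_of_nonneg_right c2' e0.le]
  set E := D.Z x ^ 2 * D.W x ^ 2 * (G * Real.exp (-(1 / 4 * |dd D.v x|))) with hE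
  have E0 : 0 ≤ E := by positivity
  have c5 : D.cost th x ≤ 2 / ε * (E * (tt D.v x0 + tt D.v (x0 + f • nu D.v x0))) :=
    c4.trans (mul_le_mul_of_nonneg_left (c3.trans_eq (by rw [hE]; ring)) (by positivity))
  have E1 : 0 ≤ 2 / ε * E := by positivity
  rcases le_total (tt D.v x0) (tt D.v (x0 + f • nu D.v x0)) with h7 | h7
  · refine Or.inr (Or.inl (hP x hx a C3 f _ x0 w om z b3 P Q h5 ?_))
    calc _ ≤ 2 / ε * E * (2 * tt D.v (x0 + f • nu D.v x0)) := by
          nlinarith [mul_le_mul_of_nonneg_left h7 E1]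
      _ = _ := by rw [hE]; ring
  · refine Or.inl ⟨x0, fun y hy => ?_⟩
    obtain ⟨k1, k2, k3, k4, k5⟩ := P.ball B M2 hO hy
    refine ⟨k1, hF' x hx act y _ k4 (fun _ => by linarith) (Or.inl ?_)⟩
    have k6 := hH D.v B.sol x0 y k2 P.bot.zero k3
    calc _ ≤ 2 / ε * E * (2 * tt D.v x0) := by nlinarith [mul_le_mul_of_nonneg_left h7 E1]
      _ ≤ 2 / ε * E * (2 * (H * tt D.v y)) := by gcongr
      _ = _ := by rw [hE]; ring

/-- **FLUX** from the pointwise classification (proof of helper26's `flux_of`, with the exponents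
of `FF`) -/
theorem flux_of' (fl : FLStmt n) (x0 : X0Stmt n) (sh : ShiftStmt n) (pt : PtStmt' n) :
    FluxStmt n := by
  intro ε hε ε1
  obtain ⟨T1, e0, he0, pt⟩ := pt ε hε ε1
  obtain ⟨δ, δ0, hm⟩ := flux_main fl x0 sh hε ε1
  obtain ⟨A, A0, hA⟩ := charge_map n (show (0 : ℝ) < 1 / 4 by norm_num)
  refine ⟨T1, e0, he0, fun β ηt C K lam κ0 T e b1 b2 b3 l0 l3 hT he => ?_⟩
  have e1 : 0 < e / (3 * (A + 1)) := by positivity
  refine ((pt β ηt C K lam κ0 T _ δ b1 b2 b3 l0 l3 hT e1 δ0).and ((hm β K lam κ0 T l0).and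
    ((cost_crude fl x0 β K lam κ0 l3).and ((caseS fl x0 K lam κ0 β 11 100 5
      (show 0 < e / 3 by positivity)).and ((big_bas fl x0 K lam κ0 β).and
        (big_num n K lam κ0 β 1)))))).mono ?_
  rintro D ⟨h1, h2, h3, h4, B, -, -, -, -, C1, rs, -, -, O⟩ th Tt
  set e' := e / (3 * (A + 1)) with he'
  have hW := O.Wcd.continuous.measurable
  have hG := O.meas_Gain B
  have mb : MeasurableSet {x | |dd D.v x| ≤ 1} :=
    measurableSet_le B.sol.dd_sm.continuous.abs.measurable measurable_const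
  have hc : ∀ Ph : EE n → EE n, Measurable Ph →
      ∫⁻ x in {x | D.Chg Ph (D.cost th x) e' x}, ENNReal.ofReal (D.cost th x) ≤
        ENNReal.ofReal (e / 3) * D.GG := fun Ph hP => by
    refine (hA _ _ (D.cost th) (fun y => e' * (D.Gain y * D.W y ^ 2)) Ph mb (by fun_prop) hP
      fun x hx => hx).trans ?_
    simp only [ENNReal.ofReal_mul e1.le]
    rw [lintegral_const_mul' _ _ ENNReal.ofReal_ne_top, ← mul_assoc, ← ENNReal.ofReal_mul A0.le]
    refine mul_le_mul_left (ENNReal.ofReal_le_ofReal ?_) _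
    rw [he', ← mul_div_assoc, div_le_div_iff₀ (by positivity) (by positivity)]
    nlinarith
  set S1 := {x | x ∈ D.SS 11 100 ∧ D.cost th x ≤ D.dens x * (1 / ph0 D.v x) ^ 5}
  set S2 := {x | x ∈ D.In ∧ D.cost th x ≤ e' * D.kept th x}
  have hsub : D.Cut ≤ᵐ[volume] ((S1 ∪ S2) ∪ ({x | D.Chg id (D.cost th x) e' x} ∪
      {x | D.Chg (Phi D.v) (D.cost th x) e' x}) ∪
        {x | x ∈ D.Cut ∧ D.Main lam ε T δ (D.cost th x) x} : Set (EE n)) := by
    filter_upwards [h1 th Tt] with x hx hxc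
    rcases hx hxc with h | h | h | h | h
    · rcases h3 th Tt x hxc with h' | h'
      · refine Or.inl (Or.inl (Or.inr ⟨hxc.1, h'.trans (mul_nonneg e1.le ?_)⟩))
        have := Tt.nonneg x
        have := B.rp8 hxc.1.1
        unfold Dat.kept Dat.dens
        positivity
      · exact Or.inl (Or.inl (Or.inl ⟨⟨hxc, h'.1, h⟩, h'.2⟩))
    · exact Or.inl (Or.inl (Or.inr ⟨hxc.1, h⟩))
    · exact Or.inl (Or.inr (Or.inl h))
    · exact Or.inl (Or.inr (Or.inr h))
    · exact Or.inr ⟨hxc, h⟩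
  have m1 : Measurable fun x => ENNReal.ofReal (D.dens x * (1 / ph0 D.v x) ^ 5) := by
    have := O.meas_dens B
    have := (continuous_ph0 B.sol).measurable
    fun_prop
  have i1 : ∫⁻ x in S1, ENNReal.ofReal (D.cost th x) ≤ ENNReal.ofReal (e / 3) * D.GG :=
    (setLIntegral_mono m1 fun x hx => ENNReal.ofReal_le_ofReal hx.2).trans
      ((lintegral_mono_set fun x hx => hx.1).trans h4)
  have i2 : ∫⁻ x in S2, ENNReal.ofReal (D.cost th x) ≤ ENNReal.ofReal e * D.Kept th := by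
    have m2 : AEMeasurable (fun x => ENNReal.ofReal (e' * D.kept th x)) (volume.restrict S2) := by
      have a1 : AEMeasurable D.rp (volume.restrict S2) :=
        ((B.p.cont B.op).aemeasurable B.op.measurableSet).mono_set fun x hx => hx.1.1
      have a2 : Measurable fun x => ‖∇ D.rp x‖ := by
        simp only [gradient, LinearIsometryEquiv.norm_map]
        exact (measurable_fderiv ℝ _).norm
      have a3 : Measurable D.ch := Real.smoothTransition.continuous.measurable.comp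
        ((B.sol.dd_sm.continuous.abs.measurable.sub O.Tmeas).const_sub 1)
      exact (((((a3.pow_const 2).mul (O.meas_dens B)).aemeasurable.mul
        ((Tt.meas.mul (a2.pow_const 2)).aemeasurable.div a1))).const_mul _).ennreal_ofReal
    refine (setLIntegral_mono_ae m2 (Eventually.of_forall fun x hx =>
      ENNReal.ofReal_le_ofReal hx.2)).trans ((lintegral_mono_set fun x hx => hx.1).trans ?_)
    simp only [ENNReal.ofReal_mul e1.le]
    rw [lintegral_const_mul' _ _ ENNReal.ofReal_ne_top]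
    refine mul_le_mul_left (ENNReal.ofReal_le_ofReal ?_) _
    exact div_le_self he.le (by linarith)
  refine (lintegral_mono_set' hsub).trans ((lintegral_union_le _ _ _).trans (add_le_add
    ((lintegral_union_le _ _ _).trans ((add_le_add ((lintegral_union_le _ _ _).trans
      (add_le_add i1 i2)) ((lintegral_union_le _ _ _).trans (add_le_add (hc id measurable_id)
        (hc _ (measurable_Phi B.sol))))).trans_eq ?_)) (h2 (D.cost th))))
  have : ENNReal.ofReal e = ENNReal.ofReal (e / 3) + ENNReal.ofReal (e / 3) +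
      ENNReal.ofReal (e / 3) := by
    rw [← ENNReal.ofReal_add (by positivity) (by positivity),
      ← ENNReal.ofReal_add (by positivity) (by positivity)]
    congr 1; ring
  rw [mul_add, show ENNReal.ofReal e * D.GG = _ from congrArg (· * D.GG) this]
  ring

end

end Crest.Agent.N067.M
end

-- ▼ part N067/M/Pmain
section

/-! # Row 67, FLUX (helper94): PMAIN, the main term at the `+` cut -/

set_option autoImplicit false

open MeasureTheory InnerProductSpace Set Metric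
open scoped RealInnerProductSpace Gradient ENNReal

namespace Crest.Agent.N067.M

open Crest.Agent.R077 Wd

variable {n : ℕ} {v : EE n → ℝ} {x x0 : EE n}

/-- the column of `x` over the sheet -/
theorem Bot.col {C3 T s : ℝ} (hv : Sol v) (B : Bot v C3 x x0) (p0 : 0 < ph0 v x)
    (p1 : ph0 v x ≤ 1 / 2) (c3 : |dd v x| + T + 4 ≤ C3 * lg v x)
    (hl : C3 * lg v x * ph0 v x ^ 2 ≤ 1) (hs : |s| ≤ T) :
    ‖pr v s x - (x0 + s • nu v x0)‖ ≤ 2 * ph0 v x ∧ ‖x - pr v s x‖ ≤ C3 * lg v x ∧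
      |dd v (pr v s x) - s| ≤ 3 * ph0 v x ∧ ‖ft v x - ft v (pr v s x)‖ ≤ 5 * ph0 v x * ph0 v x := by
  obtain ⟨-, ⟨he, est⟩, near⟩ := B
  have hR : C3 * lg v x ≤ (1 / ph0 v x) ^ 2 := by
    rwa [one_div_pow, le_div_iff₀ (by positivity)]
  generalize C3 * lg v x = l at *
  generalize nu v x0 = e at *
  generalize (1 / ph0 v x) ^ 2 = R at *
  generalize ph0 v x = φ at *
  have s0 := abs_nonneg s
  have d0 := abs_nonneg (dd v x)
  have key : ∀ (y : EE n) (a : ℝ), ‖y - (x0 + a • e)‖ ≤ 1 → |a| + 1 ≤ l →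
      |dd v y - ⟪e, y - x0⟫| ≤ φ ^ 5 ∧ ‖nn v y - e‖ ≤ φ ^ 5 := fun y a h1 h2 => by
    have b1 : ‖y - x0‖ ≤ l := by
      have := norm_add_le (y - (x0 + a • e)) (a • e)
      rw [norm_smul, he, Real.norm_eq_abs, show y - (x0 + a • e) + a • e = y - x0 by abel] at this
      linarith
    have b2 := abs_le.1 (abs_inner_le b1 he)
    rw [real_inner_comm] at b2
    exact ⟨(est y (b1.trans hR) b2.1 b2.2).1, (est y (b1.trans hR) b2.1 b2.2).2.1⟩
  have q3 : φ ^ 3 ≤ φ * φ := by nlinarith [mul_pos p0 p0]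
  have q2 : φ * φ ≤ φ := by nlinarith
  have q5 : φ ^ 5 ≤ φ ^ 3 := pow_le_pow_of_le_one p0.le (by linarith) (by norm_num)
  have ql : ∀ a b : ℝ, |a| ≤ l → b ≤ φ ^ 5 → 0 ≤ b → |a| * b ≤ φ ^ 3 := fun a b h1 h2 h3 => by
    linarith [mul_le_mul h1 h2 h3 (by linarith), mul_le_mul_of_nonneg_right hl (pow_pos p0 3).le]
  obtain ⟨a1, a2⟩ := key x _ (near.trans (by linarith)) (by linarith)
  have a0 : |s - dd v x| ≤ l := (abs_sub _ _).trans (by linarith)
  have a3 := ql _ _ a0 a2 (norm_nonneg _)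
  have a4 : ‖pr v s x - (x0 + s • e)‖ ≤ 2 * φ := by
    rw [show pr v s x - (x0 + s • e) = (x - (x0 + dd v x • e)) + (s - dd v x) • (nn v x - e) by
      rw [pr]; module]
    refine (norm_add_le _ _).trans ?_
    rw [norm_smul, Real.norm_eq_abs]
    linarith
  obtain ⟨a5, a6⟩ := key _ _ (a4.trans (by linarith)) (by linarith)
  have a7 : |dd v (pr v s x) - s| ≤ 3 * φ ^ 3 := by
    have b1 : ⟪e, pr v s x - x0⟫ =
        ⟪e, x - x0⟫ + (s - dd v x) + ⟪(s - dd v x) • (nn v x - e), e⟫ := by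
      rw [show pr v s x - x0 = (x - x0) + (s - dd v x) • e + (s - dd v x) • (nn v x - e) by
        rw [pr]; module, inner_add_right, inner_add_right, inner_smul_right,
        real_inner_self_eq_norm_sq, he, real_inner_comm e ((s - dd v x) • _)]
      ring
    have b2 := abs_le.1 (abs_inner_le (a := (s - dd v x) • (nn v x - e)) (A := φ ^ 3)
      (by rw [norm_smul, Real.norm_eq_abs]; exact a3) he)
    have b3 := abs_le.1 a1
    have b4 := abs_le.1 a5
    exact abs_le.2 ⟨by linarith, by linarith⟩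
  refine ⟨a4, ?_, by linarith, ?_⟩
  · rw [pr, sub_add_cancel_left, norm_neg, norm_smul, Real.norm_eq_abs]
    exact (mul_le_of_le_one_right (abs_nonneg _) (NN_le hv x)).trans a0
  · have e1 : ft v x - ft v (pr v s x) = (dd v (pr v s x) - s) • nn v (pr v s x) +
        s • (nn v (pr v s x) - e) - s • (nn v x - e) := by
      rw [ft, ft]
      generalize dd v (pr v s x) = a
      generalize nn v (pr v s x) = b
      rw [pr]; module
    rw [e1]
    refine (norm_sub_le _ _).trans ((add_le_add_left (norm_add_le _ _) _).trans ?_)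
    rw [norm_smul, norm_smul, norm_smul, Real.norm_eq_abs, Real.norm_eq_abs]
    linarith [mul_le_of_le_one_right (abs_nonneg (dd v (pr v s x) - s))
      (show ‖nn v (pr v s x)‖ ≤ 1 from NN_le hv _), ql s _ (by linarith) a6 (norm_nonneg _),
      ql s _ (by linarith) a2 (norm_nonneg _)]

/-- **PMAIN** -/
theorem pmain_of (fl : FLStmt n) (x0 : X0Stmt n) (hO : OppStmt n) (hP : PairStmt n) :
    PmainStmt n := by
  intro ε ε0 ε1
  obtain ⟨T1, hT1⟩ := hP ε ε0 ε1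
  refine ⟨max T1 0, fun β C K lam κ0 T δ l0 l3 hT δ0 => ?_⟩
  have T0 := le_of_max_le_right hT
  obtain ⟨f1, δ1, δ10, pair⟩ := hT1 T (le_of_max_le_left hT)
  obtain ⟨f2, δ2, δ20, opp⟩ := hO β T (ε / 48) (by positivity)
  obtain ⟨Q, hQ⟩ : ∃ Q, Q = KA K κ0 := ⟨_, rfl⟩
  obtain ⟨A, hA⟩ := ({2 * f1, 2 * f2, 24 / lam, 20 * (Q + 1) / δ1, 20 * (Q + 1) / δ2,
    20 * (Q + 1) / δ, 20 * (Q + 1) / (1 / 2), 2 * K * (20 * (Q + 1)) / (ε / 8)} :
      Set ℝ).toFinite.bddAbove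
  simp only [mem_upperBounds, mem_insert_iff, mem_singleton_iff, forall_eq_or_imp, forall_eq] at hA
  obtain ⟨a1, a2, a3, a4, a5, a6, a7, a8⟩ := hA
  refine ⟨min (ε / 48) δ2, by positivity,
    ((big_bas fl x0 K lam κ0 β).and (big_num n K lam κ0 β A)).mono ?_⟩
  rintro D ⟨B, rfl, rfl, hM, -, C1, rs, -, -, O⟩ th Th x hx d0 a C3 f c x0 w om z a0 ha P S lw hc
  have ax := hx.1.1
  have p0 := B.ph x
  have r8 := B.rp8 ax
  have hA1 : A * ph0 D.v x ≤ 1 := (le_div_iff₀ p0).1 (hM.trans (B.rho ax).le)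
  have sm : ∀ c η : ℝ, 0 < η → c / η ≤ A → c * ph0 D.v x ≤ η := fun c η h1 h2 => by
    rw [div_le_iff₀ h1] at h2
    linarith [mul_le_mul_of_nonneg_right h2 p0.le, mul_le_mul_of_nonneg_right hA1 h1.le]
  have r1 : D.rp x * ph0 D.v x ≤ Q := hQ ▸ P.geo.hi
  have r2 : A ≤ 2 * D.rp x := by
    have := P.geo.lo
    rw [mul_comm, ← div_div, div_le_iff₀' two_pos] at this
    exact (hM.trans (B.rho ax).le).trans this
  have Q0 : 0 ≤ Q := le_trans (by positivity) r1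
  have Q1 := mul_nonneg Q0 p0.le
  have w1 := sm _ _ δ10 a4
  have w2 := sm _ _ δ20 a5
  have w3 := sm _ _ δ0 a6
  have w4 := sm _ _ (by norm_num) a7
  have w5 := sm _ _ (by positivity) a8
  have r3 : D.rp x * ph0 D.v x ^ 2 ≤ Q * ph0 D.v x := by
    linarith [mul_le_mul_of_nonneg_right r1 p0.le]
  have c3 := P.c3
  rw [abs_of_nonneg T0] at c3
  have c4 := P.c3'
  have dx := abs_nonneg (dd D.v x)
  have col := fun s (hs : |s| ≤ T) => P.bot.col B.sol p0 (by linarith) c3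
    (by linarith [mul_le_mul_of_nonneg_right c4 (pow_pos p0 2).le]) hs
  have ha1 := ha.trans (min_le_left _ _)
  have ha2 := ha.trans (min_le_right _ _)
  have f0 := abs_le.1 S.len
  have h0 := mul_nonneg D.β.h0.le (show 0 ≤ D.rp x by linarith)
  have h1 := mul_le_mul_of_nonneg_right (show D.β.h ≤ 1 / 100 by linarith [D.β.h1, D.β.η1])
    (show 0 ≤ D.rp x by linarith)
  have f3 : D.rp x ≤ f := by linarith
  have f4 : f ≤ 3 * D.rp x := by linarith
  have f5 : f * ph0 D.v x ^ 2 ≤ 3 * (Q * ph0 D.v x) := by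
    linarith [mul_le_mul_of_nonneg_right f4 (pow_pos p0 2).le]
  have f6 : 4 * f ≤ (1 / ph0 D.v x) ^ 2 := by
    rw [one_div_pow, le_div_iff₀ (by positivity)]; linarith
  have q1 : ph0 D.v x ^ 5 ≤ ph0 D.v x ^ 2 := pow_le_pow_of_le_one p0.le (by linarith) (by norm_num)
  have q2 : ph0 D.v x ^ 2 ≤ ph0 D.v x := pow_le_of_le_one p0.le (by linarith) two_ne_zero
  have hW : ∀ y, ‖x - y‖ ≤ 7 * D.rp x → Real.exp (-(ε / 8)) * D.W x ≤ D.W y := fun y hy => by
    have b1 := (O.W_near (δ := 20 * (Q + 1) * ph0 D.v x) (by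
      linarith [mul_le_mul hy lw (O.lwpos x).1.le (by linarith)]) w4).2
    rw [Real.exp_neg, ← div_eq_inv_mul, div_le_iff₀' (Real.exp_pos _)]
    exact b1.trans (mul_le_mul_of_nonneg_right (Real.exp_le_exp.2 (by linarith)) (O.Wpos y).le)
  have W0 := O.Wpos x
  have Z0 := (O.Z_mem B x).1
  have k0 := O.k0
  have hp := O.hp_pos B ax
  have z0 := (O.zbd ((1 + D.κ0) * D.h (D.rp x)) (by positivity)).1
  have tp := O.th_pair B l0 Th ax (by rw [div_le_iff₀ l0] at a3 ⊢; nlinarith only [a3, r2, l0])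
  have zo := fun y hy => O.Z_opp B l3 ax (y := y) (a := ε / 48) (by positivity) hy
  generalize D.ζ ((1 + D.κ0) * D.h (D.rp x)) = ζ1 at *
  have E0 := Real.exp_pos (-(ε / 8))
  have key := pair D.v (fun x => D.Z x * D.W x) x0 _ (fun s => pr D.v s x) f _ _ _
    (Real.exp (-(ε / 8)) * D.Z x * (Real.exp (-(ε / 8)) * D.W x))
    (Real.exp (-(ε / 8)) * ζ1 * (Real.exp (-(ε / 8)) * D.W x)) B.sol S.slab (by linarith)
    (by linarith) f6 (by linarith) (by positivity) (by positivity) (fun s hs => ?_) fun y hy => ?_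
  · refine ⟨d0.le, _, hc, le_trans ?_ (mul_le_mul_right key _), fun s hs =>
      ⟨by linarith [(col s hs).2.2.1], (col s hs).2.2.2.trans
        (mul_le_mul_of_nonneg_right (by linarith) p0.le)⟩⟩
    rw [← ENNReal.ofReal_mul (by positivity)]
    refine ENNReal.ofReal_le_ofReal ?_
    have b1 : 1 - ε / 2 ≤ Real.exp (-(ε / 8)) ^ 4 := by
      rw [← Real.exp_nat_mul]; push_cast
      linarith [Real.add_one_le_exp (4 * -(ε / 8))]
    have b2 : 1 + 6 * ε ≤ (1 + 8 * ε) * (1 - ε) * Real.exp (-(ε / 8)) ^ 4 :=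
      le_trans (by nlinarith only [ε0, ε1, mul_pos ε0 ε0, pow_pos ε0 3])
        (mul_le_mul_of_nonneg_left b1 (mul_nonneg (by linarith) (by linarith)))
    calc _ ≤ lam * (D.Z x + ζ1) ^ 2 / 4 * D.W x ^ 2 * ((1 + 8 * ε) * (1 - ε) *
          Real.exp (-(ε / 8)) ^ 4 * (32 * Real.exp (-√2 * f))) := by gcongr
      _ = _ := by field_simp; ring
  · obtain ⟨b1, b2, -⟩ := col s hs
    refine ⟨by linarith, mul_le_mul (le_trans ?_ (P.colZ _ ?_)) (hW _ (by linarith))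
      (by positivity) (O.Z_mem B _).1.le⟩
    · exact mul_le_mul_of_nonneg_right (Real.exp_le_exp.2 (by linarith)) Z0.le
    · have := norm_add_le (pr D.v s x - (x0 + s • nu D.v x0)) (s • nu D.v x0)
      rw [norm_smul, P.bot.sh.unit, Real.norm_eq_abs, show pr D.v s x - (x0 + s • nu D.v x0) +
        s • nu D.v x0 = pr D.v s x - x0 by abel] at this
      linarith [le_abs_self T]
  · have b1 := opp D.v x0 _ f _ _ _ (D.rp x) D.ρm B.sol S.slab T0 (by linarith) (by linarith) f6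
      (by linarith [mul_le_mul_of_nonneg_right q1 (show 0 ≤ f by linarith)]) (by linarith) y hy
    refine mul_le_mul (le_trans (le_of_eq ?_) (zo y fun _ => (min_le_left _ _).trans b1))
      (hW y ?_) (by positivity) (O.Z_mem B _).1.le
    · congr 2; ring
    · have e : x - y = (x - (x0 + dd D.v x • nu D.v x0)) + (dd D.v x - f) • nu D.v x0 -
          (y - (x0 + f • nu D.v x0)) := by module
      rw [e]
      refine (norm_sub_le _ _).trans ((add_le_add_left (norm_add_le _ _) _).trans ?_)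
      rw [norm_smul, P.bot.sh.unit, Real.norm_eq_abs]
      linarith [P.bot.near, hy.2, abs_sub (dd D.v x) f, abs_of_nonneg (show 0 ≤ f by linarith)]

end Crest.Agent.N067.M
end

-- ▼ part N067/M/PPa
section

/-!
# Row 67, FLUX: the leaf PA, the cost at the `+` cut (helper88)
-/

set_option autoImplicit false
set_option linter.dupNamespace false

open MeasureTheory InnerProductSpace Topology Filter Set Metric
open scoped RealInnerProductSpace Gradient ContDiff ENNReal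

namespace Crest.Agent.N067.M

open Crest.Agent.R077 Crest.Agent.N067.V

variable {n : ℕ}

namespace Pa

/-- `x` lies in the sheet of `x0` -/
theorem mem_sheet {v : EE n → ℝ} {C3 : ℝ} {x x0 : EE n} (h : Bot v C3 x x0) (hp : ph0 v x ≤ 1)
    (h1 : |dd v x| + 1 ≤ C3 * lg v x) (h2 : C3 * lg v x ≤ (1 / ph0 v x) ^ 2) :
    ‖x - x0‖ ≤ (1 / ph0 v x) ^ 2 ∧ -(C3 * lg v x) ≤ ⟪nu v x0, x - x0⟫ ∧
      ⟪nu v x0, x - x0⟫ ≤ C3 * lg v x := by
  have he := h.sh.unit
  have b1 := norm_sub_le_norm_sub_add_norm_sub x (x0 + dd v x • nu v x0) x0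
  rw [add_sub_cancel_left, norm_smul, he, mul_one, Real.norm_eq_abs] at b1
  have b2 := abs_real_inner_le_norm (nu v x0) (x - x0)
  rw [he, one_mul, abs_le] at b2
  exact ⟨by linarith [h.near], by linarith [h.near, b2.1], by linarith [h.near, b2.2]⟩

/-- the flux at a cap contact -/
theorem flux_le {β : Bo} {v : EE n → ℝ} {ρm ε C : ℝ} {x g w om z : EE n} (hv : Sol v)
    (hc : Ct β v ρm ε C x g w om z) (hε : 0 ≤ ε) (hu : ‖nu v x‖ = 1) (hr : 0 ≤ rt β v ρm x)
    (cap : ‖om - nu v x‖ ≤ √(β.η * β.h) / 20) (h1 : |C| * tt v z ≤ ε / 4)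
    (h2 : |C| * (rt β v ρm x * (‖om - nu v x‖ + tt v x + tt v z)) ≤ ε / 4) :
    -⟪nn v x, g⟫ ≤ (1 + 2 * ε) * ((tt v x + tt v z) / 4) := by
  have s0 : 0 < √(β.η * β.h) := Real.sqrt_pos.2 (mul_pos β.η0 β.h0)
  have s1 : √(β.η * β.h) ≤ 1 :=
    Real.sqrt_le_one.2 (mul_le_one₀ (by linarith [β.η1]) β.h0.le (by linarith [β.h1, β.η1]))
  have i1 : 0 ≤ ⟪om, nu v x⟫ := by
    have a1 := norm_sub_sq_real om (nu v x)
    have a2 := pow_le_one₀ (n := 2) (norm_nonneg (om - nu v x)) (by linarith)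
    rw [hc.unit, hu] at a1
    linarith
  have k := (hc.long i1).2.2.2 (by linarith)
  have tx := hv.tt_nonneg x
  have tz := hv.tt_nonneg z
  have hN : 0 < NN v x := (Wd.NN_nonneg v x).lt_of_ne' fun h0 => by simp [nu, h0] at hu
  have k1 : C * tt v z ^ 2 ≤ ε / 4 * tt v z := by
    have := mul_le_mul_of_nonneg_right (le_abs_self C) (sq_nonneg (tt v z))
    have := mul_le_mul_of_nonneg_right h1 tz
    linarith
  have k2 : C * rt β v ρm x * tt v x * (‖om - nu v x‖ + tt v x + tt v z) ≤ ε / 4 * tt v x := by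
    have := mul_le_mul_of_nonneg_right (le_abs_self C)
      (show 0 ≤ rt β v ρm x * tt v x * (‖om - nu v x‖ + tt v x + tt v z) by positivity)
    have := mul_le_mul_of_nonneg_right h2 tx
    linarith
  have k3 : -⟪g, nu v x⟫ ≤ (1 + 2 * ε) * ((tt v x + tt v z) / 4) := by linarith
  have k4 := mul_le_mul_of_nonneg_left k3 hN.le
  have k5 := mul_le_of_le_one_left
    (show 0 ≤ (1 + 2 * ε) * ((tt v x + tt v z) / 4) by positivity) (Wd.NN_le hv x)
  conv_lhs => rw [Wd.nn_eq hN, real_inner_smul_left, real_inner_comm]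
  linarith

theorem eps_num {ε : ℝ} (h0 : 0 < ε) (h1 : ε ≤ 1 / 100) : (1 + 2 * ε) * (1 + ε / 2) ≤ 2 ∧
    (1 + 2 * ε) * (1 + ε / 2) * (1 + ε / 2) ≤ 1 + 4 * ε := by
  have b7 : (1 + 2 * ε) * (1 + ε / 2) ≤ 1 + 3 * ε := by nlinarith
  exact ⟨by linarith, by nlinarith⟩

end Pa

set_option maxHeartbeats 800000 in
theorem pa_of (fl : FLStmt n) (x0 : X0Stmt n) (hS : SrcStmt n) : PaStmt n := by
  intro ε hε hε1
  obtain ⟨Cs, T1, f1, δ1, hCs, hδ1, hS⟩ := hS (ε / 2) (half_pos hε)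
  obtain ⟨L, hL, hk⟩ := exists_kc_le
  obtain ⟨a1, ha1, hexp⟩ := exists_exp_le_one_add (a := 2 * √2) (by positivity) (half_pos hε)
  refine ⟨3 * L + 6 * L * Cs, T1, by positivity, fun β C K lam κ0 T hl hT => ?_⟩
  set c := |C| with hc
  set k := |KA K κ0| with hkd
  have c0 : 0 ≤ c := abs_nonneg _
  have k0 : 0 ≤ k := abs_nonneg _
  have f0 := abs_nonneg f1
  refine ⟨min (min 1 a1) (ε / (8 * (c + 1))), lt_min (lt_min one_pos ha1) (by positivity), ?_⟩
  refine ((big_bas fl x0 K lam κ0 β).and (big_num n K lam κ0 β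
    (2 + 12 * k + 3 * k / δ1 + 4 * c / ε + 16 * c * k / ε + 2 * |f1|))).mono ?_
  rintro D ⟨B, -, e2, hM, -, C1, rs, -, -, O⟩ th hth x hx hd a C3 f y0 w om z ha P Q
  have hv := B.sol
  have hO : x ∈ D.Om := hx.1.1
  have p0 := B.ph x
  have r8 := B.rp8 hO
  have ha2 : a ≤ 1 := ha.trans ((min_le_left _ _).trans (min_le_left _ _))
  have ha3 : a ≤ a1 := ha.trans ((min_le_left _ _).trans (min_le_right _ _))
  have ha4 : a * (8 * (c + 1)) ≤ ε := (le_div_iff₀ (by positivity)).1 (ha.trans (min_le_right _ _))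
  have a0 : 0 ≤ a := (abs_nonneg _).trans Q.dz
  have hi : D.rp x * ph0 D.v x ≤ k := P.geo.hi.trans (by rw [e2]; exact le_abs_self _)
  have lo : 1 ≤ D.rp x * (2 * ph0 D.v x) := (div_le_iff₀ (by positivity)).1 P.geo.lo
  have hp : (2 + 12 * k + 3 * k / δ1 + 4 * c / ε + 16 * c * k / ε + 2 * |f1|) * ph0 D.v x ≤ 1 :=
    (le_div_iff₀ p0).1 (hM.trans (B.rho hO).le)
  have c3 := P.c3
  have c3' := P.c3'
  have sh := P.bot.sh
  have near := P.bot.near
  have slab := Q.slab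
  have tz := Q.tz
  obtain ⟨l1, l2⟩ := abs_le.1 Q.len
  have hm := Pa.mem_sheet P.bot
  have hR : (1 / ph0 D.v x) ^ 2 * ph0 D.v x ^ 2 = 1 := by field_simp
  generalize (1 / ph0 D.v x) ^ 2 = R at *
  generalize C3 * lg D.v x = l at *
  generalize ph0 D.v x = p at *
  have q1 : 0 ≤ k * p := by positivity
  have q2 : 0 ≤ 3 * k / δ1 * p := by positivity
  have q3 : 0 ≤ 4 * c / ε * p := by positivity
  have q4 : 0 ≤ 16 * c * k / ε * p := by positivity
  have q5 : 0 ≤ |f1| * p := by positivity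
  have p1 : p ≤ 1 / 2 := by linarith
  have p2 : 12 * (k * p) ≤ 1 := by linarith
  have p3 : 3 * (k * p) ≤ δ1 := by
    have : 3 * k * p / δ1 ≤ 1 := by rw [mul_div_right_comm]; linarith
    linarith [(div_le_one hδ1).1 this]
  have p4 : 4 * (c * p) ≤ ε := by
    have : 4 * c * p / ε ≤ 1 := by rw [mul_div_right_comm]; linarith
    linarith [(div_le_one hε).1 this]
  have p5 : 16 * (c * (k * p)) ≤ ε := by
    have : 16 * c * k * p / ε ≤ 1 := by rw [mul_div_right_comm]; linarith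
    linarith [(div_le_one hε).1 this]
  have p6 : f1 ≤ D.rp x := by
    refine (le_abs_self _).trans (le_of_mul_le_mul_right ?_ (show 0 < 2 * p by positivity))
    linarith
  have w3 : p ^ 3 ≤ 1 := pow_le_one₀ p0.le (by linarith)
  have w5 : p ^ 5 ≤ p * p := by
    have := mul_le_mul_of_nonneg_right w3 (show 0 ≤ p * p by positivity)
    linarith
  have w6 : p * p ≤ p := mul_le_of_le_one_left p0.le (by linarith)
  have w7 : D.rp x * p ^ 5 ≤ k * p := by
    have := mul_le_mul_of_nonneg_left w5 (show 0 ≤ D.rp x by linarith)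
    have := mul_le_mul_of_nonneg_right hi p0.le
    linarith
  have w8 : 12 * D.rp x ≤ R := by
    refine le_of_mul_le_mul_right ?_ (show 0 < p ^ 2 by positivity)
    have := mul_le_mul_of_nonneg_right hi p0.le
    linarith
  have hh : 0 ≤ D.β.h * D.rp x := mul_nonneg D.β.h0.le (by linarith)
  have hh' : D.β.h * D.rp x ≤ 1 / 2 * D.rp x :=
    mul_le_mul_of_nonneg_right (by linarith [D.β.h1, D.β.η1]) (by linarith)
  have T0 := abs_nonneg T
  have T2 := le_abs_self T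
  have ed := abs_of_pos hd
  obtain ⟨m1, m2, m3⟩ := hm (by linarith) (by linarith) (by linarith)
  have tx := (sh.est x m1 m2 m3).2.2
  have hu := (sh.nu_near hv (by linarith) m1 m2 m3).1
  have tx0 := hv.tt_nonneg x
  have tz0 := hv.tt_nonneg z
  have fl1 := Pa.flux_le hv P.ct hε.le hu (show 0 ≤ D.rp x by linarith) P.cap
    (by linarith [mul_le_mul_of_nonneg_left (show tt D.v z ≤ p by linarith) c0]) (by
      have b1 := mul_le_mul_of_nonneg_left (add_le_add tx tz) (show 0 ≤ D.rp x by linarith)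
      have b2 : D.rp x * (‖om - nu D.v x‖ + tt D.v x + tt D.v z) ≤ a + 2 * (k * p) := by
        linarith [Q.om]
      have b3 := mul_le_mul_of_nonneg_left b2 c0
      change c * (D.rp x * _) ≤ _
      linarith)
  have fδ : p ^ 5 * f ≤ δ1 := by
    have := mul_le_mul_of_nonneg_left (show f ≤ 3 * D.rp x by linarith) (show 0 ≤ p ^ 5 by positivity)
    linarith
  have s1 := hS D.v y0 _ x f R T l _ (dd D.v x) hv slab hT (by linarith) (by linarith) fδ
    (by linarith) hd.le (by linarith) (by linarith) (by linarith)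
  have s2 := hS D.v _ _ z f R T l _ (dd D.v x) hv slab.symm hT (by linarith) (by linarith) fδ
    (by linarith) hd.le (by linarith) (by linarith) (by
      rw [show y0 + f • nu D.v y0 + dd D.v x • -nu D.v y0 = y0 + (f - dd D.v x) • nu D.v y0 by
        module]
      linarith [Q.zz])
  have s3 : psi D.v x ^ 2 ≤ (1 + ε / 2) * psi D.v z ^ 2 := by
    have b1 := p0_le_exp_mul (dd D.v x) (dd D.v z)
    rw [← hv.psi_eq_p0, ← hv.psi_eq_p0, abs_sub_comm] at b1
    refine (pow_le_pow_left₀ (hv.psi_pos x).le b1 2).trans ?_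
    rw [mul_pow, ← Real.exp_nat_mul]
    refine mul_le_mul_of_nonneg_right (le_trans (Real.exp_le_exp.2 ?_) hexp) (sq_nonneg _)
    have := mul_le_mul_of_nonneg_left (Q.dz.trans ha3) sqrt2_pos.le
    push_cast
    linarith
  have kc0 : 0 ≤ 2 * D.ch x * D.chd x := kc_nonneg _
  have kc1 : 2 * D.ch x * D.chd x ≤ L := hk _ ⟨by linarith [hx.2], by linarith [hx.1.2]⟩
  have th0 := hth.nonneg x
  have th3 := O.th_three B hl hth hO
  have cost : D.cost th x = 2 * D.ch x * D.chd x * th x * (D.Z x ^ 2 * D.W x ^ 2) *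
      (psi D.v x ^ 2 * -⟪nn D.v x, ∇ D.rp x⟫) := by
    rw [Dat.cost, Dat.dens, sign_pos hd]
    simp only [SignType.coe_one, one_mul]
    ring
  have Y0 : 0 ≤ D.Z x ^ 2 * D.W x ^ 2 := by positivity
  have S1 : 2 * D.ch x * D.chd x * th x * (D.Z x ^ 2 * D.W x ^ 2) ≤
      L * 3 * (D.Z x ^ 2 * D.W x ^ 2) :=
    mul_le_mul_of_nonneg_right (mul_le_mul kc1 th3 th0 (by linarith)) Y0
  have S0 : 0 ≤ 2 * D.ch x * D.chd x * th x * (D.Z x ^ 2 * D.W x ^ 2) := by positivity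
  have g1 := mul_le_mul_of_nonneg_left fl1 (sq_nonneg (psi D.v x))
  have g2 : psi D.v x ^ 2 ≤ 1 := pow_le_one₀ (hv.psi_pos x).le (psi_le_one _ _)
  refine ⟨?_, 2 * D.ch x * D.chd x * th x * (D.Z x ^ 2 * D.W x ^ 2) *
    (2 * Cs * Real.exp (-(dd D.v x / 4)) * (tt D.v y0 + tt D.v (y0 + f • nu D.v y0))), ?_, ?_⟩
  · have b1 := mul_le_of_le_one_left
      (show 0 ≤ (1 + 2 * ε) * ((tt D.v x + tt D.v z) / 4) by positivity) g2
    have b2 : (1 + 2 * ε) * ((tt D.v x + tt D.v z) / 4) ≤ 2 * ((p ^ 5 + p ^ 5) / 4) := by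
      gcongr; linarith
    have b3 := mul_le_mul_of_nonneg_left
      (show psi D.v x ^ 2 * -⟪nn D.v x, ∇ D.rp x⟫ ≤ p ^ 5 by linarith) S0
    have b4 := mul_le_mul_of_nonneg_right S1 (show 0 ≤ p ^ 5 by positivity)
    have b5 : 0 ≤ D.Z x ^ 2 * D.W x ^ 2 * (6 * L * Cs * p ^ 5) := by positivity
    rw [cost]
    linarith
  · have t0 := hv.tt_nonneg y0
    have t1 := hv.tt_nonneg (y0 + f • nu D.v y0)
    set A := Cs * Real.exp (-(dd D.v x / 4)) * (tt D.v y0 + tt D.v (y0 + f • nu D.v y0)) with hA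
    set E := 32 * Real.exp (-√2 * f) with hE
    have A0 : 0 ≤ A := by positivity
    have E0 : 0 ≤ E := by positivity
    have b1 := mul_le_mul_of_nonneg_right s3 tz0
    have b2 : 0 ≤ ε / 2 * (psi D.v x ^ 2 * tt D.v x) := by positivity
    have b3 : psi D.v x ^ 2 * tt D.v x / 4 + psi D.v z ^ 2 * tt D.v z / 4 ≤
        A + (1 + ε / 2) * E := by rw [hA, hE]; linarith
    have b4 := mul_le_mul_of_nonneg_left b3 (show 0 ≤ 1 + ε / 2 by linarith)
    have b5 : psi D.v x ^ 2 * ((tt D.v x + tt D.v z) / 4) ≤ (1 + ε / 2) * (A + (1 + ε / 2) * E) := by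
      linarith
    have b6 := mul_le_mul_of_nonneg_left b5 (show 0 ≤ 1 + 2 * ε by linarith)
    obtain ⟨b7, b8⟩ := Pa.eps_num hε hε1
    have b9 := mul_le_mul_of_nonneg_right b7 A0
    have b10 := mul_le_mul_of_nonneg_right b8 E0
    have b11 := mul_le_mul_of_nonneg_left
      (show psi D.v x ^ 2 * -⟪nn D.v x, ∇ D.rp x⟫ ≤ 2 * A + (1 + 4 * ε) * E by linarith) S0
    rw [cost]
    linarith
  · have t0 := hv.tt_nonneg y0
    have t1 := hv.tt_nonneg (y0 + f • nu D.v y0)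
    rw [ed, show 1 / 4 * dd D.v x = dd D.v x / 4 by ring]
    set A := Real.exp (-(dd D.v x / 4)) * (tt D.v y0 + tt D.v (y0 + f • nu D.v y0)) with hA
    have A0 : 0 ≤ A := by positivity
    have b1 := mul_le_mul_of_nonneg_right S1 (show 0 ≤ 2 * Cs * A by positivity)
    have b2 : 0 ≤ D.Z x ^ 2 * D.W x ^ 2 * (3 * L * A) := by positivity
    rw [hA] at b1 b2
    linarith

end Crest.Agent.N067.M
end

-- ▼ part N067/M/PMinus
section

/-!
# Row 67 (helper28): the minus cut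
-/

set_option autoImplicit false
set_option linter.dupNamespace false

open MeasureTheory InnerProductSpace Topology Filter Set Metric
open scoped RealInnerProductSpace Gradient ContDiff ENNReal

namespace Crest.Agent.N067.M

open Crest.Agent.R077 Crest.Agent.N067.V Crest.Agent.N067.Y Wd

noncomputable section

variable {n : ℕ} {β : Bo} {v : EE n → ℝ}

/-- the flux towards the sheet is of higher order -/
theorem flux_minus {ρm ε C : ℝ} {x g w om z : EE n} (hv : Sol v) (t0 : 0 < tt v x)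
    (t1 : tt v x < 1) (r0 : 0 ≤ rt β v ρm x) (ct : Ct β v ρm ε C x g w om z)
    (cap : ‖om - nu v x‖ ≤ 1) : 0 ≤ C ∧
    ⟪nn v x, g⟫ ≤ C * (4 * C + 2) * rt β v ρm x * tt v x * (‖g‖ + tt v x) := by
  have N0 : 0 < NN v x := NN_pos t1
  have N1 := NN_le hv x
  have hν := norm_nu N0
  have g0 := norm_nonneg g
  have C0 : 0 ≤ C := nonneg_of_mul_nonneg_left ((norm_nonneg _).trans ct.tilt) (by positivity)
  have σ0 : 0 ≤ NN v z / NN v x := div_nonneg (norm_nonneg _) N0.le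
  have h1 := (tilt_le ct.unit hν σ0).trans (mul_le_mul_of_nonneg_left ct.tilt zero_le_two)
  have h2 := (abs_norm_sub_norm_le _ _).trans ct.tilt
  rw [norm_smul, ct.unit, hν, mul_one, Real.norm_of_nonneg σ0] at h2
  have h3 := ct_tt N0 z
  have h4 : tt v z ≤ tt v x + 2 * (C * (‖g‖ + tt v x)) := by
    generalize NN v z / NN v x = σ at *
    have a1 := abs_le.1 h2
    have a2 : 1 - σ ^ 2 ≤ 2 * (C * (‖g‖ + tt v x)) := by nlinarith [sq_nonneg (1 - σ)]
    have a3 : NN v x ^ 2 ≤ 1 := pow_le_one₀ N0.le N1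
    nlinarith [mul_le_mul_of_nonneg_left a2 (sq_nonneg (NN v x)),
      mul_le_mul_of_nonneg_right a3 (show 0 ≤ C * (‖g‖ + tt v x) by positivity)]
  have h5 : 0 ≤ ⟪om, nu v x⟫ := by
    rw [inner_unit ct.unit hν]; nlinarith [norm_nonneg (om - nu v x)]
  have h6 := (ct.long h5).2.2.1.trans (mul_le_mul_of_nonneg_left
    (show _ ≤ (4 * C + 2) * (‖g‖ + tt v x) by linarith) (by positivity))
  have h7 : ⟪nn v x, g⟫ = NN v x * ⟪g, nu v x⟫ := by
    rw [nu, real_inner_smul_right, ← mul_assoc, mul_inv_cancel₀ N0.ne', one_mul, real_inner_comm]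
  refine ⟨C0, ?_⟩
  rw [h7]
  refine (mul_le_mul_of_nonneg_left h6 N0.le).trans
    ((mul_le_of_le_one_left (by positivity) N1).trans_eq (by ring))

theorem young_minus {c c' L th A r t g e : ℝ} (c1 : c ≤ 1) (d0 : 0 ≤ c') (d1 : c' ≤ L)
    (h0 : 0 ≤ th) (h3 : th ≤ 3) (A0 : 0 ≤ A) (r1 : 1 ≤ r) (he : 0 < e) :
    2 * c * c' * th * (A * r * t * (g + t)) ≤ e / 2 * (c ^ 2 * (th * g ^ 2 / r)) +
      (6 / e * L ^ 2 * A ^ 2 + 6 * L * A) * (r ^ 3 * t ^ 2) := by
  have r0 : 0 < r := by linarith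
  have L0 := d0.trans d1
  have h1 : 2 * c * c' * th * (A * r * t * g) ≤ e / 2 * (c ^ 2 * (th * g ^ 2 / r)) +
      2 / e * (th * c' ^ 2) * A ^ 2 * (r ^ 3 * t ^ 2) := by
    have : 0 ≤ e / (2 * r) * th * (c * g - 2 / e * c' * A * r ^ 2 * t) ^ 2 := by positivity
    refine le_of_sub_nonneg (this.trans_eq ?_)
    field_simp; ring
  have h2 : 2 / e * (th * c' ^ 2) * A ^ 2 * (r ^ 3 * t ^ 2) ≤
      2 / e * (3 * L ^ 2) * A ^ 2 * (r ^ 3 * t ^ 2) := by gcongr
  have h4 : 2 * c * c' * th * A * (r * t ^ 2) ≤ 2 * 1 * L * 3 * A * (r ^ 3 * t ^ 2) := by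
    gcongr
    exact le_self_pow₀ r1 (by norm_num)
  calc _ = 2 * c * c' * th * (A * r * t * g) + 2 * c * c' * th * A * (r * t ^ 2) := by ring
    _ ≤ _ := add_le_add (h1.trans (add_le_add_right h2 _)) h4
    _ = _ := by ring

theorem exists_chd : ∃ L : ℝ, ∀ (D : Dat n), ∀ x ∈ D.Cut, 0 ≤ D.chd x ∧ D.chd x ≤ L := by
  obtain ⟨L, hL⟩ := isCompact_Icc.bddAbove_image (continuous_dST.continuousOn (s := Icc (0 : ℝ) 1))
  exact ⟨L, fun D x hx => ⟨Real.smoothTransition.monotone.deriv_nonneg,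
    hL ⟨_, ⟨by linarith [hx.1.2], by linarith [hx.2]⟩, rfl⟩⟩⟩

/-- **MINUS** -/
theorem minus_of (fl : FLStmt n) (x0 : X0Stmt n) : MinusStmt n := by
  intro β ε C K lam κ0 e hl he
  obtain ⟨L, hL⟩ := exists_chd (n := n)
  set G := |2 * (6 / e * L ^ 2 * (C * (4 * C + 2)) ^ 2 + 6 * L * (C * (4 * C + 2))) * KA K κ0 ^ 3|
  have hF : Big n K lam κ0 β fun D => ∀ x ∈ D.Om, ∃ E u, Er.Num 0 (|dd D.v x| + 2) E u ∧
      u ^ 10 = ph0 D.v x ∧ ∀ y ∈ ball (ft D.v x) (1 / 2), Er.Loc D.v E u x y :=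
    big_M fun C2 => let ⟨M0, _, h⟩ := Er.foot fl 0 C2
      ⟨M0, fun D _ _ _ _ e2 hM O x hx => h _ _ D.ρm O.pos hM x (by rw [← e2]; exact hx)⟩
  refine ((((big_bas fl x0 K lam κ0 β).and (big_num n K lam κ0 β (max (KA K κ0) 2))).and hF).and
    (foot_chg fl x0 K lam κ0 β hl 0 (G := G) (abs_nonneg _) zero_le_one one_pos he)).mono ?_
  rintro D ⟨⟨⟨B, -, e1, hM, -, C1, rs, -, -, O⟩, h1⟩, h2⟩ th Th x hx hd T a C3 x0 w om z ha P
  have hv := B.sol
  have p0 := B.ph x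
  have ρ := hM.trans (B.rho hx.1.1).le
  rw [max_le_iff] at ρ
  have p1 : ph0 D.v x ≤ 1 / 2 := (le_one_div two_pos p0).1 ρ.2
  have r8 := B.rp8 hx.1.1
  have hi : D.rp x * ph0 D.v x ≤ KA K κ0 := e1 ▸ P.geo.hi
  have hr : D.rp x ≤ (1 / ph0 D.v x) ^ 2 := by
    rw [sq, mul_one_div, le_div_iff₀ p0]; exact hi.trans ρ.1
  have dep : 8 * |dd D.v x| + 8 ≤ D.rp x := P.geo.dep
  have d0 := abs_nonneg (dd D.v x)
  have hn : ‖x - x0‖ ≤ |dd D.v x| + 1 := by
    have a1 := norm_add_le (x - (x0 + dd D.v x • nu D.v x0)) (dd D.v x • nu D.v x0)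
    rw [norm_smul, P.bot.sh.unit, mul_one, Real.norm_eq_abs, ← sub_sub, sub_add_cancel, sub_sub] at a1
    linarith [P.bot.near]
  have hi' := abs_le.1 ((abs_real_inner_le_norm (nu D.v x0) (x - x0)).trans
    (show _ ≤ |dd D.v x| + 1 by rw [P.bot.sh.unit, one_mul]; exact hn))
  obtain ⟨-, s2, s3⟩ := P.bot.sh.est x (by linarith) (by linarith [P.c3, abs_nonneg T])
    (by linarith [P.c3, abs_nonneg T])
  have p5 : ph0 D.v x ^ 5 ≤ (1 / 2) ^ 5 := by gcongr
  have t0 := B.pos.tpos x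
  have cap : ‖om - nu D.v x‖ ≤ 1 := P.cap.trans (by
    have := (Real.sqrt_le_one (x := D.β.η * D.β.h)).2 (by
      nlinarith [D.β.η0, D.β.η1, D.β.h0, D.β.h1])
    linarith)
  obtain ⟨C0, f1⟩ := flux_minus hv t0 (by linarith) (show 0 ≤ D.rp x by linarith) P.ct cap
  have c0 : 0 ≤ D.ch x := Real.smoothTransition.nonneg _
  obtain ⟨d1, d2⟩ := hL D x hx
  have θ0 := Th.nonneg x
  have f2 := (mul_le_mul_of_nonneg_left f1 (show 0 ≤ 2 * D.ch x * D.chd x * th x by positivity)).trans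
    (young_minus (Real.smoothTransition.le_one _) d1 d2 θ0 (O.th_three B hl Th hx.1.1)
      (by positivity) (show 1 ≤ D.rp x by linarith) he)
  have n0 : 0 ≤ D.dens x := by unfold Dat.dens; positivity
  have f3 := mul_le_mul_of_nonneg_left f2 n0
  have f4 : D.cost th x = D.dens x * (2 * D.ch x * D.chd x * th x * ⟪nn D.v x, ∇ D.rp x⟫) := by
    rw [Dat.cost, sign_neg hd]; simp
  by_cases hc : D.cost th x ≤ e * D.kept th x
  · exact .inl hc
  obtain ⟨E, u, N, hu, loc⟩ := h1 x hx.1.1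
  refine .inr ⟨ft D.v x, fun y hy => ?_⟩
  have l := loc y (ball_subset_ball (by norm_num) hy)
  refine ⟨l.dy, h2 x hx P.act y _ (show ‖x - y‖ ≤ _ by linarith [l.dist])
    (fun _ => (P.colp y ?_).trans (by linarith)) (.inr (.inl ?_))⟩
  · have a1 : y - x0 = (y - ft D.v x) + (x - (x0 + dd D.v x • nu D.v x0)) -
        dd D.v x • (nn D.v x - nu D.v x0) := by rw [ft]; module
    have a2 : |dd D.v x| * ‖nn D.v x - nu D.v x0‖ ≤ (1 / ph0 D.v x) ^ 2 * ph0 D.v x ^ 5 :=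
      mul_le_mul (by linarith) s2 (norm_nonneg _) (by positivity)
    have a3 : (1 / ph0 D.v x) ^ 2 * ph0 D.v x ^ 5 = ph0 D.v x ^ 3 := by field_simp
    have a4 : ph0 D.v x ^ 3 ≤ 1 := pow_le_one₀ p0.le (by linarith)
    rw [a1]
    refine (norm_sub_le _ _).trans ((add_le_add_left (norm_add_le _ _) _).trans ?_)
    rw [norm_smul, Real.norm_eq_abs]
    linarith [mem_ball_iff_norm.1 hy, P.bot.near, abs_nonneg T]
  · have u0 := N.u0
    have L0 := d1.trans d2
    have ty := hv.tt_nonneg y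
    have a1 : E ^ 2 * ph0 D.v x ≤ 1 := hu ▸ N.small 2 10
    have a2 : D.rp x ^ 3 * tt D.v x ≤ KA K κ0 ^ 3 * ph0 D.v x ^ 2 :=
      calc _ ≤ D.rp x ^ 3 * ph0 D.v x ^ 5 := by gcongr
        _ = (D.rp x * ph0 D.v x) ^ 3 * ph0 D.v x ^ 2 := by ring
        _ ≤ _ := by gcongr
    have a3 : psi D.v x ^ 2 * tt D.v x * (D.rp x ^ 3 * tt D.v x) ≤
        KA K κ0 ^ 3 * (ph0 D.v x * tt D.v y) :=
      calc _ ≤ E ^ 2 * tt D.v y * (KA K κ0 ^ 3 * ph0 D.v x ^ 2) :=
            mul_le_mul l.qq a2 (by positivity) (by positivity)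
        _ = E ^ 2 * ph0 D.v x * (KA K κ0 ^ 3 * (ph0 D.v x * tt D.v y)) := by ring
        _ ≤ _ := mul_le_of_le_one_left (by
            have : 0 ≤ KA K κ0 := le_trans (by positivity) hi
            positivity) a1
    have a4 : D.cost th x ≤ D.Z x ^ 2 * D.W x ^ 2 *
        (2 * (6 / e * L ^ 2 * (C * (4 * C + 2)) ^ 2 + 6 * L * (C * (4 * C + 2))) *
          (psi D.v x ^ 2 * tt D.v x * (D.rp x ^ 3 * tt D.v x))) := by
      rw [← f4] at f3
      rw [Dat.kept] at hc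
      change _ ≤ D.dens x * (e / 2 * (D.ch x ^ 2 * (th x * ‖∇ D.rp x‖ ^ 2 / D.rp x)) +
        _ * (D.rp x ^ 3 * tt D.v x ^ 2)) at f3
      rw [Dat.dens] at f3 hc
      linarith
    refine a4.trans (mul_le_mul_of_nonneg_left ((mul_le_mul_of_nonneg_left a3
      (by positivity)).trans ?_) (by positivity))
    rw [pow_zero, mul_one, ← mul_assoc, mul_assoc G]
    exact mul_le_mul_of_nonneg_right (le_abs_self _) (by positivity)

end

end Crest.Agent.N067.M
end

-- ▼ part N067/U/VT2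
section

/-!
# Row 67: the vertical pair gain with weights (helper43)
-/

set_option autoImplicit false

open MeasureTheory Topology Filter Set Metric
open scoped RealInnerProductSpace ENNReal

namespace Crest.Agent.N067

open Crest.Agent.R077 Ker

/-- `vt_pair` in the form of the inner integral of `M.PG`; no measurability of `S` or `a` -/
theorem vt_gam (n : ℕ) {ε c : ℝ} (hε : 0 < ε) (hc : 0 < c) : ∃ T0 δ : ℝ, 0 ≤ T0 ∧ 0 < δ ∧
    ∀ T, T0 ≤ T → ∃ f0 : ℝ, 0 ≤ f0 ∧ ∀ (v a : EE n → ℝ) (e x0 : EE n) (f m m' : ℝ)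
      (S : EE n → EE n → Prop) (γ : ℝ → EE n), Sol v → ‖e‖ = 1 → f0 ≤ f → 0 ≤ m + m' →
      (∀ y ∈ Patch e x0 f T (c * f), |dd v y| ≤ |⟪e, y - x0⟫ - f| + δ ∧ m' ≤ a y ∧
        ∀ s, |s| ≤ T → S (γ s) y) →
      (∀ s, |s| ≤ T → ‖γ s - (x0 + s • e)‖ ≤ δ ∧ |dd v (γ s)| ≤ |s| + δ ∧ m ≤ a (γ s)) →
      ENNReal.ofReal ((1 - ε) * (32 * √2 * Real.exp (-√2 * f)) * ((m + m') ^ 2 / 2)) ≤
        ∫⁻ s in Icc (-T) T, ∫⁻ y in {y | S (γ s) y}, ENNReal.ofReal
          (9 * psi v (γ s) ^ 2 * Gk 2 (γ s - y) * psi v y ^ 2 * ((a (γ s) + a y) ^ 2 / 2)) := by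
  obtain ⟨T0, δ, h0, hδ, h⟩ := vt_pair n hε hc
  refine ⟨T0, δ, h0, hδ, fun T hT => ?_⟩
  obtain ⟨f0, hf0, h⟩ := h T hT
  refine ⟨f0, hf0, fun v a e x0 f m m' S γ hv he hf hm hP hγ => ?_⟩
  have hM := measurableSet_patch e x0 f T (c * f)
  have h1 := h v e x0 f _ γ hv he hf hM (fun y hy => ⟨hy, (hP y hy).1⟩)
    fun s hs => ⟨(hγ s hs).1, (hγ s hs).2.1⟩
  have q0 : 0 ≤ (m + m') ^ 2 / 2 := by positivity
  rw [ENNReal.ofReal_mul' q0]
  refine (mul_le_mul_left h1 _).trans ?_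
  rw [← lintegral_mul_const' _ _ ENNReal.ofReal_ne_top]
  refine setLIntegral_mono' measurableSet_Icc fun s hs => ?_
  have hs' : |s| ≤ T := abs_le.2 hs
  have hi : Integrable fun y => Gk 2 (γ s - y) * psi v y ^ 2 :=
    ((integrable_Gk two_pos).comp_sub_left (γ s)).mul_bdd (c := 1)
      (hv.psi_sm.continuous.pow 2).aestronglyMeasurable (Eventually.of_forall fun y => by
        rw [Real.norm_of_nonneg (sq_nonneg _)]
        exact pow_le_one₀ (hv.psi_pos y).le (psi_le_one v y))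
  refine le_trans ?_ (lintegral_mono_set fun y hy => (hP y hy).2.2 s hs')
  rw [← ENNReal.ofReal_mul' q0, ← integral_const_mul, ← integral_mul_const,
    ofReal_integral_eq_lintegral_ofReal (((hi.const_mul _).mul_const _).integrableOn)
      (Eventually.of_forall fun y => by have := Gk_nonneg 2 (γ s - y); positivity)]
  refine setLIntegral_mono' hM fun y hy => ENNReal.ofReal_le_ofReal ?_
  have g0 := Gk_nonneg 2 (γ s - y)
  have : (m + m') ^ 2 ≤ (a (γ s) + a y) ^ 2 :=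
    pow_le_pow_left₀ hm (add_le_add (hγ s hs').2.2 (hP y hy).2.1) 2
  rw [← mul_assoc]
  gcongr

end Crest.Agent.N067
end

-- ▼ part N067/M/Pair
section

/-!
# Row 67, block FLUX: the pair gain of a column (helper43)
-/

set_option autoImplicit false
set_option linter.dupNamespace false

open MeasureTheory Set
open scoped RealInnerProductSpace ENNReal

namespace Crest.Agent.N067.M

open Crest.Agent.R077

theorem inner_opp {n : ℕ} {e p q : EE n} {δ : ℝ} (he : ‖e‖ = 1) (hp : ‖p - e‖ ≤ δ)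
    (hq : ‖q - -e‖ ≤ δ) (h1 : δ ≤ 1) : ⟪p, q⟫ ≤ -1 + 3 * δ := by
  have h0 : 0 ≤ δ := (norm_nonneg _).trans hp
  have e1 : ⟪p, q⟫ = -⟪e, e⟫ + ⟪e, q - -e⟫ - ⟪p - e, e⟫ + ⟪p - e, q - -e⟫ := by
    simp only [inner_sub_left, inner_sub_right, inner_neg_right]; ring
  have a1 := real_inner_le_norm e (q - -e)
  have a2 := neg_le_of_abs_le (abs_real_inner_le_norm (p - e) e)
  have a3 := (real_inner_le_norm (p - e) (q - -e)).trans (mul_le_mul hp hq (norm_nonneg _) h0)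
  rw [real_inner_self_eq_norm_sq, he] at e1
  rw [he] at a1 a2
  nlinarith

theorem pairS (n : ℕ) : PairStmt n := by
  intro ε hε hε1
  obtain ⟨T0, δ0, h0, hδ0, h⟩ := vt_gam n hε one_pos
  refine ⟨T0 + 1, fun T hT => ?_⟩
  obtain ⟨f0, -, h⟩ := h (T - 1) (by linarith)
  refine ⟨max f0 (3 * T + 1), min (δ0 / 2) (ε / 3), by positivity,
    fun v a x0 e γ f R l δ a0 a1 hv hS hl hf hR hδ ha0 ha1 hγ hP => ?_⟩
  have f1 := (le_max_right _ _).trans hf
  have d1 := min_le_left (δ0 / 2) (ε / 3)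
  have d2 := min_le_right (δ0 / 2) (ε / 3)
  set δ1 := min (δ0 / 2) (ε / 3)
  have he := hS.bot.unit
  have hg : ∀ s, |s| ≤ T - 1 → |⟪e, γ s - x0⟫ - s| ≤ δ1 ∧ ‖γ s - x0‖ ≤ T ∧
      |dd v (γ s) - ⟪e, γ s - x0⟫| ≤ δ ∧ ‖nn v (γ s) - e‖ ≤ δ := fun s hs => by
    have b0 := (hγ s (by linarith)).1
    have b1 : |⟪e, γ s - x0⟫ - s| ≤ δ1 := by
      have := (abs_real_inner_le_norm e (γ s - (x0 + s • e))).trans
        (mul_le_mul_of_nonneg_left b0 (norm_nonneg _))
      rwa [he, one_mul, ← sub_sub, inner_sub_right, inner_smul_right, real_inner_self_eq_norm_sq,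
        he, one_pow, mul_one] at this
    have b2 : ‖γ s - x0‖ ≤ T := by
      have := norm_add_le (γ s - (x0 + s • e)) (s • e)
      rw [norm_smul, he, Real.norm_eq_abs, show γ s - (x0 + s • e) + s • e = γ s - x0 by abel]
        at this
      linarith
    have b3 := abs_le.1 b1
    have b4 := abs_le.1 hs
    obtain ⟨c1, c2, -⟩ := hS.bot.est (γ s) (by linarith) (by linarith) (by linarith)
    exact ⟨b1, b2, c1, c2⟩
  have key := h v a e x0 f a0 a1 (fun x y => Opp v ε T 0 x y ∧ 0 < ⟪y - x, nn v x⟫) γ hv he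
    ((le_max_left _ _).trans hf) (by positivity) (fun y hy => ?_) fun s hs => ?_
  · refine le_trans (le_of_eq ?_) (key.trans (lintegral_mono_set
      (Icc_subset_Icc (by linarith) (by linarith))))
    congr 1; ring
  · obtain ⟨y1, y2⟩ := hy
    rw [one_mul] at y2
    have y3 := abs_le.1 y1
    have e3 : ⟪-e, y - (x0 + f • e)⟫ = f - ⟪e, y - x0⟫ := by
      rw [← sub_sub, inner_neg_left, inner_sub_right, inner_smul_right, real_inner_self_eq_norm_sq,
        he]; ring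
    obtain ⟨c1, c2, -⟩ := hS.top.est y (by linarith) (by rw [e3]; linarith) (by rw [e3]; linarith)
    rw [e3] at c1
    have c3 : |dd v y| ≤ |⟪e, y - x0⟫ - f| + δ := by
      have := abs_add_le (dd v y - (f - ⟪e, y - x0⟫)) (f - ⟪e, y - x0⟫)
      rw [sub_add_cancel, abs_sub_comm f] at this
      linarith
    refine ⟨by linarith, hP y ⟨by linarith, y2⟩, fun s hs => ?_⟩
    obtain ⟨b1, b2, b3, b4⟩ := hg s hs
    have b5 := abs_le.1 b1
    have b6 := abs_le.1 b3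
    have b7 := abs_le.1 hs
    refine ⟨⟨abs_le.2 ⟨by linarith, by linarith⟩, by linarith, norm_nonneg _,
      (inner_opp he b4 c2 (by linarith)).trans (by linarith)⟩, ?_⟩
    have n1 : ‖y - γ s‖ ≤ 2 * f + T := by
      have a1 := norm_add_le (y - (x0 + f • e)) (f • e)
      have a2 := norm_sub_le (y - x0) (γ s - x0)
      rw [norm_smul, he, Real.norm_of_nonneg (by linarith : 0 ≤ f),
        show y - (x0 + f • e) + f • e = y - x0 by abel] at a1
      rw [sub_sub_sub_cancel_right] at a2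
      linarith
    have e1 : ⟪y - γ s, nn v (γ s)⟫ = ⟪e, y - x0⟫ - ⟪e, γ s - x0⟫ + ⟪y - γ s, nn v (γ s) - e⟫ := by
      rw [← inner_sub_right, sub_sub_sub_cancel_right, inner_sub_right _ (nn v (γ s)),
        real_inner_comm e]; ring
    have a2 := neg_le_of_abs_le ((abs_real_inner_le_norm (y - γ s) (nn v (γ s) - e)).trans
      (mul_le_mul n1 (b4.trans (by linarith : δ ≤ 1 / 10)) (norm_nonneg _) (by linarith)))
    linarith
  · obtain ⟨b1, -, b3, -⟩ := hg s hs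
    refine ⟨(hγ s (by linarith)).1.trans (by linarith), ?_, (hγ s (by linarith)).2⟩
    have a1 := abs_add_le (dd v (γ s) - ⟪e, γ s - x0⟫) ⟪e, γ s - x0⟫
    have a2 := abs_add_le (⟪e, γ s - x0⟫ - s) s
    rw [sub_add_cancel] at a1 a2
    linarith

end Crest.Agent.N067.M
end

-- ▼ part N067/M/Shift
section

/-!
# Row 67 (helper2): shifts along the normal, change of variables
-/

set_option autoImplicit false
set_option linter.dupNamespace false

open MeasureTheory Laplacian InnerProductSpace Topology Filter Set Metric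
open scoped RealInnerProductSpace Gradient ENNReal

namespace Crest.Agent.N067.M

open Crest.Agent.R077 Crest.Agent.N067.V Crest.Agent.N067.Y

variable {n : ℕ}

theorem exists_det (n : ℕ) {ε : ℝ} (hε : 0 < ε) : ∃ η : ℝ, 0 < η ∧ η ≤ 1 / 2 ∧
    ∀ A : EE n →L[ℝ] EE n, ‖A‖ ≤ η → 1 ≤ (1 + ε) * |(ContinuousLinearMap.id ℝ _ - A).det| := by
  have hc : Continuous fun A : EE n →L[ℝ] EE n =>
      (1 + ε) * |(ContinuousLinearMap.id ℝ _ - A).det| :=
    continuous_const.mul (ContinuousLinearMap.continuous_det.comp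
      (continuous_const.sub continuous_id)).abs
  have h0 : 1 < (1 + ε) * |(ContinuousLinearMap.id ℝ (EE n) - 0).det| := by
    simp [ContinuousLinearMap.det, hε]
  obtain ⟨η, hη, h⟩ := Metric.eventually_nhds_iff.1
    (hc.continuousAt.eventually (lt_mem_nhds h0))
  refine ⟨min (η / 2) (1 / 2), by positivity, min_le_right _ _, fun A hA => (h ?_).le⟩
  rw [dist_zero_right]
  exact (hA.trans (min_le_left _ _)).trans_lt (half_lt_self hη)

theorem shift (n : ℕ) : ShiftStmt n := by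
  intro ε hε
  obtain ⟨η, hη, hη1, hdet⟩ := exists_det n hε
  refine ⟨η, hη, fun v hv h g hg => ?_⟩
  set S := {x | ∀ y ∈ closedBall x (2 * |h|), |h| * Bn v y ≤ η} with hS
  have hB : ∀ y, ‖h • St.Bm v y‖ ≤ |h| * Bn v y := fun y => by
    rw [norm_smul, Real.norm_eq_abs]
    exact mul_le_mul_of_nonneg_left (St.norm_Bm hv y) (abs_nonneg h)
  have cB : Continuous (Bn v) := by
    have := hv.hsq_sm.continuous
    unfold Bn
    fun_prop
  have mS : MeasurableSet S := by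
    have : S = ⋂ w ∈ closedBall (0 : EE n) (2 * |h|), {x | |h| * Bn v (x + w) ≤ η} := by
      ext x
      simp only [hS, mem_iInter, mem_ofPred_eq, mem_closedBall, dist_eq_norm, sub_zero]
      exact ⟨fun a w hw => a _ (by simpa using hw), fun a y hy => by simpa using a (y - x) hy⟩
    rw [this]
    exact (isClosed_biInter fun w _ => isClosed_le (by fun_prop) continuous_const).measurableSet
  have hd : ∀ x, HasFDerivAt (fun x => h • nn v x) (h • St.Bm v x) x := fun x =>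
    (St.hasFDerivAt_grad hv x).const_smul h
  have hp : ∀ x ∈ S, HasFDerivWithinAt (fun x => x - h • nn v x)
      (ContinuousLinearMap.id ℝ _ - h • St.Bm v x) S x := fun x _ =>
    ((hasFDerivAt_id x).sub (hd x)).hasFDerivWithinAt
  have hinj : InjOn (fun x => x - h • nn v x) S := fun x hx y _ e => by
    have e1 : y - x = h • nn v y - h • nn v x := by
      have e : x - h • nn v x = y - h • nn v y := e
      rw [sub_eq_sub_iff_sub_eq_sub, e]
    have hy : y ∈ closedBall x (2 * |h|) := by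
      rw [mem_closedBall, dist_eq_norm, e1, ← smul_sub, norm_smul, Real.norm_eq_abs, mul_comm]
      refine mul_le_mul_of_nonneg_right ((norm_sub_le _ _).trans ?_) (abs_nonneg h)
      linarith [show ‖nn v x‖ ≤ 1 from NN_le_one hv x, show ‖nn v y‖ ≤ 1 from NN_le_one hv y]
    have := (convex_closedBall x (2 * |h|)).norm_image_sub_le_of_norm_hasFDerivWithin_le
      (fun z _ => (hd z).hasFDerivWithinAt) (fun z hz => (hB z).trans (hx z hz))
      (mem_closedBall_self (by positivity)) hy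
    rw [← e1] at this
    have h0 : ‖y - x‖ ≤ 0 := by nlinarith [norm_nonneg (y - x)]
    exact (sub_eq_zero.1 (norm_le_zero_iff.1 h0)).symm
  refine le_trans ?_ (mul_le_mul_right (setLIntegral_le_lintegral
    ((fun x => x - h • nn v x) '' S) g) _)
  rw [lintegral_image_eq_lintegral_abs_det_fderiv_mul volume mS hp hinj,
    ← lintegral_const_mul' _ _ ENNReal.ofReal_ne_top]
  refine setLIntegral_mono' mS fun x hx => ?_
  rw [← mul_assoc, ← ENNReal.ofReal_mul (by positivity)]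
  refine le_mul_of_one_le_left' (ENNReal.one_le_ofReal.2 (hdet _ ((hB x).trans ?_)))
  exact hx x (mem_closedBall_self (by positivity))

end Crest.Agent.N067.M
end

-- ▼ part N067/X0/Val
section

/-!
# Row 67, block X0 (helper18): consequences of `x ∈ Val`
-/

set_option autoImplicit false

open MeasureTheory Laplacian InnerProductSpace Topology Filter Set Metric
open scoped RealInnerProductSpace Gradient ContDiff

namespace Crest.Agent.N067.M.X0

open Crest.Agent.R077 Crest.Agent.N067.V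

noncomputable section

variable {n : ℕ}

/-- the facts at a valid point -/
structure VF (β : Bo) (v : EE n → ℝ) (ρm δ A : ℝ) (x : EE n) : Prop where
  pos : 0 < ph0 v x
  small : ph0 v x ≤ δ
  t : tt v x ≤ δ
  N : 3 / 4 ≤ NN v x
  dph : |dd v x| * ph0 v x ≤ δ
  lo : min ρm (1 / (2 * ph0 v x)) ≤ rt β v ρm x
  sm : Sm v x (rt β v ρm x)
  fit : Fit β v x (rt β v ρm x)
  act : rt β v ρm x < ρm → 1 / (2 * ph0 v x) ≤ rt β v ρm x ∧ |dd v x| ≤ δ * rt β v ρm x ∧
    A ≤ rt β v ρm x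

theorem log_mul_le {C2 δ M s : ℝ} (hδ : 0 < δ) (hM : (2 * |C2| / δ) ^ 2 + 1 ≤ M) (h0 : 0 < s)
    (hs : s < 1 / M) : C2 * Real.log (1 / s) * s ≤ δ := by
  have hM0 : 1 ≤ M := by linarith [sq_nonneg (2 * |C2| / δ)]
  have h1 : M < 1 / s := (lt_one_div (by linarith) h0).2 hs
  have h2 := Real.sqrt_pos.2 (one_div_pos.2 h0)
  have h3 : Real.log (1 / s) ≤ 2 * √(1 / s) := by
    have := Real.log_le_sub_one_of_pos h2
    rw [Real.log_sqrt (one_div_pos.2 h0).le] at this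
    linarith
  have h4 : 0 ≤ Real.log (1 / s) := Real.log_nonneg (by linarith)
  have h5 : 2 * |C2| / δ ≤ √(1 / s) := Real.le_sqrt_of_sq_le (by linarith)
  have h6 : √(1 / s) * √(1 / s) * s = 1 := by
    rw [Real.mul_self_sqrt (one_div_pos.2 h0).le, one_div_mul_cancel h0.ne']
  rw [div_le_iff₀ hδ] at h5
  have h7 : C2 * Real.log (1 / s) ≤ |C2| * (2 * √(1 / s)) :=
    mul_le_mul (le_abs_self _) h3 h4 (abs_nonneg _)
  nlinarith [mul_le_mul_of_nonneg_right h7 h0.le, mul_le_mul_of_nonneg_right h5 (mul_pos h2 h0).le]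

theorem val_facts (n : ℕ) (C2 A : ℝ) {δ : ℝ} (hδ : 0 < δ) : ∃ M : ℝ, 1 ≤ M ∧
    ∀ (β : Bo) (v : EE n → ℝ) (ρm : ℝ), PS v → ∀ x ∈ Val v M C2 ρm, VF β v ρm δ A x := by
  obtain ⟨C, hC, H⟩ := fl_tt n
  obtain ⟨e, e0, e1, e2⟩ : ∃ e : ℝ, 0 < e ∧ e ≤ δ / 2 ∧ e ≤ 1 / 40 :=
    ⟨min (δ / 2) (1 / 40), by positivity, min_le_left _ _, min_le_right _ _⟩
  have p1 : 0 ≤ (2 * |C2| / e) ^ 2 := sq_nonneg _
  have p2 : 0 < C / e := by positivity
  refine ⟨(2 * |C2| / e) ^ 2 + 1 + C / e + 2 * |A|, by linarith [abs_nonneg A],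
    fun β v ρm hv x hx => ?_⟩
  set M := (2 * |C2| / e) ^ 2 + 1 + C / e + 2 * |A|
  have hA := abs_nonneg A
  have hs := hv.toPos.toSol
  have h0 := ph0_pos hv.toPos hv.stab x
  have h1 : M < 1 / ph0 v x := (lt_one_div (by positivity) h0).2 hx.1
  have h2 : C * ph0 v x ≤ e := by
    have : C / e ≤ 1 / ph0 v x := by simp only [M] at h1; linarith
    rw [div_le_div_iff₀ e0 h0] at this
    linarith
  have h3 : tt v x ≤ e := by simpa using (H v hs hv.stab x x).trans (by simpa using h2)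
  have h4 : 3 / 4 ≤ NN v x := by
    rw [tt_eq] at h3
    nlinarith [NN_nonneg v x]
  have h5 : |dd v x| * ph0 v x ≤ e := (mul_le_mul_of_nonneg_right hx.2.1.le h0.le).trans
    (log_mul_le e0 (by simp only [M]; linarith) h0 hx.1)
  have h6 : ph0 v x ≤ e := by nlinarith
  have h7 : min ρm (1 / (2 * ph0 v x)) ≤ rt β v ρm x :=
    le_rt (min_le_left _ _) fun r a1 a2 => fit_of_phi hs (by linarith) a1 (by
      have a3 := (lt_div_iff₀ (by positivity)).1 (a2.trans_le (min_le_right _ _))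
      have a4 : phi (dd v) x * (r - dd v x) ≤ ph0 v x * (r + |dd v x|) :=
        mul_le_mul (le_max_left _ _) (by linarith [neg_abs_le (dd v x)])
          (by linarith [le_abs_self (dd v x)]) h0.le
      nlinarith)
  have h8 : 8 * |dd v x| + 8 ≤ 1 / (2 * ph0 v x) := by
    rw [le_div_iff₀ (by positivity)]; nlinarith
  have h9 : Sm v x (rt β v ρm x) := ⟨hs, by linarith, (le_min hx.2.2.le h8).trans h7⟩
  refine ⟨h0, by linarith, by linarith, h4, by linarith, h7, h9, fit_of_le_rt h9.lt le_rfl,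
    fun h => ?_⟩
  have a1 : 1 / (2 * ph0 v x) ≤ rt β v ρm x := (min_le_iff.1 h7).resolve_left (not_le.2 h)
  refine ⟨a1, le_trans ?_ (mul_le_mul_of_nonneg_left a1 hδ.le), le_trans ?_ a1⟩
  · rw [mul_one_div, le_div_iff₀ (by positivity)]; linarith
  · rw [mul_comm, ← div_div]; simp only [M] at h1; linarith [le_abs_self A]


/-- contacts at valid points -/
theorem val_contact (n : ℕ) (C2 A : ℝ) {δ : ℝ} (hδ : 0 < δ) (hδ1 : δ ≤ 1 / 4) : ∃ M : ℝ, 1 ≤ M ∧
    ∀ (β : Bo) (v : EE n → ℝ) (ρm : ℝ), PS v → ∀ x ∈ Val v M C2 ρm, VF β v ρm δ A x ∧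
      (rt β v ρm x < ρm → (∃ e, Deg v (NN v x / (rt β v ρm x - dd v x)) e x) ∨
        ∃ w om z y, Con β v x (rt β v ρm x) w om z y ∧
          (1 - δ) * (rt β v ρm x - dd v x) ≤ y + β.η * rt β v ρm x) := by
  obtain ⟨M0, H0⟩ := contact n hδ hδ1
  obtain ⟨M, hM, H⟩ := val_facts n C2 (max A M0) (δ := δ ^ 2 / 80) (by positivity)
  have h1 : δ ^ 2 / 80 ≤ δ := by nlinarith
  refine ⟨M, hM, fun β v ρm hv x hx => ?_⟩
  have h := H β v ρm hv x hx
  refine ⟨⟨h.pos, h.small.trans h1, h.t.trans h1, h.N, h.dph.trans h1, h.lo, h.sm, h.fit,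
    fun a => ⟨(h.act a).1, (h.act a).2.1.trans (mul_le_mul_of_nonneg_right h1
      (by linarith [h.sm.r8])), (le_max_left _ _).trans (h.act a).2.2⟩⟩, fun a =>
    H0 β v ρm x h.sm (h.act a).2.1 ((le_max_right _ _).trans (h.act a).2.2) a⟩

end

end Crest.Agent.N067.M.X0
end

-- ▼ part N067/X0/Imp
section

/-!
# Row 67, block X0 (helper18): implicit paraboloids, regularity of `N`, `ν`
-/

set_option autoImplicit false

open MeasureTheory Laplacian InnerProductSpace Topology Filter Set Metric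
open scoped RealInnerProductSpace Gradient ContDiff

namespace Crest.Agent.N067.M.X0

open Crest.Agent.R077 Crest.Agent.N067.V

noncomputable section

variable {n : ℕ} {β : Bo} {v : EE n → ℝ} {x z w om p : EE n} {r y ρm : ℝ}

/-- paraboloids in the region `Ψ < 0`, uniformly on a compact set -/
theorem imp_sc {P : Type*} [NormedAddCommGroup P] [NormedSpace ℝ P] [ProperSpace P]
    {Ψ : EE n × ℝ × P → ℝ} {S : Set (EE n × ℝ × P)} (hS : IsCompact S)
    (hΨ : ∀ a ∈ S, ContDiffAt ℝ 2 Ψ a) {κ : ℝ} (hκ : 0 < κ) :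
    ∃ C δ : ℝ, 0 ≤ C ∧ 0 < δ ∧ δ ≤ 1 / 4 ∧ ∀ x r q, (x, r, q) ∈ S → Ψ (x, r, q) = 0 →
      fderiv ℝ Ψ (x, r, q) (0, 1, 0) ≤ -κ → ∃ p : EE n, ‖p‖ ≤ C ∧
        (∀ h, ⟪p, h⟫ * fderiv ℝ Ψ (x, r, q) (0, 1, 0) = fderiv ℝ Ψ (x, r, q) (h, 0, 0)) ∧
        ∀ h, ‖h‖ ≤ δ → |C * ‖h‖ ^ 2 - ⟪p, h⟫| ≤ 1 / 4 ∧
          (h ≠ 0 → Ψ (x + h, r + (C * ‖h‖ ^ 2 - ⟪p, h⟫), q) < 0) := by
  obtain ⟨D, δ, hD, hδ, H⟩ := taylor_cpt hS hΨ
  set C := D / κ + (D * (2 + D / κ) ^ 2 + 1) / κ with hC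
  have c1 : 0 ≤ D / κ := by positivity
  have c2 : 0 < (D * (2 + D / κ) ^ 2 + 1) / κ := by positivity
  have c0 : 0 < C := by positivity
  refine ⟨C, min (min (1 / C) (δ / (2 + D / κ))) (1 / (4 * (1 + D / κ))), c0.le, by positivity,
    (min_le_right _ _).trans (one_div_le_one_div_of_le (by norm_num) (by linarith)),
    fun x r q ha h0 h1 => ?_⟩
  obtain ⟨a1, a2⟩ := H _ ha
  set A := fderiv ℝ Ψ (x, r, q)
  have a0 : A (0, 1, 0) ≠ 0 := by linarith |> fun h : A (0, 1, 0) < 0 => h.ne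
  set p := (toDual ℝ (EE n)).symm ((A (0, 1, 0))⁻¹ • A ∘L ContinuousLinearMap.inl ℝ _ _) with hp
  have a3 : ∀ h, ⟪p, h⟫ * A (0, 1, 0) = A (h, 0, 0) := fun h => by
    rw [hp, toDual_symm_apply]
    simp only [smul_apply, ContinuousLinearMap.comp_apply, ContinuousLinearMap.inl_apply,
      smul_eq_mul]
    field_simp; rfl
  have a4 : ∀ h, |⟪p, h⟫| ≤ D / κ * ‖h‖ := fun h => by
    have b1 : |A (h, 0, 0)| ≤ D * ‖h‖ := (A.le_opNorm _).trans (mul_le_mul a1 (by
      simp [Prod.norm_def]) (norm_nonneg _) hD)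
    rw [← a3, abs_mul, abs_of_neg (by linarith : A (0, 1, 0) < 0)] at b1
    rw [div_mul_eq_mul_div, le_div_iff₀ hκ]
    nlinarith [abs_nonneg ⟪p, h⟫]
  refine ⟨p, ?_, a3, fun h hh => ?_⟩
  · have b1 := (le_abs_self _).trans (a4 p)
    rw [real_inner_self_eq_norm_sq] at b1
    nlinarith [norm_nonneg p]
  simp only [le_min_iff] at hh
  obtain ⟨⟨b1, b2⟩, b3⟩ := hh
  rw [le_div_iff₀ (by positivity)] at b1 b2 b3
  have b0 := norm_nonneg h
  have b4 : |C * ‖h‖ ^ 2 - ⟪p, h⟫| ≤ ‖h‖ * (1 + D / κ) := by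
    have c3 := abs_le.1 (a4 h)
    have c4 : C * ‖h‖ ^ 2 ≤ ‖h‖ := by nlinarith
    have c5 : 0 ≤ C * ‖h‖ ^ 2 := by positivity
    exact abs_le.2 ⟨by nlinarith, by nlinarith⟩
  refine ⟨by linarith, fun hh => ?_⟩
  set b : EE n × ℝ × P := (h, C * ‖h‖ ^ 2 - ⟪p, h⟫, 0) with hb
  have b5 : ‖b‖ ≤ ‖h‖ * (2 + D / κ) :=
    max_le (by nlinarith) (max_le (b4.trans (by nlinarith)) (by rw [norm_zero]; positivity))
  have b6 := (abs_le.1 (a2 b (b5.trans b2)).2).2
  have b7 : A b = C * ‖h‖ ^ 2 * A (0, 1, 0) := by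
    rw [show b = (h, 0, 0) + (C * ‖h‖ ^ 2 - ⟪p, h⟫) • (0, 1, 0) by simp [hb], map_add, map_smul,
      ← a3, smul_eq_mul]
    ring
  have b8 : D * (2 + D / κ) ^ 2 + 1 ≤ C * κ := by
    rw [hC, add_mul, div_mul_cancel₀ _ hκ.ne', div_mul_cancel₀ _ hκ.ne']; linarith
  have b9 := pow_pos (norm_pos_iff.2 hh) 2
  have c3 := mul_le_mul_of_nonneg_left (pow_le_pow_left₀ (norm_nonneg _) b5 2) hD
  have c4 := mul_le_mul_of_nonneg_left h1 (mul_pos c0 b9).le
  rw [h0, b7, show (x, r, q) + b = (x + h, r + (C * ‖h‖ ^ 2 - ⟪p, h⟫), q) by simp [hb]] at b6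
  nlinarith

/-- a common paraboloid below a family of two-point functions -/
theorem zf_supp (n : ℕ) : ∃ C : ℝ, 0 ≤ C ∧ ∀ v : EE n → ℝ, Sol v → ∀ (x : EE n) (c : ℝ)
    (A : Set (EE n)), (∀ ε > 0, ∃ p ∈ A, c - ε ≤ Zf (dd v) p x) → ∃ q : EE n, ‖q‖ ≤ C ∧
      ∀ h, ∀ ε > 0, ∃ p ∈ A, c - ε + ⟪q, h⟫ - C * ‖h‖ ^ 2 ≤ Zf (dd v) p (x + h) := by
  obtain ⟨C, hC, H⟩ := exists_Zbd n
  refine ⟨C, hC, fun v hv x c A hA => ?_⟩
  choose p hp hp' using fun j : ℕ => hA (1 / ((j : ℝ) + 1)) Nat.one_div_pos_of_nat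
  obtain ⟨q, hq, φ, hφ, h2⟩ := (isCompact_closedBall (0 : EE n) C).tendsto_subseq
    (x := fun j => ∇ (Zf (dd v) (p j)) x) fun j =>
      mem_closedBall_zero_iff.2 ((St.norm_grad _ x).trans_le (H v hv _ x).2.1)
  refine ⟨q, mem_closedBall_zero_iff.1 hq, fun h ε hε => ?_⟩
  have h3 := (((tendsto_one_div_add_atTop_nhds_zero_nat (𝕜 := ℝ)).comp
    hφ.tendsto_atTop).const_sub c).add (h2.inner (𝕜 := ℝ) (tendsto_const_nhds (x := h)))
  obtain ⟨j, hj⟩ := (h3.eventually (lt_mem_nhds (show c - ε + ⟪q, h⟫ < _ by linarith))).exists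
  refine ⟨p (φ j), hp _, ?_⟩
  have h4 := (abs_le.1 (abs_tay_le (Zf_sm hv.dd_sm (p (φ j))) (fun y => (H v hv _ y).2.2) h x)).2
  simp only [Function.comp_apply, inner_grad] at hj
  rw [tay] at h4
  linarith [hp' (φ j)]

theorem nn_sm (hv : Sol v) : ContDiff ℝ ∞ (nn v) :=
  contDiff_euclidean.2 fun i => by simpa only [nn, grad_apply] using hv.pdv_dd_sm i

theorem NN_sm (hv : Sol v) (h : 0 < NN v x) : ContDiffAt ℝ 2 (NN v) x := gN_sm hv h

theorem nu_sm (hv : Sol v) (h : 0 < NN v x) : ContDiffAt ℝ 2 (nu v) x :=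
  ((NN_sm hv h).inv h.ne').smul (contDiff_infty.1 (nn_sm hv) 2).contDiffAt

theorem exists_lip_nn (n : ℕ) : ∃ C : ℝ, 1 ≤ C ∧ ∀ v : EE n → ℝ, Sol v → ∀ x y,
    ‖nn v y - nn v x‖ ≤ C * ‖y - x‖ ∧ |NN v y - NN v x| ≤ C * ‖y - x‖ ∧
      (1 / 2 ≤ NN v x → 0 < NN v y → ‖nu v y - nu v x‖ ≤ 4 * C * ‖y - x‖) := by
  obtain ⟨C, H⟩ := dreg n 1
  refine ⟨|C| + 1, by linarith [abs_nonneg C], fun v hv x y => ?_⟩
  have h1 : ‖nn v y - nn v x‖ ≤ (|C| + 1) * ‖y - x‖ := by
    have h2 := convex_univ.norm_image_sub_le_of_norm_fderiv_le (C := |C| + 1)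
      (fun w _ => diff_fderiv hv.dd_sm w) (fun w _ => ((norm_hb _ w).trans_le (H v hv w)).trans
        (by linarith [le_abs_self C])) (mem_univ x) (mem_univ y)
    rwa [nn, nn, gradient, gradient, ← map_sub, LinearIsometryEquiv.norm_map]
  have h2 : |NN v y - NN v x| ≤ (|C| + 1) * ‖y - x‖ := (abs_norm_sub_norm_le _ _).trans h1
  refine ⟨h1, h2, fun hx hy => ?_⟩
  have h3 : NN v x • (nu v y - nu v x) = nn v y - nn v x - (NN v y - NN v x) • nu v y := by
    rw [smul_sub, sub_smul, smul_nu hy, smul_nu (by linarith)]; abel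
  have h4 := norm_sub_le (nn v y - nn v x) ((NN v y - NN v x) • nu v y)
  rw [← h3, norm_smul, norm_smul, Wd.norm_nu hy, Real.norm_of_nonneg (NN_nonneg v x),
    Real.norm_eq_abs] at h4
  nlinarith [norm_nonneg (nu v y - nu v x)]

/-- derivatives along a line -/
theorem line_der {C : ℝ} (hC : 0 ≤ C) (hv : Sol v) (hN : 1 / 2 ≤ NN v x)
    (H : ∀ y, |NN v y - NN v x| ≤ C * ‖y - x‖ ∧ (0 < NN v y → ‖nu v y - nu v x‖ ≤ 4 * C * ‖y - x‖))
    (h : EE n) : ∃ (d' N' : ℝ) (ν' : EE n), |d'| ≤ ‖h‖ ∧ |N'| ≤ C * ‖h‖ ∧ ‖ν'‖ ≤ 4 * C * ‖h‖ ∧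
      HasDerivAt (fun s : ℝ => dd v (x + s • h)) d' 0 ∧
      HasDerivAt (fun s : ℝ => NN v (x + s • h)) N' 0 ∧
      HasDerivAt (fun s : ℝ => nu v (x + s • h)) ν' 0 := by
  have hN0 : 0 < NN v x := by linarith
  have l : HasDerivAt (fun s : ℝ => x + s • h) h 0 := by
    simpa using ((hasDerivAt_id (0 : ℝ)).smul_const h).const_add x
  have e : x = x + (0 : ℝ) • h := by simp
  refine ⟨_, _, _, ?_, ?_, ?_, (hv.dd_diff x).hasFDerivAt.comp_hasDerivAt_of_eq 0 l e,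
    ((NN_sm hv hN0).differentiableAt (by simp)).hasFDerivAt.comp_hasDerivAt_of_eq 0 l e,
    ((nu_sm hv hN0).differentiableAt (by simp)).hasFDerivAt.comp_hasDerivAt_of_eq 0 l e⟩
  · rw [← inner_grad]
    exact (abs_real_inner_le_norm _ _).trans
      (mul_le_of_le_one_left (norm_nonneg _) (hv.norm_grad_dd_le x))
  · exact (ContinuousLinearMap.le_opNorm _ h).trans (mul_le_mul_of_nonneg_right
      (norm_fderiv_le_of_lip' ℝ (f := NN v) hC (Eventually.of_forall fun y => (H y).1)) (norm_nonneg _))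
  · exact (ContinuousLinearMap.le_opNorm _ h).trans (mul_le_mul_of_nonneg_right
      (norm_fderiv_le_of_lip' ℝ (by positivity) (((NN_sm hv hN0).continuousAt.eventually
        (lt_mem_nhds hN0)).mono fun y hy => (H y).2 hy)) (norm_nonneg _))

theorem fderiv_line {G : Type*} [NormedAddCommGroup G] [NormedSpace ℝ G] {Ψ : G → ℝ} {a b : G}
    {D : ℝ} (h : ContDiffAt ℝ 2 Ψ a) (hD : HasDerivAt (fun s : ℝ => Ψ (a + s • b)) D 0) :
    fderiv ℝ Ψ a b = D := by
  have l : HasDerivAt (fun s : ℝ => a + s • b) b 0 := by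
    simpa using ((hasDerivAt_id (0 : ℝ)).smul_const b).const_add a
  exact ((h.differentiableAt (by simp)).hasFDerivAt.comp_hasDerivAt_of_eq 0 l (by simp)).unique hD

end

end Crest.Agent.N067.M.X0
end

-- ▼ part N067/X0/Long
section

/-!
# Row 67, block X0 (helper18): paraboloids above `rt` at long and at short contacts
-/

set_option autoImplicit false

open MeasureTheory Laplacian InnerProductSpace Topology Filter Set Metric
open scoped RealInnerProductSpace Gradient ContDiff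

namespace Crest.Agent.N067.M.X0

open Crest.Agent.R077 Crest.Agent.N067.V

noncomputable section

variable {n : ℕ} {β : Bo} {v : EE n → ℝ} {x z w om p : EE n} {r y ρm : ℝ}

/-- the point of the lens with the parameters `q` -/
def wq (v : EE n → ℝ) (q : ℝ × EE n) (x : EE n) : EE n := q.1 • nu v x + tan (nu v x) q.2

/-- the defect of a long contact; the variables are `(x, r, z, y, q)` -/
def Ps1 (β : Bo) (v : EE n → ℝ) (a : EE n × ℝ × EE n × ℝ × ℝ × EE n) : ℝ :=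
  dd v a.2.2.1 - QQ β v a.1 a.2.1 (wq v a.2.2.2.2 a.1) a.2.2.2.1 a.2.2.1

theorem QQ_sm {G : Type*} [NormedAddCommGroup G] [NormedSpace ℝ G] {a : G} (hv : Sol v)
    {X Z T : G → EE n} {R Y g : G → ℝ} (hX : ContDiffAt ℝ 2 X a) (hZ : ContDiffAt ℝ 2 Z a)
    (hT : ContDiffAt ℝ 2 T a) (hR : ContDiffAt ℝ 2 R a) (hY : ContDiffAt ℝ 2 Y a)
    (hg : ContDiffAt ℝ 2 g a) (hN : 0 < NN v (X a)) (hL : R a - dd v (X a) ≠ 0) (hy : Y a ≠ 0) :
    ContDiffAt ℝ 2 (fun a => QQ β v (X a) (R a) (wq v (g a, T a) (X a)) (Y a) (Z a)) a := by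
  have h0 : ContDiffAt ℝ 2 (fun a => dd v (X a)) a := (c2_of hv.dd_sm _).comp a hX
  have h1 : ContDiffAt ℝ 2 (fun a => NN v (X a)) a := (NN_sm hv hN).comp a hX
  have h2 : ContDiffAt ℝ 2 (fun a => nu v (X a)) a := (nu_sm hv hN).comp a hX
  have h3 := hR.sub h0
  have h4 : ContDiffAt ℝ 2 (fun a => wq v (g a, T a) (X a)) a :=
    (hg.smul h2).add (hT.sub ((ContDiffAt.inner ℝ hT h2).smul h2))
  have h5 : ContDiffAt ℝ 2 (fun a => ‖Z a - cen v (X a) (R a) (wq v (g a, T a) (X a))‖ ^ 2) a :=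
    (hZ.sub ((hX.add (h3.smul h2)).add (hR.smul h4))).norm_sq ℝ
  exact h0.add ((h1.mul ((h3.pow 2).sub ((((h5.add (hY.pow 2)).div (contDiffAt_const.mul hY)
    (mul_ne_zero two_ne_zero hy)).add (contDiffAt_const.mul hR)).pow 2))).div
      (contDiffAt_const.mul h3) (mul_ne_zero two_ne_zero hL))

theorem Ps1_sm (hv : Sol v) {a : EE n × ℝ × EE n × ℝ × ℝ × EE n} (hN : 0 < NN v a.1)
    (hL : a.2.1 - dd v a.1 ≠ 0) (hy : a.2.2.2.1 ≠ 0) : ContDiffAt ℝ 2 (Ps1 β v) a :=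
  ((c2_of hv.dd_sm _).comp a contDiffAt_snd.snd.fst).sub (QQ_sm hv contDiffAt_fst
    contDiffAt_snd.snd.fst contDiffAt_snd.snd.snd.snd.snd contDiffAt_snd.fst
    contDiffAt_snd.snd.snd.fst contDiffAt_snd.snd.snd.snd.fst hN hL hy)

theorem hasDerivAt_gp {N L Y : ℝ → ℝ} {N' L' Y' : ℝ} (hN : HasDerivAt N N' 0)
    (hL : HasDerivAt L L' 0) (hY : HasDerivAt Y Y' 0) (h : L 0 ≠ 0) :
    HasDerivAt (fun s => gp (N s) (L s) (Y s)) (N' * (L 0 * (1 - (Y 0 / L 0) ^ 2) / 2) +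
      N 0 * (L' * (1 + (Y 0 / L 0) ^ 2) / 2 - Y 0 / L 0 * Y')) 0 := by
  unfold gp
  refine ((hN.mul ((hL.pow 2).sub (hY.pow 2))).div (hL.const_mul 2)
    (mul_ne_zero two_ne_zero h)).congr_deriv ?_
  simp only [Pi.pow_apply, Pi.sub_apply, Pi.mul_apply, Nat.cast_ofNat, Nat.add_one_sub_one, pow_one]
  field_simp; ring

theorem der1 {q : ℝ × EE n} {h ν' : EE n} {d' N' : ℝ} (ρ : ℝ) (hL : r - dd v x ≠ 0) (hy : 0 < y)
    (hom : ‖om‖ = 1) (hz : z = cen v x r (wq v q x) + y • om)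
    (h1 : HasDerivAt (fun s : ℝ => dd v (x + s • h)) d' 0)
    (h2 : HasDerivAt (fun s : ℝ => NN v (x + s • h)) N' 0)
    (h3 : HasDerivAt (fun s : ℝ => nu v (x + s • h)) ν' 0) :
    HasDerivAt (fun s : ℝ => Ps1 β v ((x, r, z, y, q) + s • (h, ρ, 0)))
      (-(d' + (N' * ((r - dd v x) * (1 - ((y + β.η * r) / (r - dd v x)) ^ 2) / 2) +
        NN v x * ((ρ - d') * (1 + ((y + β.η * r) / (r - dd v x)) ^ 2) / 2 -
          (y + β.η * r) / (r - dd v x) * (β.η * ρ - ⟪om, h + ((r - dd v x) • ν' + (ρ - d') • nu v x) +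
            (r • (q.1 • ν' - (⟪q.2, nu v x⟫ • ν' + ⟪q.2, ν'⟫ • nu v x)) + ρ • wq v q x)⟫))))) 0 := by
  have l : HasDerivAt (fun s : ℝ => x + s • h) h 0 := by
    simpa using ((hasDerivAt_id (0 : ℝ)).smul_const h).const_add x
  have lr : HasDerivAt (fun s : ℝ => r + s * ρ) ρ 0 := by
    simpa using ((hasDerivAt_id (0 : ℝ)).mul_const ρ).const_add r
  have h4 : HasDerivAt (fun s : ℝ => wq v q (x + s • h))
      (q.1 • ν' - (⟪q.2, nu v x⟫ • ν' + ⟪q.2, ν'⟫ • nu v x)) 0 := by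
    have := (h3.const_smul q.1).add ((((hasDerivAt_const (0 : ℝ) q.2).inner ℝ h3).smul h3).const_sub q.2)
    exact this.congr_deriv (by simp [sub_eq_add_neg])
  have h5 := (((l.add ((lr.sub h1).smul h3)).add (lr.smul h4)).const_sub z).norm_sq
  have h6 := ((h5.add_const (y ^ 2)).div_const (2 * y)).add (lr.const_mul β.η)
  have h7 := (h1.add (hasDerivAt_gp h2 (lr.sub h1) h6 (by simpa using hL))).const_sub (dd v z)
  have e : z - (x + (r - dd v x) • nu v x + r • wq v q x) = y • om := by rw [hz, cen]; abel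
  have e2 : (y ^ 2 + y ^ 2) / (2 * y) = y := by field_simp; ring
  refine (h7.congr_deriv ?_).congr_of_eventuallyEq (Eventually.of_forall fun s => ?_)
  · simp only [Pi.add_apply, Pi.sub_apply, Pi.smul_apply', zero_smul, add_zero, zero_mul, e,
      norm_smul, hom, mul_one, Real.norm_eq_abs, sq_abs, e2, inner_neg_right, real_inner_smul_left]
    congr 5
    field_simp; ring
  · simp [Ps1, QQ, cen]

/-- a paraboloid above `rt` with vertex value `r` and slope at most `B` -/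
def Supp (β : Bo) (v : EE n → ℝ) (ρm : ℝ) (x : EE n) (r C δ B : ℝ) : Prop :=
  ∃ p : EE n, ‖p‖ ≤ C ∧ ‖p‖ ≤ B ∧
    ∀ h, ‖h‖ ≤ δ → h ≠ 0 → rt β v ρm (x + h) ≤ r + (C * ‖h‖ ^ 2 - ⟪p, h⟫)

theorem norm_le_of {A B κ : ℝ} {f : EE n → ℝ} (hκ : 0 < κ) (hB : 0 ≤ B) (hA : A ≤ -κ)
    (h : ∀ h, ⟪p, h⟫ * A = f h) (hf : ∀ h, |f h| ≤ B * ‖h‖) : ‖p‖ ≤ B / κ := by
  have h1 := hf p
  rw [← h, real_inner_self_eq_norm_sq, abs_mul, abs_of_neg (by linarith : A < 0), abs_sq] at h1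
  rw [le_div_iff₀ hκ]
  rcases (norm_nonneg p).eq_or_lt with h0 | h0
  · rw [← h0, zero_mul]; exact hB
  · exact le_of_mul_le_mul_right (by nlinarith [mul_pos h0 h0]) h0

theorem Sm.near (hs : Sm v x r) {h : EE n} {s : ℝ} (h1 : ‖h‖ ≤ 1 / 4) (h2 : |s| ≤ 1 / 4) :
    |dd v (x + h)| < r + s ∧ |r + s - dd v (x + h) - (r - dd v x)| ≤ 1 / 2 := by
  have a1 := abs_le.1 (hs.sol.abs_dd_sub_le (x + h) x)
  have a2 := abs_le.1 h2
  rw [add_sub_cancel_left] at a1
  exact ⟨abs_lt.2 ⟨by linarith [hs.d, neg_abs_le (dd v x), abs_nonneg (dd v x)],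
    by linarith [hs.d, le_abs_self (dd v x), abs_nonneg (dd v x)]⟩,
    abs_le.2 ⟨by linarith, by linarith⟩⟩

theorem Con.sig_le (h : Con β v x r w om z y) : (y + β.η * r) / (r - dd v x) ≤ 2 := by
  have h1 := NN_le_one h.sm.sol z
  rw [h.NN_eq, mul_div_assoc] at h1
  have h2 : 0 ≤ (y + β.η * r) / (r - dd v x) :=
    div_nonneg (add_nonneg h.ypos.le (h.sm.eta β).1) h.sm.Lpos.le
  nlinarith [h.sm.N]

theorem supp_long (n : ℕ) : ∃ B : ℝ, 1 ≤ B ∧ ∀ (β : Bo) (v : EE n → ℝ) (ρm : ℝ) (K : Set (EE n)),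
    Sol v → IsCompact K → (∀ x ∈ K, 1 / 2 ≤ NN v x) → ∃ C δ : ℝ, 0 ≤ C ∧ 0 < δ ∧
      ∀ x ∈ K, ∀ r w om z y, Con β v x r w om z y → r ≤ ρm →
        3 / 4 * (r - dd v x) ≤ y + β.η * r → 0 ≤ ⟪om, nu v x⟫ → Supp β v ρm x r C δ (B * r ^ 2) := by
  obtain ⟨CL, hCL, HL⟩ := exists_lip_nn n
  refine ⟨120 * CL, by linarith, fun β v ρm K hv hK hN => ?_⟩
  obtain ⟨R, hR⟩ := hK.isBounded.subset_closedBall 0
  have dc := hv.dd_sm.continuous
  obtain ⟨C, δ, hC, hδ, hδ1, H⟩ := imp_sc (Ψ := Ps1 β v) (S := (K ×ˢ Icc 0 ρm ×ˢ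
      closedBall 0 (R + 6 * ρm) ×ˢ Icc 1 (3 * ρm) ×ˢ Par β n) ∩ {a | 1 ≤ a.2.1 - dd v a.1})
    ((hK.prod (isCompact_Icc.prod ((isCompact_closedBall _ _).prod
      (isCompact_Icc.prod (isCompact_par β n))))).inter_right (isClosed_le (by fun_prop) (by fun_prop)))
    (fun a ha => Ps1_sm hv (by linarith [hN _ ha.1.1]) (one_pos.trans_le ha.2).ne'
      (one_pos.trans_le ha.1.2.2.2.1.1).ne') (κ := 1 / 4) (by norm_num)
  refine ⟨C, min δ (1 / (4 * CL)), hC, by positivity, fun x hx r w om z y h hr hY hc => ?_⟩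
  have hq := par_of_mem h.sm.ax h.cone.mem
  have hw : wq v (⟪w, nu v x⟫, tan (nu v x) w) x = w := by rw [wq, tan_tan h.sm.ax, add_tan]
  have hL := h.sm.Lpos
  have hL1 := h.sm.L1
  have hL2 := h.sm.L2
  have r8 := h.sm.r8
  have hη := h.sm.eta β
  have hσ2 := h.sig_le
  have hσ1 : 3 / 4 ≤ (y + β.η * r) / (r - dd v x) := (le_div_iff₀ hL).2 hY
  have hy2 := (div_le_iff₀ hL).1 hσ2
  have hw1 : ‖w‖ ≤ 1 := h.cone.mem.1.trans (by linarith [β.η1])
  have hS : (x, r, z, y, (⟪w, nu v x⟫, tan (nu v x) w)) ∈ (K ×ˢ Icc 0 ρm ×ˢ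
      closedBall 0 (R + 6 * ρm) ×ˢ Icc 1 (3 * ρm) ×ˢ Par β n) ∩ {a | 1 ≤ a.2.1 - dd v a.1} := by
    refine ⟨⟨hx, ⟨by linarith, hr⟩, mem_closedBall_zero_iff.2 ?_, ⟨by linarith, by linarith⟩, hq⟩,
      show 1 ≤ r - dd v x by linarith⟩
    have a1 := mem_closedBall_zero_iff.1 (hR hx)
    have a2 := (norm_add_le _ (y • om)).trans (add_le_add_left
      (norm_add₃_le (a := x) (b := (r - dd v x) • nu v x) (c := r • w)) _)
    rw [norm_smul, norm_smul, norm_smul, h.cone.unit, h.sm.ax, Real.norm_of_nonneg hL.le,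
      Real.norm_of_nonneg (by linarith : 0 ≤ r), Real.norm_of_nonneg h.ypos.le] at a2
    change ‖z‖ ≤ _
    rw [h.at', cen]
    nlinarith
  have hsm := Ps1_sm (β := β) hv (a := (x, r, z, y, (⟪w, nu v x⟫, tan (nu v x) w))) h.sm.Npos hL.ne'
    h.ypos.ne'
  have hr1 : fderiv ℝ (Ps1 β v) (x, r, z, y, (⟪w, nu v x⟫, tan (nu v x) w)) (0, 1, 0) ≤ -(1 / 4) := by
    rw [fderiv_line hsm (der1 (h := 0) (ν' := 0) (d' := 0) (N' := 0) 1 hL.ne' h.ypos h.cone.unit
      (by rw [hw]; exact h.at') (by simpa using hasDerivAt_const _ _)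
      (by simpa using hasDerivAt_const _ _) (by simpa using hasDerivAt_const _ _)), hw]
    simp only [zero_add, zero_mul, sub_zero, one_mul, mul_one, smul_zero, one_smul,
      inner_zero_right, zero_smul, add_zero, inner_add_right]
    have a1 := h.cone.trans
    have a2 : β.η - (⟪om, nu v x⟫ + ⟪om, w⟫) ≤ 1 / 100 := by nlinarith [β.η1]
    have a3 : 1 / 2 ≤ (1 + ((y + β.η * r) / (r - dd v x)) ^ 2) / 2 -
      (y + β.η * r) / (r - dd v x) * (β.η - (⟪om, nu v x⟫ + ⟪om, w⟫)) := by nlinarith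
    nlinarith [h.sm.N]
  obtain ⟨p, p1, p2, p3⟩ := H _ _ _ hS (by
    simp only [Ps1, hw, QQ_eq h.ypos h.norm_eq, h.eq, sub_self]) hr1
  refine ⟨p, p1, (norm_le_of (B := 30 * CL * r) (by norm_num) (by positivity) hr1 p2
    fun a => ?_).trans (by nlinarith [mul_pos (by linarith : 0 < CL) (by linarith : 0 < r)]),
    fun a ha ha0 => ?_⟩
  · obtain ⟨d', N', ν', b1, b2, b3, b4, b5, b6⟩ := line_der (by linarith) hv h.sm.N
      (fun y => ⟨(HL v hv x y).2.1, (HL v hv x y).2.2 h.sm.N⟩) a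
    rw [fderiv_line hsm (der1 0 hL.ne' h.ypos h.cone.unit (by rw [hw]; exact h.at') b4 b5 b6),
      abs_neg]
    set σ := (y + β.η * r) / (r - dd v x)
    have c0 := norm_nonneg a
    have c1 : |⟪w, nu v x⟫| ≤ 1 / 100 := (Wd.abs_inner_le h.cone.mem.1 h.sm.ax).trans β.η1
    have c2 : |⟪tan (nu v x) w, ν'⟫| ≤ 1 / 100 * ‖ν'‖ := (abs_real_inner_le_norm _ _).trans
      (mul_le_mul_of_nonneg_right ((norm_tan_le h.sm.ax w).trans (h.cone.mem.1.trans β.η1))
        (norm_nonneg _))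
    have c3 : ‖⟪w, nu v x⟫ • ν' - ⟪tan (nu v x) w, ν'⟫ • nu v x‖ ≤ 1 / 50 * ‖ν'‖ := by
      refine (norm_sub_le _ _).trans ?_
      rw [norm_smul, norm_smul, h.sm.ax, Real.norm_eq_abs, Real.norm_eq_abs]
      nlinarith [norm_nonneg ν']
    simp only [inner_tan h.sm.ax, zero_smul, zero_add, add_zero, zero_sub, mul_zero]
    set u := a + ((r - dd v x) • ν' + -d' • nu v x) +
      r • (⟪w, nu v x⟫ • ν' - ⟪tan (nu v x) w, ν'⟫ • nu v x) with hu
    have c4 : |⟪om, u⟫| ≤ 2 * ‖a‖ + 5 * (CL * r * ‖a‖) := by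
      have c5 := (norm_add₃_le (a := a) (b := (r - dd v x) • ν' + -d' • nu v x)
        (c := r • (⟪w, nu v x⟫ • ν' - ⟪tan (nu v x) w, ν'⟫ • nu v x))).trans
        (add_le_add_left (add_le_add_right (norm_add_le _ _) _) _)
      rw [← hu, norm_smul, norm_smul, norm_smul, h.sm.ax, Real.norm_of_nonneg hL.le, norm_neg,
        Real.norm_of_nonneg (by linarith : 0 ≤ r), Real.norm_eq_abs] at c5
      have c6 := abs_real_inner_le_norm om u
      rw [h.cone.unit] at c6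
      nlinarith [mul_le_mul_of_nonneg_left c3 (by linarith : 0 ≤ r), norm_nonneg ν',
        mul_le_mul_of_nonneg_left b3 (by linarith : 0 ≤ r),
        mul_le_mul_of_nonneg_right hL2 (norm_nonneg ν')]
    have c5 : |N' * ((r - dd v x) * (1 - σ ^ 2) / 2)| ≤ CL * ‖a‖ * (2 * r) := by
      rw [abs_mul]
      have c6 : σ ^ 2 ≤ 4 := by nlinarith
      refine mul_le_mul b2 (abs_le.2 ⟨?_, ?_⟩) (abs_nonneg _) (by positivity) <;>
        nlinarith [mul_le_mul_of_nonneg_left c6 hL.le, mul_nonneg hL.le (sq_nonneg σ)]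
    have c6 : |-d' * (1 + σ ^ 2) / 2 - σ * -⟪om, u⟫| ≤
        ‖a‖ * (5 / 2) + 2 * (2 * ‖a‖ + 5 * (CL * r * ‖a‖)) := by
      refine (abs_sub _ _).trans (add_le_add ?_ ?_)
      · rw [mul_div_assoc, abs_mul, abs_neg]
        exact mul_le_mul b1 (abs_le.2 ⟨by nlinarith, by nlinarith⟩) (abs_nonneg _) c0
      · rw [abs_mul, abs_neg]
        exact mul_le_mul (abs_le.2 ⟨by linarith, hσ2⟩) c4 (abs_nonneg _) zero_le_two
    have c7 : |NN v x * (-d' * (1 + σ ^ 2) / 2 - σ * -⟪om, u⟫)| ≤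
        |-d' * (1 + σ ^ 2) / 2 - σ * -⟪om, u⟫| := by
      rw [abs_mul, abs_of_pos h.sm.Npos]
      exact mul_le_of_le_one_left (abs_nonneg _) (NN_le_one hv x)
    have c8 : 8 * ‖a‖ ≤ CL * r * ‖a‖ := mul_le_mul_of_nonneg_right (by nlinarith) c0
    refine ((abs_add_le _ _).trans (add_le_add b1 ((abs_add_le _ _).trans
      (add_le_add c5 (c7.trans c6))))).trans ?_
    nlinarith
  · obtain ⟨b1, b2⟩ := p3 a (ha.trans (min_le_left _ _))
    have b3 := (h.sm.near ((ha.trans (min_le_left _ _)).trans hδ1) b1).1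
    have b4 : 0 < NN v (x + a) := by
      have c1 := (abs_le.1 (HL v hv x (x + a)).2.1).1
      have c2 := (le_div_iff₀ (by positivity)).1 (ha.trans (min_le_right _ _))
      rw [add_sub_cancel_left] at c1
      linarith [h.sm.N]
    refine Wd.rt_le b3 fun hf => ?_
    have b5 := hf _ (Par.mem hq (Wd.norm_nu b4)) z
    have b6 := QQ_le (β := β) b4.le b3 h.ypos (wq v (⟪w, nu v x⟫, tan (nu v x) w) (x + a)) z
    have b7 := b2 ha0
    simp only [Ps1] at b7
    change PP β v (x + a) _ (wq v _ (x + a)) z ≤ _ at b5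
    linarith

end

end Crest.Agent.N067.M.X0
end

-- ▼ part N067/X0/Main
section

/-!
# Row 67, block X0 (helper18): `M.x0`
-/

set_option autoImplicit false

open MeasureTheory Laplacian InnerProductSpace Topology Filter Set Metric
open scoped RealInnerProductSpace Gradient ContDiff

namespace Crest.Agent.N067.M.X0

open Crest.Agent.R077 Crest.Agent.N067.V

noncomputable section

variable {n : ℕ} {β : Bo} {v : EE n → ℝ} {x x' z w om p : EE n} {r r' y ρm : ℝ}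

/-- the chord `p` points into the lower half of the ball -/
structure Low (v : EE n → ℝ) (x : EE n) (r : ℝ) (p : EE n) : Prop where
  ge : 3 / 4 * (r - dd v x) ≤ ‖p - (r - dd v x) • nu v x‖
  le : ‖p - (r - dd v x) • nu v x‖ ≤ 2 * (r - dd v x)
  neg : ⟪p - (r - dd v x) • nu v x, nu v x⟫ ≤ 0

theorem Sm.low (h : Sm v x r) (hp : ‖p‖ ≤ 1) : Low v x r p := by
  have h1 := norm_sub_norm_le ((r - dd v x) • nu v x) p
  have h2 := norm_sub_le p ((r - dd v x) • nu v x)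
  have h3 : ⟪p, nu v x⟫ ≤ ‖p‖ := by simpa [h.ax] using real_inner_le_norm p (nu v x)
  rw [norm_smul, h.ax, Real.norm_of_nonneg h.Lpos.le] at h1 h2
  rw [norm_sub_rev] at h1
  refine ⟨by linarith [h.L1, h.r8], by linarith [h.L1, h.r8], ?_⟩
  rw [inner_sub_left, real_inner_smul_left, real_inner_self_eq_norm_sq, h.ax]
  linarith [h.L1, h.r8]

theorem Con.low (h : Con β v x r w om z y) (hY : 3 / 4 * (r - dd v x) ≤ y + β.η * r)
    (hc : ⟪om, nu v x⟫ ≤ 0) : Low v x r (z - x) := by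
  have h0 : 0 ≤ y + β.η * r := add_nonneg h.ypos.le (h.sm.eta β).1
  have h1 := (h.tay_eq (h.cone.bl (by linarith [cu1_ge β]))).1
  have h2 := (div_le_iff₀ h.sm.Lpos).1 h.sig_le
  refine ⟨?_, ?_, ?_⟩ <;> rw [h1]
  · rwa [norm_smul, h.cone.unit, mul_one, Real.norm_of_nonneg h0]
  · rwa [norm_smul, h.cone.unit, mul_one, Real.norm_of_nonneg h0]
  · rw [real_inner_smul_left]; exact mul_nonpos_of_nonneg_of_nonpos h0 hc

theorem Low.sec (h : Low v x r p) (hs : Sm v x r) (β : Bo) (h1 : 0 < NN v x')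
    (h2 : ‖nu v x' - nu v x‖ ≤ 1 / 16) (h3 : |r' - dd v x' - (r - dd v x)| ≤ 1 / 2)
    (h4 : r' ≤ r + 1) : Sec β v x' r' p := by
  have hL := hs.L1
  have r8 := hs.r8
  set u := p - (r - dd v x) • nu v x
  set e := (r - dd v x) • (nu v x' - nu v x) + (r' - dd v x' - (r - dd v x)) • nu v x' with he
  have a1 : p - (r' - dd v x') • nu v x' = u - e := by
    rw [he, smul_sub, sub_smul (r' - dd v x')]; simp only [u]; abel
  have a2 : ‖e‖ ≤ (r - dd v x) / 8 := by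
    refine (norm_add_le _ _).trans ?_
    rw [norm_smul, norm_smul, Wd.norm_nu h1, Real.norm_of_nonneg hs.Lpos.le, Real.norm_eq_abs]
    nlinarith
  have a3 := norm_sub_norm_le u e
  have a4 : ⟪u, nu v x' - nu v x⟫ ≤ (r - dd v x) / 8 :=
    (real_inner_le_norm _ _).trans (by nlinarith [h.le, norm_nonneg (nu v x' - nu v x)])
  have a5 := (abs_le.1 (Wd.abs_inner_le a2 (Wd.norm_nu h1))).1
  rw [inner_sub_right] at a4
  refine ⟨?_, ?_⟩ <;> rw [a1]
  · nlinarith [h.ge, β.η0, β.η1]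
  · rw [inner_sub_left]
    nlinarith [h.ge, h.neg, cu1_ge β]

/-- the defect of a short contact; the variables are `(x, r, x₀, c, q)` -/
def Ps2 (v : EE n → ℝ) (C : ℝ) (a : EE n × ℝ × EE n × ℝ × EE n) : ℝ :=
  NN v a.1 / (a.2.1 - dd v a.1) -
    (a.2.2.2.1 + ⟪a.2.2.2.2, a.1 - a.2.2.1⟫ - C * ‖a.1 - a.2.2.1‖ ^ 2)

theorem Ps2_sm (hv : Sol v) (C : ℝ) {a : EE n × ℝ × EE n × ℝ × EE n} (hN : 0 < NN v a.1)
    (hL : a.2.1 - dd v a.1 ≠ 0) : ContDiffAt ℝ 2 (Ps2 v C) a := by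
  have h1 : ContDiffAt ℝ 2 (fun a : EE n × ℝ × EE n × ℝ × EE n => a.1 - a.2.2.1) a :=
    contDiffAt_fst.sub contDiffAt_snd.snd.fst
  exact (((NN_sm hv hN).comp a contDiffAt_fst).div (contDiffAt_snd.fst.sub
    ((c2_of hv.dd_sm _).comp a contDiffAt_fst)) hL).sub ((contDiffAt_snd.snd.snd.fst.add
      (ContDiffAt.inner ℝ contDiffAt_snd.snd.snd.snd h1)).sub (contDiffAt_const.mul (h1.norm_sq ℝ)))

theorem der2 {h q : EE n} {d' N' : ℝ} (C c ρ : ℝ) (hL : r - dd v x ≠ 0)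
    (h1 : HasDerivAt (fun s : ℝ => dd v (x + s • h)) d' 0)
    (h2 : HasDerivAt (fun s : ℝ => NN v (x + s • h)) N' 0) :
    HasDerivAt (fun s : ℝ => Ps2 v C ((x, r, x, c, q) + s • (h, ρ, 0)))
      ((N' * (r - dd v x) - NN v x * (ρ - d')) / (r - dd v x) ^ 2 - ⟪q, h⟫) 0 := by
  have l : HasDerivAt (fun s : ℝ => s • h) h 0 := by
    simpa using (hasDerivAt_id (0 : ℝ)).smul_const h
  have lr : HasDerivAt (fun s : ℝ => r + s * ρ) ρ 0 := by
    simpa using ((hasDerivAt_id (0 : ℝ)).mul_const ρ).const_add r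
  have h3 := (h2.div (lr.sub h1) (by simpa using hL)).sub
    ((((hasDerivAt_const (0 : ℝ) q).inner ℝ l).const_add c).sub (l.norm_sq.const_mul C))
  refine (h3.congr_deriv (by simp)).congr_of_eventuallyEq (Eventually.of_forall fun s => ?_)
  simp [Ps2]

theorem supp_short (n : ℕ) : ∃ B : ℝ, 1 ≤ B ∧ ∀ (β : Bo) (v : EE n → ℝ) (ρm : ℝ) (K : Set (EE n)),
    Sol v → IsCompact K → (∀ x ∈ K, 1 / 2 ≤ NN v x) → ∃ C δ : ℝ, 0 ≤ C ∧ 0 < δ ∧
      ∀ x ∈ K, ∀ r, Sm v x r → r ≤ ρm →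
        (∀ ε > 0, ∃ p, Low v x r p ∧ NN v x / (r - dd v x) - ε ≤ Zf (dd v) p x) →
        Supp β v ρm x r C δ (B * r ^ 2) := by
  obtain ⟨CL, hCL, HL⟩ := exists_lip_nn n
  obtain ⟨CZ, hCZ, HZ⟩ := zf_supp n
  refine ⟨3 * (CL + 1 + CZ), by linarith, fun β v ρm K hv hK hN => ?_⟩
  have dc := hv.dd_sm.continuous
  obtain ⟨C, δ, hC, hδ, hδ1, H⟩ := imp_sc (Ψ := Ps2 v CZ) (S := (K ×ˢ Icc 0 ρm ×ˢ
      K ×ˢ Icc 0 1 ×ˢ closedBall 0 CZ) ∩ {a | 1 ≤ a.2.1 - dd v a.1})
    ((hK.prod (isCompact_Icc.prod (hK.prod (isCompact_Icc.prod (isCompact_closedBall _ _))))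
      ).inter_right (isClosed_le (by fun_prop) (by fun_prop)))
    (fun a ha => Ps2_sm hv _ (by linarith [hN _ ha.1.1]) (one_pos.trans_le ha.2).ne')
    (κ := 1 / (3 * ρm ^ 2 + 1)) (by positivity)
  refine ⟨C, min δ (1 / (64 * CL)), hC, by positivity, fun x hx r h hr hA => ?_⟩
  obtain ⟨q, hq, hq'⟩ := HZ v hv x _ {p | Low v x r p} hA
  have hL := h.Lpos
  have hL1 := h.L1
  have hL2 := h.L2
  have r8 := h.r8
  have hN1 := NN_le_one hv x
  have hsm := Ps2_sm hv CZ (a := (x, r, x, NN v x / (r - dd v x), q)) h.Npos hL.ne'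
  have hr1 : fderiv ℝ (Ps2 v CZ) (x, r, x, NN v x / (r - dd v x), q) (0, 1, 0) ≤
      -(1 / (3 * r ^ 2)) := by
    rw [fderiv_line hsm (der2 (h := 0) (d' := 0) (N' := 0) CZ _ 1 hL.ne'
      (by simpa using hasDerivAt_const _ _) (by simpa using hasDerivAt_const _ _))]
    simp only [zero_mul, sub_zero, mul_one, zero_sub, inner_zero_right, neg_div, neg_le_neg_iff]
    rw [div_le_div_iff₀ (by positivity) (by positivity)]
    nlinarith [h.N, pow_le_pow_left₀ hL.le hL2 2]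
  have hS : (x, r, x, NN v x / (r - dd v x), q) ∈ (K ×ˢ Icc 0 ρm ×ˢ
      K ×ˢ Icc 0 1 ×ˢ closedBall 0 CZ) ∩ {a | 1 ≤ a.2.1 - dd v a.1} :=
    ⟨⟨hx, ⟨show 0 ≤ r by linarith, hr⟩, hx, ⟨(div_pos h.Npos hL).le,
      (div_le_one hL).2 (by linarith)⟩, mem_closedBall_zero_iff.2 hq⟩,
      show 1 ≤ r - dd v x by linarith⟩
  have hκ : 1 / (3 * ρm ^ 2 + 1) ≤ 1 / (3 * r ^ 2) :=
    one_div_le_one_div_of_le (by positivity) (by nlinarith)
  obtain ⟨p, p1, p2, p3⟩ := H x r (x, NN v x / (r - dd v x), q) hS (by simp [Ps2])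
    (hr1.trans (neg_le_neg hκ))
  refine ⟨p, p1, (norm_le_of (B := CL + 1 + CZ) (by positivity) (by positivity) hr1 p2
    fun a => ?_).trans_eq (by field_simp), fun a ha ha0 => ?_⟩
  · obtain ⟨d', N', ν', b1, b2, -, b4, b5, -⟩ := line_der (by linarith) hv h.N
      (fun y => ⟨(HL v hv x y).2.1, (HL v hv x y).2.2 h.N⟩) a
    rw [fderiv_line hsm (der2 CZ _ 0 hL.ne' b4 b5)]
    have c0 := norm_nonneg a
    have c1 : |⟪q, a⟫| ≤ CZ * ‖a‖ :=
      (abs_real_inner_le_norm _ _).trans (mul_le_mul_of_nonneg_right hq c0)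
    have c2 : |(N' * (r - dd v x) - NN v x * (0 - d')) / (r - dd v x) ^ 2| ≤ (CL + 1) * ‖a‖ := by
      rw [abs_div, abs_sq, div_le_iff₀ (by positivity)]
      refine (abs_sub _ _).trans ?_
      rw [abs_mul, abs_mul, abs_of_pos hL, abs_of_pos h.Npos, zero_sub, abs_neg]
      have c3 : r - dd v x ≤ (r - dd v x) ^ 2 := by nlinarith
      have c4 : 0 ≤ CL * ‖a‖ := by positivity
      nlinarith [mul_le_mul_of_nonneg_right b2 hL.le, mul_le_mul_of_nonneg_left c3 c4,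
        mul_le_mul_of_nonneg_left (show 1 ≤ (r - dd v x) ^ 2 by linarith) c0,
        mul_le_mul_of_nonneg_right hN1 (abs_nonneg d')]
    linarith [abs_sub ((N' * (r - dd v x) - NN v x * (0 - d')) / (r - dd v x) ^ 2) ⟪q, a⟫]
  · obtain ⟨b1, b2⟩ := p3 a (ha.trans (min_le_left _ _))
    have b3 := h.near ((ha.trans (min_le_left _ _)).trans hδ1) b1
    have c2 := (le_div_iff₀ (by positivity)).1 (ha.trans (min_le_right _ _))
    have b4 : 0 < NN v (x + a) := by
      have c1 := (abs_le.1 (HL v hv x (x + a)).2.1).1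
      rw [add_sub_cancel_left] at c1
      linarith [h.N]
    have b5 := (HL v hv x (x + a)).2.2 h.N b4
    rw [add_sub_cancel_left] at b5
    have b7 := b2 ha0
    simp only [Ps2, add_sub_cancel_left] at b7
    obtain ⟨p', c3, c4⟩ := hq' a _ (half_pos (neg_pos.2 b7))
    exact Wd.rt_le b3.1 ((Low.sec c3 h β b4 (by linarith) b3.2
      (by linarith [(abs_le.1 b1).2])).not_fit b4 b3.1 (by linarith))

theorem Supp.mono {C δ B C' δ' B' : ℝ} (h : Supp β v ρm x r C δ B) (h1 : C ≤ C') (h2 : δ' ≤ δ)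
    (h3 : B ≤ B') : Supp β v ρm x r C' δ' B' :=
  let ⟨p, a, b, c⟩ := h
  ⟨p, a.trans h1, b.trans h3, fun h d e => (c h (d.trans h2) e).trans (by nlinarith [sq_nonneg ‖h‖])⟩

theorem deg_low (hs : Sm v x r) {e : EE n} (h : Deg v (NN v x / (r - dd v x)) e x) :
    ∀ ε > 0, ∃ p, Low v x r p ∧ NN v x / (r - dd v x) - ε ≤ Zf (dd v) p x := fun ε hε => by
  have h1 : Tendsto (fun s : ℝ => s • e) (𝓝[>] 0) (𝓝 0) :=
    (Continuous.tendsto' (by fun_prop) 0 0 (by simp)).mono_left nhdsWithin_le_nhds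
  obtain ⟨s, h2, h3⟩ := ((((tendsto_Zf hs.sol.dd_sm x).comp h1).eventually
    (lt_mem_nhds (neg_lt_zero.2 hε))).and (Ioo_mem_nhdsGT zero_lt_one)).exists
  refine ⟨s • e, hs.low (by rw [norm_smul, h.1, mul_one, Real.norm_of_nonneg h3.1.le]; exact h3.2.le), ?_⟩
  have h4 := h3.1.ne'
  simp only [Function.comp_apply, map_smul, smul_apply, smul_eq_mul, norm_smul, h.1, h.2, mul_one,
    Real.norm_eq_abs, sq_abs] at h2
  rw [show s * (s * -(NN v x / (r - dd v x))) / s ^ 2 = -(NN v x / (r - dd v x)) by field_simp] at h2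
  linarith

theorem supp_val (n : ℕ) (C2 : ℝ) : ∃ M B : ℝ, 1 ≤ M ∧ 1 ≤ B ∧ ∀ (β : Bo) (v : EE n → ℝ) (ρm : ℝ),
    PS v → (∀ x ∈ Val v M C2 ρm, VF β v ρm (1 / 4) 1 x) ∧ ∀ K ⊆ Val v M C2 ρm, IsCompact K →
      ∃ C δ : ℝ, 0 ≤ C ∧ 0 < δ ∧ ∀ x ∈ K,
        Supp β v ρm x (rt β v ρm x) C δ (B * rt β v ρm x ^ 2) := by
  obtain ⟨M, hM, H⟩ := val_contact n C2 1 (δ := 1 / 4) (by norm_num) le_rfl
  obtain ⟨B1, hB1, H1⟩ := supp_long n
  obtain ⟨B2, hB2, H2⟩ := supp_short n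
  refine ⟨M, B1 + B2, hM, by linarith, fun β v ρm hv => ⟨fun x hx => (H β v ρm hv x hx).1,
    fun K hKV hK => ?_⟩⟩
  have hN : ∀ x ∈ K, 1 / 2 ≤ NN v x := fun x hx => (H β v ρm hv x (hKV hx)).1.sm.N
  obtain ⟨C1, δ1, c1, d1, G1⟩ := H1 β v ρm K hv.toPos.toSol hK hN
  obtain ⟨C2, δ2, c2, d2, G2⟩ := H2 β v ρm K hv.toPos.toSol hK hN
  refine ⟨C1 + C2, min δ1 δ2, by positivity, by positivity, fun x hx => ?_⟩
  obtain ⟨h1, h2⟩ := H β v ρm hv x (hKV hx)
  have h0 := sq_nonneg (rt β v ρm x)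
  have hr := rt_le_rm β v ρm x
  rcases hr.eq_or_lt with h3 | h3
  · refine ⟨0, by rw [norm_zero]; positivity, by rw [norm_zero]; positivity, fun h _ _ => ?_⟩
    rw [inner_zero_left, sub_zero, h3]
    exact (rt_le_rm β v ρm _).trans (le_add_of_nonneg_right (by positivity))
  have hs := fun h => (G2 x hx _ h1.sm hr h).mono (show C2 ≤ C1 + C2 by linarith)
    (min_le_right δ1 δ2) (show B2 * rt β v ρm x ^ 2 ≤ (B1 + B2) * rt β v ρm x ^ 2 by nlinarith)
  rcases h2 h3 with ⟨e, he⟩ | ⟨w, om, z, y, hc, hY⟩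
  · exact hs (deg_low h1.sm he)
  rw [show (1 - 1 / 4 : ℝ) = 3 / 4 by norm_num] at hY
  rcases le_total 0 ⟪om, nu v x⟫ with h4 | h4
  · exact (G1 x hx _ w om z y hc hr hY h4).mono (by linarith) (min_le_left _ _) (by nlinarith)
  · refine hs fun ε hε => ⟨z - x, hc.low hY h4, ?_⟩
    rw [(hc.far (hc.cone.bl (by linarith [cu1_ge β]))).Zf_eq]
    linarith

theorem Supp.grad {C δ B : ℝ} (h : Supp β v ρm x (rt β v ρm x) C δ B) (hδ : 0 < δ)
    (hd : DifferentiableAt ℝ (rt β v ρm) x) : ‖∇ (rt β v ρm) x‖ ≤ B := by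
  obtain ⟨p, -, h1, h2⟩ := h
  have h3 : HasFDerivAt (fun y => rt β v ρm x + (C * ‖y - x‖ ^ 2 - ⟪p, y - x⟫))
      (-innerSL ℝ p) x := by
    have a1 := (hasFDerivAt_id (𝕜 := ℝ) x).sub_const x
    refine (((a1.norm_sq.const_mul C).sub ((innerSL ℝ p).hasFDerivAt.comp x a1)).const_add _
      ).congr_fderiv ?_
    ext1 a; simp
  have h4 := fderiv_touch h3.differentiableAt hd (by simp)
    (mem_of_superset (closedBall_mem_nhds x hδ) fun y hy => by
      by_cases h0 : y = x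
      · simp [h0]
      · simpa using h2 (y - x) (mem_closedBall_iff_norm.1 hy) (sub_ne_zero.2 h0))
  rw [St.norm_grad, h4, h3.fderiv, norm_neg, innerSL_apply_norm]
  exact h1

theorem isOpen_val (hv : PS v) (M C2 ρm : ℝ) : IsOpen (Val v M C2 ρm) := by
  have hs := hv.toPos.toSol
  have h := ph0_pos hv.toPos hv.stab
  have h1 : Continuous (ph0 v) := (continuous_phi hs).max (continuous_phi (sol_ng hs))
  have h2 := hs.dd_sm.continuous.abs
  have h3 : Continuous fun x => Real.log (1 / ph0 v x) :=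
    (continuous_const.div h1 fun x => (h x).ne').log fun x => (one_div_pos.2 (h x)).ne'
  exact (isOpen_lt h1 continuous_const).and ((isOpen_lt h2 (continuous_const.mul h3)).and
    (isOpen_lt (by fun_prop) continuous_const))

end

end Crest.Agent.N067.M.X0

namespace Crest.Agent.N067.M

open Crest.Agent.R077 Crest.Agent.N067.V X0

/-- **block X0** -/
theorem x0 (n : ℕ) : X0Stmt n := fun C2 β => by
  obtain ⟨M, B, hM, hB, H⟩ := supp_val n C2
  refine ⟨M, B, hM, hB, fun v ρm hv => ?_⟩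
  obtain ⟨H1, H2⟩ := H β v ρm hv
  have hO := isOpen_val hv M C2 ρm
  refine ⟨hO, ?_, fun x hx => ⟨rt_le_rm _ _ _ _, (H1 x hx).sm.d, (H1 x hx).lo,
    fun r => fit_of_le_rt, (H1 x hx).sm.phi_mul_le (H1 x hx).fit, fun hd => ⟨?_, fun h => ?_⟩⟩⟩
  · have h1 : SC (Val v M C2 ρm) fun x => -rt β v ρm x := fun K h hK => by
      obtain ⟨C, δ, hC, hδ, G⟩ := H2 K h hK
      refine ⟨C, δ, hC, hδ, fun x hx => ?_⟩
      obtain ⟨p, a, -, b⟩ := G x hx
      refine ⟨p, a, fun y hy => ?_⟩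
      by_cases h0 : y = 0
      · simp [h0]
      · linarith [b y hy h0]
    have h2 := h1.comp1 hO (F := fun s => (-s)⁻¹) (J := Iio 0) isOpen_Iio
      (contDiffOn_id.neg.inv fun s hs => (neg_pos.2 hs).ne')
      (fun a _ b hb h => inv_anti₀ (neg_pos.2 hb) (neg_le_neg h))
      (fun x hx => neg_lt_zero.2 (show 0 < rt β v ρm x by linarith [(H1 x hx).sm.r8]))
    simp only [neg_neg] at h2
    exact h2
  · obtain ⟨C, δ, -, hδ, G⟩ := H2 {x} (singleton_subset_iff.2 hx) isCompact_singleton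
    exact (G x rfl).grad hδ hd
  · have h1 : IsLocalMax (rt β v ρm) x := Eventually.of_forall fun y => (rt_le_rm β v ρm y).trans_eq h.symm
    rw [gradient, h1.fderiv_eq_zero, map_zero]

end Crest.Agent.N067.M
end

-- ▼ part N067/F/Opp

/-! # Row 67, FLUX (helper94): OPP, the gap function on the opposite sheet -/

set_option autoImplicit false

open InnerProductSpace Set Metric
open scoped RealInnerProductSpace Gradient

namespace Crest.Agent.N067.M

open Crest.Agent.R077 Wd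

theorem opp (n : ℕ) : OppStmt n := by
  intro β T s s0
  obtain ⟨G, hG⟩ : ∃ G, G = s / 2 + T + 1 := ⟨_, rfl⟩
  refine ⟨4 * G + 32 * G ^ 2 / s, s / 16, by positivity,
    fun v x0 e f R l δ r ρm hv S T0 hl f1 f4 hδ hf y hy => ?_⟩
  have he := S.bot.unit
  obtain ⟨h, hh⟩ : ∃ h, h = ⟪e, y - x0⟫ := ⟨_, rfl⟩
  have y1 := abs_le.1 (hh ▸ hy.1 : |h - f| ≤ T)
  have y2 : ‖y - (x0 + f • e)‖ ≤ f := hy.2
  have g0 : 0 ≤ 32 * G ^ 2 / s := by positivity
  have e1 : ⟪-e, y - (x0 + f • e)⟫ = f - h := by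
    rw [← sub_sub, inner_neg_left, inner_sub_right, inner_smul_right, real_inner_self_eq_norm_sq,
      he, ← hh]; ring
  obtain ⟨a1, a2, a3⟩ := S.top.est y (by linarith) (by linarith) (by linarith)
  rw [e1] at a1
  have δ0 : 0 ≤ δ := (abs_nonneg _).trans a1
  have δ1 : δ * (4 * G) ≤ s / 16 := (mul_le_mul_of_nonneg_left (by linarith) δ0).trans hδ
  have δ2 : δ * 1 ≤ δ * G := mul_le_mul_of_nonneg_left (by linarith) δ0
  have δ3 : δ ≤ 1 / 2 := by nlinarith only [δ1, hG, δ0, T0, s0]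
  have N0 : 0 < NN v y := NN_pos (by linarith)
  have a4 := abs_le.1 a1
  have b0 := β.h0
  have b1 : β.h ≤ 1 / 100 := by linarith [β.h1, β.η1]
  have r0 : 0 ≤ r := by nlinarith only [hf, f1, g0, hG, s0, T0, b0, b1]
  have r1 : f ≤ 2 * r + s / 16 := by linarith [mul_nonneg b0.le r0]
  obtain ⟨a5, -⟩ := S.bot.est (y - h • e) (by
    have := norm_add_le (y - (x0 + f • e)) ((f - h) • e)
    rw [norm_smul, he, Real.norm_eq_abs, abs_sub_comm,
      show y - (x0 + f • e) + (f - h) • e = y - h • e - x0 by module] at this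
    linarith [hh ▸ hy.1]) (by
      rw [sub_right_comm, inner_sub_right, inner_smul_right, real_inner_self_eq_norm_sq, he, ← hh]
      linarith) (by
      rw [sub_right_comm, inner_sub_right, inner_smul_right, real_inner_self_eq_norm_sq, he, ← hh]
      linarith)
  rw [sub_right_comm, inner_sub_right, inner_smul_right, real_inner_self_eq_norm_sq, he, ← hh] at a5
  have a6 : ‖nu v y - -e‖ ≤ 2 * δ := by
    have := norm_sub_le_norm_sub_add_norm_sub (nu v y) (nn v y) (-e)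
    rw [norm_sub_rev (nu v y) (nn v y)] at this
    linarith [norm_nn_sub_nu hv N0]
  have a7 : |s / 2 - dd v y| ≤ G := abs_le.2 ⟨by linarith, by linarith⟩
  refine rt_le_axis (p := y - h • e) (f := f) (A := 7 * (s / 16)) (m := s / 2) hv ρm N0
    (abs_lt.2 ⟨by linarith, by linarith⟩) ?_ (by linarith)
    (by linarith [mul_le_mul_of_nonneg_right b1 s0.le])
    (by nlinarith only [β.η1, r0, s0]) ?_
  · rw [show y - h • e - (bs v y + f • nu v y) =
      (dd v y - f) • (nu v y - -e) + (f - h - dd v y) • e by rw [bs]; module]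
    refine (norm_add_le _ _).trans ?_
    rw [norm_smul, norm_smul, he, Real.norm_eq_abs, Real.norm_eq_abs, abs_sub_comm (f - h)]
    linarith [mul_le_mul (show |dd v y - f| ≤ 3 * f from abs_le.2 ⟨by linarith, by linarith⟩) a6
      (norm_nonneg _) (by linarith)]
  · have c1 : tt v y * |s / 2 - dd v y| ≤ δ * G := mul_le_mul a3 a7 (abs_nonneg _) δ0
    have c2 : (s / 2 - dd v y) ^ 2 / (2 * (r + s - dd v y)) ≤ s / 16 := by
      have c3 : 32 * G ^ 2 / s ≤ 2 * (r + s - dd v y) := by linarith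
      rw [div_le_iff₀ s0] at c3
      rw [div_le_iff₀ (by linarith)]
      linarith [sq_le_sq' (abs_le.1 a7).1 (abs_le.1 a7).2, sq_nonneg G]
    linarith [(abs_le.1 a5).2]

end Crest.Agent.N067.M
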