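import Crest.Agent.N067.F.Cap
import Crest.Agent.N067.M.Col
import Crest.Agent.N067.F.Bot
import Crest.Agent.N067.F.SrcS

-- ▼ part N067/F/Col46
section

/-! # Row 67, FLUX, case F: sharp comparison of `rt` on the column (helper46) -/

set_option autoImplicit false
set_option linter.unusedVariables false

open InnerProductSpace Set Metric Topology Filter
open scoped RealInnerProductSpace Gradient

namespace Crest.Agent.N067.M

open Crest.Agent.R077 Crest.Agent.N067.V Crest.Agent.N067.M.Wd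

variable {n : ℕ} {β : Bo} {v : EE n → ℝ}

/-- the same competitor, explicit smallness -/
theorem col_same (hv : Sol v) {ρm ε C r s θ τ B G : ℝ} {x g w om z y : EE n}
    (ct : Ct β v ρm ε C x g w om z) (hr : rt β v ρm x = r) (h8 : 8 * |dd v x| + 8 ≤ r)
    (N0 : 0 < NN v x) (N1 : 0 < NN v y) (hτ : ‖om - nu v x‖ ≤ τ) (hτ' : τ < √(β.η * β.h) / 10)
    (hθ : ‖nu v y - nu v x‖ ≤ θ) (hθ' : θ ≤ √(β.η * β.h) / 10) (s0 : 0 < s) (s1 : s ≤ 1)
    (hb : ‖bs v y - bs v x‖ ≤ B) (hb' : -(s / 8) ≤ ⟪bs v y - bs v x, om⟫) (h1 : 2 * r * θ ≤ s / 8)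
    (h2 : 8 * (B + 7) ^ 2 ≤ s * r) (hG : |r - NN v z / NN v x * (r - dd v x)| ≤ G)
    (hx : |dd v x| ≤ G) (hy : |dd v y| ≤ G) (hyr : 2 * G + 2 ≤ r) (tx : tt v x * G ≤ s / 16)
    (ty : tt v y * (2 * G + 2) ≤ s / 8) (h3 : 8 * (2 * G + 2) ^ 2 ≤ s * r) :
    rt β v ρm y ≤ r + s := by
  have η0 := β.η0
  have η1 := β.η1
  have b0 := β.h0
  have b1 := β.h1
  have d0 := abs_le.1 (le_refl |dd v x|)
  have r0 : 0 < r := by linarith [abs_nonneg (dd v x)]
  have hν := norm_nu N0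
  have hν' := norm_nu N1
  have ho := ct.unit
  have hw := ct.cap (hτ.trans_lt hτ')
  have hpos := ct.pos
  have e1 := ct_dd ct N0 (hr ▸ h8)
  rw [hr] at hpos e1
  have σ2 : 3 / 4 ≤ NN v z / NN v x := by rw [le_div_iff₀ N0]; exact ct.sig
  generalize NN v z / NN v x = σ at *
  obtain ⟨L, hL⟩ : ∃ L, L = r - dd v x := ⟨_, rfl⟩
  rw [← hL] at hpos e1 hG
  have L1 : 7 / 8 * r ≤ L := by linarith
  have l0 : r / 2 ≤ σ * L - β.η * r := by nlinarith only [L1, σ2, η1, r0]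
  have g0 := abs_le.1 hG
  have x0 := abs_le.1 hx
  have y0 := abs_le.1 hy
  have e5 : dd v z ≤ r - σ * L + s / 8 := by
    have a1 : dd v z = dd v x + (1 - σ) * L - (1 - NN v x) * ((1 - σ) * L) -
        NN v x * L * (1 - σ) ^ 2 / 2 := by rw [e1]; ring
    have a2 : -((1 - σ) * L) ≤ 2 * G := by linarith
    have a3 := mul_le_mul_of_nonneg_left a2 (sub_nonneg.2 (NN_le hv x))
    have a4 := mul_le_mul_of_nonneg_right (one_sub_NN hv x) (show 0 ≤ 2 * G by linarith)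
    have a5 : 0 ≤ NN v x * L * (1 - σ) ^ 2 := mul_nonneg (mul_nonneg N0.le (by linarith))
      (sq_nonneg _)
    linarith
  have hk : ‖om - nu v y‖ ≤ √(β.η * β.h) / 5 := by
    have := norm_sub_le_norm_sub_add_norm_sub om (nu v x) (nu v y)
    rw [norm_sub_rev (nu v x)] at this
    linarith
  obtain ⟨E, hE⟩ : ∃ E, E = -(bs v y - bs v x) -
      s • ((3 + β.η - β.h) • om - (2 : ℝ) • nu v y) + (2 * r) • (nu v y - nu v x) := ⟨_, rfl⟩
  have e7 : z - cen v y (r + s) ((3 + β.η - β.h) • om - (3 : ℝ) • nu v y) =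
      (σ * L - β.η * r) • om + E := by
    rw [hE, hpos, cen_eq, cen_eq, hw]; module
  have n1 : ‖(2 * r) • (nu v y - nu v x)‖ ≤ s / 8 := by
    rw [norm_smul, Real.norm_of_nonneg (by linarith)]
    exact (mul_le_mul_of_nonneg_left hθ (by linarith)).trans h1
  have e8 : ‖E‖ ≤ B + 7 := by
    have a1 : ‖(3 + β.η - β.h) • om - (2 : ℝ) • nu v y‖ ≤ 6 := by
      refine (norm_sub_le _ _).trans ?_
      rw [norm_smul, norm_smul, ho, hν', Real.norm_of_nonneg (by linarith), Real.norm_two]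
      linarith
    have a2 : ‖s • ((3 + β.η - β.h) • om - (2 : ℝ) • nu v y)‖ ≤ 1 * 6 := by
      rw [norm_smul, Real.norm_of_nonneg s0.le]
      exact mul_le_mul s1 a1 (norm_nonneg _) zero_le_one
    rw [hE]
    refine (norm_add_le _ _).trans ((add_le_add_left (norm_sub_le _ _) _).trans ?_)
    rw [norm_neg]
    linarith
  have e9 : ⟪E, om⟫ ≤ s / 4 - s * (1 + β.η - β.h) := by
    have a2 := abs_le.1 (abs_inner_le hν'.le ho)
    have a3 := abs_le.1 (abs_inner_le n1 ho)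
    rw [hE, inner_add_left, inner_sub_left (-(bs v y - bs v x)), inner_neg_left,
      real_inner_smul_left, inner_sub_left ((3 + β.η - β.h) • om), real_inner_smul_left,
      real_inner_smul_left, real_inner_self_eq_norm_sq, ho]
    linarith [mul_le_mul_of_nonneg_left a2.2 s0.le]
  have e10 : ‖E‖ ^ 2 / (2 * (σ * L - β.η * r)) ≤ s / 8 := by
    rw [div_le_iff₀ (by linarith)]
    linarith [pow_le_pow_left₀ (norm_nonneg _) e8 2, mul_le_mul_of_nonneg_left l0 s0.le]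
  refine test (m := r - σ * L + s) (r := r + s) hv ρm (cap_core ho hν' hk) (by linarith) (z := z)
    ?_ ?_
  · rw [e7]
    have a1 := norm_far_le (E := E) ho (show 0 < σ * L - β.η * r by linarith)
    have a2 := mul_le_mul_of_nonneg_left (show β.h ≤ 1 / 100 by linarith) s0.le
    linarith
  · have a0 : |r - σ * L + s - dd v y| ≤ 2 * G + 2 := abs_le.2 ⟨by linarith, by linarith⟩
    have a1 := mul_le_mul_of_nonneg_left a0 (hv.tt_nonneg y)
    have a2 : (r - σ * L + s - dd v y) ^ 2 / (2 * (r + s - dd v y)) ≤ s / 8 := by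
      rw [div_le_iff₀ (by linarith), ← sq_abs]
      linarith [pow_le_pow_left₀ (abs_nonneg _) a0 2,
        mul_le_mul_of_nonneg_left (show r / 2 ≤ r + s - dd v y by linarith) s0.le]
    linarith

/-- **COL** -/
theorem colS (n : ℕ) : ColStmt n := by
  intro β C K C2 A e he
  obtain ⟨s, s0, s1, s2⟩ : ∃ s : ℝ, 0 < s ∧ s ≤ 1 ∧ s ≤ e :=
    ⟨min 1 e, lt_min one_pos he, min_le_left _ _, min_le_right _ _⟩
  obtain ⟨k, hk, k0⟩ : ∃ k, k = √(β.η * β.h) ∧ 0 < k :=
    ⟨_, rfl, Real.sqrt_pos.2 (mul_pos β.η0 β.h0)⟩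
  have A0 := abs_nonneg A
  have K0 := abs_nonneg K
  obtain ⟨τ, τ0, τ1, τ2⟩ : ∃ τ : ℝ, 0 < τ ∧ τ ≤ k / 20 ∧ τ * (2 * |A| + 3) ≤ s / 16 :=
    ⟨min (k / 20) (s / 16 / (2 * |A| + 3)), by positivity, min_le_left _ _,
      (le_div_iff₀ (by positivity)).1 (min_le_right _ _)⟩
  obtain ⟨Cs, hc⟩ := cap n β C K C2 τ τ0
  obtain ⟨γ, h1, h2, h⟩ := cap_height n C C2
  refine ⟨max Cs (3 * γ + |A|), fun C3 h3 => ?_⟩
  have c1 := (le_max_left _ _).trans h3
  have c2 := (le_max_right _ _).trans h3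
  obtain ⟨M1, m1, hc⟩ := hc C3 c1
  obtain ⟨M2, m2, h⟩ := h K C3 (by linarith)
  obtain ⟨Q, hQ⟩ : ∃ Q, Q = γ + |A| + 5 := ⟨_, rfl⟩
  obtain ⟨M3, m3, h'⟩ := exists_num n C2 ((1000 * Q ^ 2 + 100 * |K|) / s + 40 / k)
  refine ⟨max M1 (max M2 M3), le_max_of_le_left m1, fun v ρm ε x x0 g w om z G B ct y hy => ?_⟩
  have a1 := hc v ρm ε x x0 g w om z
    { G with val := Val_mono (by linarith) (le_max_left _ _) G.val } B ct
  have a2 := (h β v ρm ε x x0 g w om z { G with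
    val := Val_mono (by linarith) (le_max_of_le_right (le_max_left _ _)) G.val } B ct).2.2.2.1
  obtain ⟨hp, l1, big, dl, lo, hi, hN, ht, tilt, base, -, -⟩ := h' β v ρm K C3 x x0 (by linarith)
    { G with val := Val_mono (by linarith) (le_max_of_le_right (le_max_right _ _)) G.val } B
  have hv : Sol v := G.ps.toPos.toSol
  have p1 : ph0 v x * (1 / ph0 v x) = 1 := mul_one_div_cancel hp.ne'
  have sh := B.sh
  have he0 := sh.unit
  have h8 := G.dep
  obtain ⟨r, hr⟩ : ∃ r, rt β v ρm x = r := ⟨_, rfl⟩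
  rw [hr] at h8 lo hi a2 ⊢
  clear h h' hc
  generalize lg v x = l at *
  generalize 1 / ph0 v x = ρ at *
  generalize ph0 v x = p at *
  have l2 : 1 ≤ l ^ 2 := one_le_pow₀ l1
  have Q1 : 1 ≤ Q * l := one_le_mul_of_one_le_of_one_le (by linarith) l1
  have Q2 : Q * l ≤ (Q * l) ^ 2 := le_self_pow₀ Q1 two_ne_zero
  have Q3 : Q ≤ Q * l := le_mul_of_one_le_right (by linarith) l1
  have u0 : 0 ≤ (1000 * Q ^ 2 + 100 * |K|) / s := by positivity
  have u1 : 0 ≤ 40 / k := by positivity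
  have b1 : 1000 * (Q * l) ^ 2 + 100 * |K| ≤ s * ρ := by
    have : (1000 * Q ^ 2 + 100 * |K|) / s * l ^ 2 ≤ ρ := by
      linarith [mul_nonneg u1 (sq_nonneg l)]
    rw [div_mul_eq_mul_div, div_le_iff₀ s0] at this
    linarith [le_mul_of_one_le_right K0 l2]
  have b2 : 40 ≤ k * ρ := by
    have : 40 / k ≤ ρ := by
      linarith [mul_nonneg u0 (sq_nonneg l), le_mul_of_one_le_right u1 l2]
    rwa [div_le_iff₀' k0] at this
  have ρ0 : 0 < ρ := by
    by_contra h'
    linarith [mul_nonneg k0.le (neg_nonneg.2 (not_lt.1 h'))]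
  have b3 := mul_le_of_le_one_left ρ0.le s1
  have sc : ∀ a b, a ≤ b * ρ → p * a ≤ b := fun a b h => by
    have := mul_le_mul_of_nonneg_left h hp.le
    rwa [mul_left_comm, p1, mul_one] at this
  have p2 : p * (1000 * (Q * l) + 100 * |K|) ≤ s := sc _ _ (by linarith)
  have p3 : p * 40 ≤ k := sc _ _ b2
  have p4 := mul_le_mul_of_nonneg_left Q1 hp.le
  have p5 := mul_nonneg hp.le K0
  have p6 : p ^ 2 ≤ p := pow_le_of_le_one hp.le (by linarith) two_ne_zero
  have p7 : p ^ 5 ≤ p ^ 2 := pow_le_pow_of_le_one hp.le (by linarith) (by norm_num)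
  have p8 : p ^ 5 * r ≤ p * |K| := by
    have := mul_le_mul_of_nonneg_left (sc r |K| hi) hp.le
    linarith [mul_le_mul_of_nonneg_right p7 (show 0 ≤ r by linarith [abs_nonneg (dd v x)])]
  have y1 : ‖y - x0‖ ≤ |A| := hy.trans (le_abs_self A)
  have y2 : |⟪nu v x0, y - x0⟫| ≤ |A| := by rw [real_inner_comm]; exact abs_inner_le y1 he0
  have y3 := abs_le.1 y2
  have c3 : |A| ≤ C3 * l := le_trans (by linarith) (le_mul_of_one_le_right (by linarith) l1)
  have y4 : ‖y - x0‖ ≤ ρ ^ 2 := le_trans (by linarith) (le_self_pow₀ (by linarith) two_ne_zero)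
  obtain ⟨k1, k2, k3⟩ := sh.nu_bs hv (by linarith) y4 (by linarith) (by linarith)
  obtain ⟨k4, -, k5⟩ := sh.est y y4 (by linarith) (by linarith)
  have y5 : |dd v y| ≤ |A| + 1 := by
    linarith [abs_sub_abs_le_abs_sub (dd v y) ⟪nu v x0, y - x0⟫]
  have y6 : ‖bs v y - x0‖ ≤ 2 * |A| + 1 := by
    rw [bs, show y - dd v y • nu v y - x0 = (y - x0) - dd v y • nu v y by abel]
    refine (norm_sub_le _ _).trans ?_
    rw [norm_smul, norm_nu (show 0 < NN v y by linarith), mul_one, Real.norm_eq_abs]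
    linarith
  have y7 : ‖nu v y - nu v x‖ ≤ 4 * p ^ 5 := by
    have := norm_sub_le_norm_sub_add_norm_sub (nu v y) (nu v x0) (nu v x)
    rw [norm_sub_rev (nu v x0)] at this
    linarith
  have y8 : ‖bs v y - bs v x‖ ≤ 2 * |A| + 2 := by
    have := norm_sub_le_norm_sub_add_norm_sub (bs v y) x0 (bs v x)
    rw [norm_sub_rev x0] at this
    linarith
  have q1 := mul_le_mul_of_nonneg_left Q3 hp.le
  have q2 : p ^ 5 * |A| ≤ p * Q := mul_le_mul (p7.trans p6) (by linarith) A0 hp.le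
  have y9 : -(s / 8) ≤ ⟪bs v y - bs v x, om⟫ := by
    have e1 : ⟪bs v y - bs v x, om⟫ = ⟪nu v x0, bs v y - x0⟫ + ⟪bs v y - x0, om - nu v x⟫ +
        ⟪bs v y - x0, nu v x - nu v x0⟫ - ⟪bs v x - x0, om⟫ := by
      rw [real_inner_comm (bs v y - x0), ← inner_add_right, ← inner_add_right,
        show nu v x0 + (om - nu v x) + (nu v x - nu v x0) = om by abel, ← inner_sub_left,
        sub_sub_sub_cancel_right]
    have f1 := abs_le.1 ((abs_real_inner_le_norm (bs v y - x0) (om - nu v x)).trans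
      (mul_le_mul y6 a1 (norm_nonneg _) (by linarith)))
    have f2 := abs_le.1 ((abs_real_inner_le_norm (bs v y - x0) (nu v x - nu v x0)).trans
      (mul_le_mul y6 tilt (norm_nonneg _) (by linarith)))
    have f3 := abs_le.1 (abs_inner_le base ct.unit)
    have f4 := mul_le_mul_of_nonneg_left y5 (show 0 ≤ p ^ 5 by positivity)
    linarith [(abs_le.1 k3).1]
  have γl : γ * l ≤ Q * l := mul_le_mul_of_nonneg_right (by linarith) (by linarith)
  have cl : |C2| * l ≤ Q * l := mul_le_mul_of_nonneg_right (by linarith) (by linarith)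
  have sr := mul_le_mul_of_nonneg_left lo s0.le
  have g1 : (2 * |A| + 2 + 7) ^ 2 ≤ (2 * (Q * l)) ^ 2 :=
    pow_le_pow_left₀ (by linarith) (by linarith) 2
  have g2 : (2 * (Q * l) + 2) ^ 2 ≤ (4 * (Q * l)) ^ 2 :=
    pow_le_pow_left₀ (by linarith) (by linarith) 2
  refine (col_same (G := Q * l) hv ct hr h8 (by linarith) (by linarith) a1 (by linarith) y7
    (by linarith) s0 s1 y8 y9 (by linarith) (by linarith) (by linarith) (by linarith)
    (by linarith) (by linarith) ?_ ?_ (by linarith)).trans (by linarith)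
  · linarith [mul_le_mul_of_nonneg_right (ht.trans (p7.trans p6)) (show 0 ≤ Q * l by linarith)]
  · linarith [mul_le_mul_of_nonneg_right (k5.trans (p7.trans p6))
      (show 0 ≤ 2 * (Q * l) + 2 by linarith)]

end Crest.Agent.N067.M
end

-- ▼ part N067/F/Tops0
section

/-! # Row 67, FLUX, case F (helper10): the slab at the `+` cut, preparations -/

set_option autoImplicit false
set_option linter.unusedVariables false

open InnerProductSpace Set Metric Topology Filter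
open scoped RealInnerProductSpace Gradient

namespace Crest.Agent.N067.M.Pn

open Crest.Agent.R077 Crest.Agent.N067.V Crest.Agent.N067.M.Wd

variable {n : ℕ} {v : EE n → ℝ} {β : Bo} {ρm ε C : ℝ} {x g w om z : EE n}

theorem ct_low (hv : Sol v) (hc : Ct β v ρm ε C x g w om z) (hN : 1 / 2 ≤ NN v x)
    (h8 : 8 * |dd v x| + 8 ≤ rt β v ρm x) {δ : ℝ} (ht : tt v x ≤ δ) :
    dd v x - 3 * (rt β v ρm x * δ) ≤ dd v z := by
  have hN0 : 0 < NN v x := by linarith
  have h1 := ct_dd hc hN0 h8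
  have h2 := ct_tt hN0 z
  have h3 := abs_le.1 (le_refl |dd v x|)
  have h4 := abs_nonneg (dd v x)
  have t1 := hv.tt_nonneg x
  have t2 := hv.tt_nonneg z
  generalize 1 - (NN v z / NN v x) ^ 2 = a at *
  generalize rt β v ρm x = r at *
  have a1 : -(2 * δ) ≤ NN v x * a := by
    by_contra h
    nlinarith
  have a2 := mul_le_mul_of_nonneg_left a1 (by linarith : 0 ≤ r - dd v x)
  have a3 := mul_le_mul_of_nonneg_right (by linarith : r - dd v x ≤ 3 * r) (by linarith : 0 ≤ δ)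
  nlinarith

theorem ct_seg (hc : Ct β v ρm ε C x g w om z) (hf : Fit β v x (rt β v ρm x))
    (h8 : 8 * |dd v x| + 8 ≤ rt β v ρm x) {p : EE n}
    (hp : p ∈ segment ℝ (cen v x (rt β v ρm x) w) z) : dd v z ≤ dd v p := by
  have h3 := le_abs_self (dd v x)
  have h4 := abs_nonneg (dd v x)
  have h1 : ‖p - cen v x (rt β v ρm x) w‖ ≤ ‖z - cen v x (rt β v ρm x) w‖ :=
    mem_closedBall_iff_norm.1 ((convex_closedBall _ _).segment_subset
      (mem_closedBall_self (norm_nonneg _)) (mem_closedBall_iff_norm.2 le_rfl) hp)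
  refine le_trans ?_ (hf w hc.mem p)
  rw [hc.eq, PP, PP]
  exact add_le_add_right (gp_anti (NN_nonneg v x) (by linarith)
    (add_nonneg (norm_nonneg _) (mul_nonneg β.η0.le (by linarith))) (by linarith)) _

theorem ct_dist (hv : Sol v) (hc : Ct β v ρm ε C x g w om z) (hN : 1 / 2 ≤ NN v x)
    (h8 : 8 * |dd v x| + 8 ≤ rt β v ρm x) : ‖z - bs v x‖ ≤ 5 * rt β v ρm x := by
  have hN0 : 0 < NN v x := by linarith
  have h3 := abs_le.1 (le_refl |dd v x|)
  have h4 := abs_nonneg (dd v x)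
  have h1 := norm_top (β := β) (b := bs v x) (norm_nu hN0) hc.unit hc.mem
    (by linarith : 0 ≤ rt β v ρm x)
  rw [ct_top hc] at h1
  have s0 : 0 ≤ NN v z / NN v x := div_nonneg (NN_nonneg v z) hN0.le
  have s1 : NN v z / NN v x ≤ 2 := by rw [div_le_iff₀ hN0]; linarith [NN_le hv z]
  generalize NN v z / NN v x = σ at *
  generalize rt β v ρm x = r at *
  have h2 : ‖(r - σ * (r - dd v x)) • om‖ ≤ 3 * r := by
    rw [norm_smul, hc.unit, mul_one, Real.norm_eq_abs, abs_le]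
    constructor <;> nlinarith
  have := norm_sub_le (z + (r - σ * (r - dd v x)) • om - bs v x) ((r - σ * (r - dd v x)) • om)
  rw [add_sub_right_comm, add_sub_cancel_right] at this
  rw [add_sub_right_comm] at h1
  linarith

theorem ct_pos (hv : Sol v) (hc : Ct β v ρm ε C x g w om z) (hN : 1 / 2 ≤ NN v x)
    (h8 : 8 * |dd v x| + 8 ≤ rt β v ρm x) {δ : ℝ} {e : EE n} (h1 : ‖nn v z - -e‖ ≤ δ)
    (h2 : tt v z ≤ δ) (h3 : tt v x ≤ δ) (h4 : ‖nu v x - e‖ ≤ 2 * δ)
    (h5 : 4 * δ < √(β.η * β.h) / 10) :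
    ‖om - nu v x‖ ≤ 4 * δ ∧ |dd v z - dd v x| ≤ 3 * (rt β v ρm x * δ) ∧
      ‖z - (bs v x + ((2 - β.h) * rt β v ρm x - dd v x) • nu v x)‖ ≤ 22 * (rt β v ρm x * δ) := by
  have hN0 : 0 < NN v x := by linarith
  have k1 := ct_dd hc hN0 h8
  have k2 := ct_tt hN0 z
  have k3 := abs_le.1 (le_refl |dd v x|)
  have k4 := abs_nonneg (dd v x)
  have t1 := hv.tt_nonneg x
  have t2 := hv.tt_nonneg z
  have hδ : 0 ≤ δ := t1.trans h3
  have a1 : ‖om - nu v x‖ ≤ 4 * δ := by
    have b1 : om - nu v x = (1 - NN v z) • om - (nn v z - -e) - (nu v x - e) := by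
      rw [hc.grad]; module
    have b2 : ‖(1 - NN v z) • om‖ ≤ δ := by
      rw [norm_smul, hc.unit, mul_one, Real.norm_of_nonneg (by linarith [NN_le hv z])]
      linarith [one_sub_NN hv z]
    rw [b1]
    linarith [norm_sub_le ((1 - NN v z) • om - (nn v z - -e)) (nu v x - e),
      norm_sub_le ((1 - NN v z) • om) (nn v z - -e)]
  have k5 := ct_top hc
  have k6 := top_cap (β := β) (b := bs v x) (ν := nu v x) (om := om)
    (by linarith : 0 ≤ rt β v ρm x)
  rw [← hc.cap (by linarith), k5] at k6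
  have s0 : 0 ≤ NN v z / NN v x := div_nonneg (NN_nonneg v z) hN0.le
  have hN1 := NN_le hv x
  generalize NN v z / NN v x = σ at *
  generalize rt β v ρm x = r at *
  have a2 : |1 - σ ^ 2| ≤ 4 * δ := by
    have b1 : |NN v x ^ 2 * (1 - σ ^ 2)| ≤ δ := abs_le.2 ⟨by linarith, by linarith⟩
    rw [abs_mul, abs_of_nonneg (sq_nonneg _)] at b1
    nlinarith [abs_nonneg (1 - σ ^ 2), mul_le_mul_of_nonneg_right
      (show 1 / 4 ≤ NN v x ^ 2 by nlinarith) (abs_nonneg (1 - σ ^ 2))]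
  have a3 : |1 - σ| ≤ 4 * δ := by
    rw [show 1 - σ ^ 2 = (1 - σ) * (1 + σ) by ring, abs_mul, abs_of_nonneg (by linarith : 0 ≤ 1 + σ)]
      at a2
    nlinarith [abs_nonneg (1 - σ)]
  have hL0 : 0 ≤ r - dd v x := by linarith
  have hL1 : r - dd v x ≤ 9 / 8 * r := by linarith
  refine ⟨a1, ?_, ?_⟩
  · rw [k1, add_sub_cancel_left, abs_div, abs_mul, abs_mul, abs_of_pos hN0, abs_of_nonneg hL0,
      abs_two]
    have := mul_le_mul (mul_le_mul hN1 hL1 hL0 zero_le_one) a2 (abs_nonneg _) (by linarith)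
    nlinarith
  · rw [show z - (bs v x + ((2 - β.h) * r - dd v x) • nu v x) =
      (z + (r - σ * (r - dd v x)) • om - (bs v x + ((2 - β.h) * r) • nu v x)) -
        dd v x • (om - nu v x) - ((1 - σ) * (r - dd v x)) • om by module]
    have b1 : ‖dd v x • (om - nu v x)‖ ≤ r / 8 * (4 * δ) := by
      rw [norm_smul, Real.norm_eq_abs]
      exact mul_le_mul (by linarith) a1 (norm_nonneg _) (by linarith)
    have b2 : ‖((1 - σ) * (r - dd v x)) • om‖ ≤ 4 * δ * (9 / 8 * r) := by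
      rw [norm_smul, hc.unit, mul_one, Real.norm_eq_abs, abs_mul, abs_of_nonneg hL0]
      exact mul_le_mul a3 hL1 hL0 (by linarith)
    have b3 := mul_le_mul_of_nonneg_left a1 (by linarith : 0 ≤ 4 * r)
    have b4 := mul_nonneg (by linarith : 0 ≤ r) hδ
    refine (norm_sub_le _ _).trans ((add_le_add_left (norm_sub_le _ _) _).trans ?_)
    linarith

/-- the top sheet and the middle of the slab -/
theorem top_of (n : ℕ) : ∃ S0 C : ℝ, 2 ≤ S0 ∧ 1 ≤ C ∧ ∀ (v : EE n → ℝ) (x0 e : EE n)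
    (S ε R f l L δ : ℝ), Par v S ε (3 * R) x0 e → S0 ≤ S → 0 ≤ l → 0 ≤ L →
    v (x0 + f • e) = 0 → (∀ s, 1 / 4 ≤ s → s < f → 0 < v (x0 + s • e)) → f ≤ R →
    42 * l + 20 * L + S + 3 ≤ f → C * (ε + Real.exp (-L)) ≤ δ →
    Sheet v (x0 + f • e) (-e) R S l δ ∧
      (∀ y, ‖y - x0‖ ≤ 3 * R → 1 / 2 ≤ ⟪e, y - x0⟫ → ⟪e, y - x0⟫ ≤ f - 1 / 2 → 0 < v y) ∧
      ∀ y, ‖y - x0‖ ≤ 6 * R → ⟪e, y - x0⟫ = f + 1 → dd v y < 0 := by
  obtain ⟨S0, C, hS0, hC, H⟩ := sheet_of n
  refine ⟨S0, C, hS0, hC, fun v x0 e S ε R f l L δ P hS hl hL h0 hax hf hH hδ => ?_⟩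
  have he := P.unit
  have e1 := P.e1
  have hmid : ∀ y, ‖y - x0‖ ≤ 3 * R → 1 / 2 ≤ ⟪e, y - x0⟫ → ⟪e, y - x0⟫ ≤ f - 1 / 2 → 0 < v y :=
    fun y a1 a2 a3 => P.pos (by linarith) (c := 1 / 4) (s1 := 1 / 4) (s2 := f - 1 / 4)
      (by linarith) (by norm_num) (fun s b1 b2 => hax s b1 (by linarith))
      (mem_closedBall_iff_norm.2 a1) (by linarith) (by linarith)
  have hh : ⟪e, x0 + f • e - x0⟫ = f := by rw [axis_in he]; simp
  have hd := P.down (by linarith) (axis_ball he x0 (r := 3 * R)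
    (by rw [abs_of_nonneg (by linarith)]; linarith)) h0 (c := 1 / 4) (by linarith) (by norm_num)
    (by rw [hh]; exact (hax _ (by linarith) (by linarith)).le)
  have hsp : ∀ y, ⟪e, y - (x0 + f • e)⟫ = ⟪e, y - x0⟫ - f := fun y => by
    rw [← sub_sub, inner_sub_right _ (y - x0), real_inner_smul_right, real_inner_self_eq_norm_sq,
      he]; ring
  have hn : ∀ y, ‖y - x0‖ ≤ ‖y - (x0 + f • e)‖ + f := fun y => by
    have := norm_sub_le_norm_sub_add_norm_sub y (x0 + f • e) x0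
    rwa [add_sub_cancel_left, norm_smul, he, mul_one, Real.norm_of_nonneg (by linarith)] at this
  refine ⟨H v P.sol _ (-e) S ε R l L δ (by rw [norm_neg, he]) hS P.e0 hl hL
    (fun y a1 a2 => ?_) (fun y a1 a2 a3 => ?_) hδ, hmid, fun y a1 a2 => ?_⟩
  · rw [inner_neg_left, abs_neg] at a2
    obtain ⟨q1, q2, -⟩ := hd y (mem_closedBall_iff_norm.2 (by linarith [hn y])) a2
    rw [inner_neg_left, sub_neg_eq_add, sub_neg_eq_add]
    exact ⟨q1, q2⟩
  · rw [inner_neg_left, hsp] at a2 a3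
    exact hmid y (by linarith [hn y]) (by linarith) (by linarith)
  · have := (hd y (mem_closedBall_iff_norm.2 (by linarith))
      (by rw [hsp, a2, add_sub_cancel_left, abs_one]; linarith)).1
    rw [hsp, a2, add_sub_cancel_left] at this
    linarith [abs_le.1 this]

end Crest.Agent.N067.M.Pn
end

-- ▼ part N067/F/Tops

/-! # Row 67, FLUX, case F (helper10): the slab at the `+` cut -/

set_option autoImplicit false
set_option linter.unusedVariables false

open InnerProductSpace Set Metric Topology Filter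
open scoped RealInnerProductSpace Gradient

namespace Crest.Agent.N067.M

open Crest.Agent.R077 Crest.Agent.N067.V Crest.Agent.N067.M.Wd Crest.Agent.N067.M.Pn

/-- the zero near the contact point is high -/
def CapH (n : ℕ) : Prop := ∀ (β : Bo) (C K C2 : ℝ), ∃ g : ℝ, 1 ≤ g ∧ ∀ C3, 3 * g ≤ C3 →
  ∃ M : ℝ, 1 ≤ M ∧ ∀ (v : EE n → ℝ) (ρm ε : ℝ) (x x0 g' w om z : EE n), Geo β v ρm M C2 K x →
    Bot v C3 x x0 → Ct β v ρm ε C x g' w om z → ∃ z0, v z0 = 0 ∧ ‖z0 - z‖ ≤ g * lg v x ∧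
      (2 - β.h) * rt β v ρm x - 3 ≤ ⟪nu v x0, z0 - x0⟫

theorem Pn.deep_num {d t r u l : ℝ} (hu : 0 < u) (hd : |d| + 1 ≤ l) (ht0 : 0 ≤ t) (ht : t ≤ u)
    (h8 : 8 * |d| + 8 ≤ r) (hr : 1 / (2 * u) ≤ r) (h : 32 * l ^ 2 * u ≤ 1) :
    0 < 1 / 8 - t * |1 / 8 - d| - (1 / 8 - d) ^ 2 / (2 * (r - d)) := by
  have h0 := abs_nonneg d
  have h1 := le_abs_self d
  have a1 : |1 / 8 - d| ≤ l := (abs_sub _ _).trans (by rw [abs_of_pos (by norm_num)]; linarith)
  have a2 : (1 / 8 - d) ^ 2 ≤ l ^ 2 := sq_le_sq' (abs_le.1 a1).1 (abs_le.1 a1).2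
  have a3 : t * |1 / 8 - d| ≤ u * l ^ 2 := mul_le_mul ht (by nlinarith) (abs_nonneg _) hu.le
  have a4 : (1 / 8 - d) ^ 2 / (2 * (r - d)) ≤ 2 * l ^ 2 * u := by
    rw [div_le_iff₀ (by linarith)]
    rw [div_le_iff₀ (by positivity)] at hr
    have a5 := mul_le_mul_of_nonneg_left (show r ≤ 2 * (r - d) by linarith) hu.le
    have a6 := mul_le_mul_of_nonneg_left (show 1 ≤ 2 * (u * (2 * (r - d))) by linarith)
      (sq_nonneg l)
    linarith
  linarith

set_option maxHeartbeats 1600000 in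
theorem tops_of {n : ℕ} (hcap : CapH n) : TopsStmt n := by
  intro β C K C2 T e he0
  obtain ⟨g, hg, hcap⟩ := hcap β C K C2
  obtain ⟨S0, C0, hS0, hC0, H⟩ := top_of n
  have pT := abs_nonneg T
  have pK := abs_nonneg K
  have p2 := abs_nonneg C2
  obtain ⟨A, hA, hp⟩ := par_ff n (S := S0 + |T|) (by linarith)
  refine ⟨3 * g + |C2| + 2, fun C3 h3 => ?_⟩
  obtain ⟨M1, hM1, hcap⟩ := hcap C3 (by linarith)
  have hq : 0 < √(β.η * β.h) := Real.sqrt_pos.2 (mul_pos β.η0 β.h0)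
  have q1 : 0 < 100 * (|K| + 1) / e := by positivity
  have q2 : 0 < 50 / √(β.η * β.h) := by positivity
  have q3 : 0 ≤ 32 * C3 ^ 2 := by positivity
  set B := 42 * C3 + 120 + (S0 + |T|) + 4 with hB
  obtain ⟨M2, hM2, hs⟩ := small_log (A + 83 * C0 + 4 * B + 32 * C3 ^ 2 + 40 * |K| +
    100 * (|K| + 1) / e + 50 / √(β.η * β.h))
  refine ⟨max M1 M2, le_max_of_le_left hM1, fun v ρm ε x x0 g' w om z G hb hc hd2 => ?_⟩
  have hv : Sol v := G.ps.toSol
  have h0 := val_pos hv G.val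
  obtain ⟨z0, hz0, hz1, hz2⟩ := hcap v ρm ε x x0 g' w om z
    ⟨G.ps, Val_mono (by linarith) (le_max_left _ _) G.val, G.ff, G.dep, G.lo, G.hi, G.fit⟩ hb hc
  obtain ⟨s1, s2, s3⟩ := hs _ h0
    (G.val.1.le.trans (one_div_le_one_div_of_le (by linarith) (le_max_right _ _)))
  have hd := G.val.2.1.le
  have hL : Real.log (1 / ph0 v x) = lg v x := rfl
  rw [hL] at s1 s2 s3 hd
  have hL1 : 1 ≤ lg v x := by linarith
  have hL3 : 1 ≤ lg v x ^ 3 := one_le_pow₀ hL1
  have hLL : lg v x ≤ lg v x ^ 3 := by simpa using pow_le_pow_right₀ hL1 (by norm_num : 1 ≤ 3)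
  have hL2 : lg v x ^ 2 ≤ lg v x ^ 3 := pow_le_pow_right₀ hL1 (by norm_num)
  have hsm : ∀ a, 0 ≤ a → a ≤ A + 83 * C0 + 4 * B + 32 * C3 ^ 2 + 40 * |K| +
      100 * (|K| + 1) / e + 50 / √(β.η * β.h) →
      a * ph0 v x ≤ 1 ∧ a * lg v x * ph0 v x ≤ 1 ∧ a * lg v x ^ 2 * ph0 v x ≤ 1 := by
    intro a a0 a1
    have a2 : a * lg v x ^ 3 * ph0 v x ≤ 1 := le_trans (by gcongr) s2
    exact ⟨le_trans (mul_le_mul_of_nonneg_right (le_mul_of_one_le_right a0 hL3) h0.le) a2,
      le_trans (by gcongr) a2, le_trans (by gcongr) a2⟩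
  have n1 := (hsm A (by linarith) (by linarith)).1
  have n2 := (hsm (83 * C0) (by linarith) (by linarith)).1
  have n3 := (hsm (4 * B) (by linarith) (by linarith)).2.1
  have n4 := (hsm _ q3 (by linarith)).2.2
  have n5 := (hsm (40 * |K|) (by linarith) (by linarith)).1
  have n6 := (hsm _ q1.le (by linarith)).1
  have n7 := (hsm _ q2.le (by linarith)).1
  have n8 := (hsm 100 (by linarith) (by linarith)).1
  clear hsm s2 hcap hs
  have h8 := G.dep
  have hlo := G.lo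
  have hhi : rt β v ρm x * ph0 v x ≤ |K| := G.hi.trans (le_abs_self K)
  have hd' : |dd v x| + 1 ≤ C3 * lg v x := by
    have a1 : C2 * lg v x ≤ |C2| * lg v x := by gcongr; exact le_abs_self _
    have a2 := mul_le_mul_of_nonneg_right (show |C2| + 1 ≤ C3 by linarith) (by linarith : 0 ≤ lg v x)
    linarith
  have hCB : C3 * lg v x ≤ B * lg v x := by gcongr; linarith
  have hgC : g * lg v x + 1 ≤ C3 * lg v x := by
    have a2 := mul_le_mul_of_nonneg_right (show g + 1 ≤ C3 by linarith) (by linarith : 0 ≤ lg v x)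
    linarith
  have hTC : T ≤ C3 * lg v x := by
    have a2 := mul_le_mul_of_nonneg_right (show 1 ≤ C3 by linarith) (by linarith : 0 ≤ lg v x)
    linarith [le_abs_self T]
  have hHB : 42 * (C3 * lg v x) + 20 * (6 * lg v x) + (S0 + |T|) + 4 ≤ B * lg v x := by
    have a2 := le_mul_of_one_le_right (show 0 ≤ S0 + |T| + 4 by linarith) hL1
    rw [hB]; linarith
  have m1 : 4 * (B * lg v x) ≤ 1 / ph0 v x := by rw [le_div_iff₀ h0]; linarith
  have m2 : 100 ≤ 1 / ph0 v x := by rw [le_div_iff₀ h0]; linarith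
  have m3 : 100 * (1 / ph0 v x) ≤ (1 / ph0 v x) ^ 2 := by
    rw [sq]; exact mul_le_mul_of_nonneg_right m2 (by positivity)
  have m4 : 40 * rt β v ρm x ≤ (1 / ph0 v x) ^ 2 := by
    rw [one_div, inv_pow, ← one_div, le_div_iff₀ (by positivity)]
    have := mul_le_mul_of_nonneg_right hhi h0.le
    linarith
  have m5 : 1 / ph0 v x ≤ 2 * rt β v ρm x := by
    rw [div_le_iff₀ (by positivity)] at hlo
    rw [div_le_iff₀ h0]; linarith
  have u1 : ph0 v x ^ 5 ≤ ph0 v x ^ 3 := pow_le_pow_of_le_one h0.le (by linarith) (by norm_num)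
  have u2 : ph0 v x ^ 3 ≤ ph0 v x := by
    simpa using pow_le_pow_of_le_one h0.le (by linarith : ph0 v x ≤ 1) (by norm_num : 1 ≤ 3)
  have u3 : (1 / ph0 v x) ^ 2 * ph0 v x ^ 5 = ph0 v x ^ 3 := by field_simp
  have u4 := pow_pos h0 5
  have u5 : rt β v ρm x * ph0 v x ^ 5 ≤ ph0 v x / 40 := by
    have := mul_le_mul_of_nonneg_right m4 u4.le
    linarith
  have u6 : 100 * ph0 v x ≤ e := by
    rw [div_mul_eq_mul_div, div_le_one he0] at n6
    have := mul_nonneg pK h0.le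
    linarith
  have u7 : 4 * ph0 v x ^ 5 < √(β.η * β.h) / 10 := by
    rw [div_mul_eq_mul_div, div_le_one hq] at n7
    linarith
  have he := hb.sh.unit
  have hnear := hb.near
  have hxx : ‖x - x0‖ ≤ |dd v x| + 1 := by
    have b1 := norm_sub_le_norm_sub_add_norm_sub x (x0 + dd v x • nu v x0) x0
    rw [add_sub_cancel_left, norm_smul, he, mul_one, Real.norm_eq_abs] at b1
    linarith
  have hxh := abs_le.1 ((abs_in he (x - x0)).trans hxx)
  obtain ⟨-, -, htx⟩ := hb.sh.est x (by linarith) (by linarith) (by linarith)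
  obtain ⟨hν1, hν⟩ := hb.sh.nu_near hv (y := x) (by linarith) (by linarith) (by linarith)
    (by linarith)
  have hN : 1 / 2 ≤ NN v x := by linarith [one_sub_NN hv x]
  obtain ⟨P, -⟩ := hp v x x0 hv h0 n1 G.ff ((dd_zero_iff hv).1 hb.zero)
    (by rw [norm_sub_rev]; linarith)
  have hda := abs_nonneg (dd v x)
  have hq3 : ⟪nu v x0, x0 + (1 / 4 : ℝ) • nu v x0 - x0⟫ = 1 / 4 := by
    rw [axis_in he, sub_self, inner_zero_right, sub_zero]
  have hq4 := (hb.sh.est (x0 + (1 / 4 : ℝ) • nu v x0) (mem_closedBall_iff_norm.1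
      (axis_ball he x0 (by rw [abs_of_pos (by norm_num)]; linarith)))
    (by rw [hq3]; linarith) (by rw [hq3]; linarith)).1
  rw [hq3] at hq4
  clear hq3
  have hsh := hb.sh
  have hzero := hb.zero
  generalize nu v x0 = E at *
  have hax : ∀ s, |s| ≤ (1 / ph0 v x) ^ 2 →
      ‖x0 + s • E - (bs v x + s • nu v x)‖ ≤ 4 * ph0 v x := fun s hs => by
    rw [show x0 + s • E - (bs v x + s • nu v x) = (dd v x - s) • (nu v x - E) -
      (x - (x0 + dd v x • E)) by rw [bs]; module]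
    have a1 : ‖(dd v x - s) • (nu v x - E)‖ ≤
        (5 / 4 * (1 / ph0 v x) ^ 2) * (2 * ph0 v x ^ 5) := by
      rw [norm_smul, Real.norm_eq_abs]
      exact mul_le_mul ((abs_sub _ _).trans (by linarith)) hν (norm_nonneg _) (by positivity)
    refine (norm_sub_le _ _).trans ?_
    linarith
  have hb0 : ‖bs v x - x0‖ ≤ 4 * ph0 v x := by
    rw [norm_sub_rev]; simpa using hax 0 (by rw [abs_zero]; positivity)
  have hzx : ‖z - x0‖ ≤ 5 * rt β v ρm x + 1 := by
    linarith [ct_dist hv hc hN h8, norm_sub_le_norm_sub_add_norm_sub z (bs v x) x0]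
  have hz0x : ‖z0 - x0‖ ≤ (1 / ph0 v x) ^ 2 / 4 := by
    linarith [norm_sub_le_norm_sub_add_norm_sub z0 z x0]
  have ha0 := (abs_le.1 (abs_in he (z0 - x0))).2
  have k0 := β.h0
  have k1 := β.h1
  have k2 := β.η1
  have k3 := β.η0
  have hr0 : 0 ≤ rt β v ρm x := by linarith
  have k4 : 199 / 100 * rt β v ρm x ≤ (2 - β.h) * rt β v ρm x :=
    mul_le_mul_of_nonneg_right (by linarith) hr0
  have k5 : (2 - β.h) * rt β v ρm x ≤ 2 * rt β v ρm x :=
    mul_le_mul_of_nonneg_right (by linarith) hr0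
  have k6 : 1 / 2 * rt β v ρm x ≤ (1 - 2 * β.η) * rt β v ρm x :=
    mul_le_mul_of_nonneg_right (by linarith) hr0
  obtain ⟨f, f1, f2, f3, f4⟩ : ∃ f, 1 / 4 < f ∧ f ≤ ⟪E, z0 - x0⟫ + 1 / 4 ∧ v (x0 + f • E) = 0 ∧
      ∀ s, 1 / 4 ≤ s → s < f → 0 < v (x0 + s • E) := by
    have a1 : 0 < v (x0 + (1 / 4 : ℝ) • E) := pos_of_dd hv (by linarith [abs_le.1 hq4])
    rcases P.signs (by linarith) (mem_closedBall_iff_norm.2 (by linarith)) hz0 (c := 1 / 4)
      (by linarith [P.e1]) (by norm_num) with q | q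
    · exact first_zero hv.sm.continuous x0 E (by linarith) a1 q.le
    · obtain ⟨f, b1, b2, b3⟩ := first_zero hv.sm.continuous x0 E (by linarith) a1 q.le
      exact ⟨f, b1, by linarith, b3⟩
  have f5 : (2 - β.h) * rt β v ρm x - 1 / 4 ≤ f := by
    by_contra a1
    have a2 := deep hv (by linarith) G.fit (by linarith [abs_nonneg (dd v x)]) (m := 1 / 8)
      (A := 1 / 8) ((hax f (by rw [abs_of_pos (by linarith)]; linarith)).trans (by linarith))
      (by linarith) (by linarith) (by linarith)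
    rw [(dd_zero_iff hv).2 f3] at a2
    exact absurd a2 (deep_num h0 hd' (hv.tt_nonneg x) (by linarith) h8 hlo
      (by rw [mul_pow]; linarith)).not_ge
  obtain ⟨t1, t2, t3⟩ := H v x0 E (S0 + |T|) _ ((1 / ph0 v x) ^ 2) f (C3 * lg v x) (6 * lg v x)
    (ph0 v x ^ 5) P (by linarith) (by linarith) (by linarith) f3 f4 (by linarith) (by linarith) (by
      rw [exp_six s3, pow_succ (ph0 v x) 5]
      have := mul_le_mul_of_nonneg_right n2 u4.le
      linarith)
  have hzl : ⟪E, z0 - x0⟫ - g * lg v x ≤ ⟪E, z - x0⟫ := by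
    have a1 := (abs_le.1 ((abs_in he (z0 - z)).trans hz1)).2
    have a2 : ⟪E, z0 - x0⟫ = ⟪E, z0 - z⟫ + ⟪E, z - x0⟫ := by rw [← inner_add_right]; simp
    linarith
  have hzu : ⟪E, z - x0⟫ ≤ f + 1 := by
    by_contra a1
    have a2 : ‖cen v x (rt β v ρm x) w - bs v x‖ ≤ 101 / 100 * rt β v ρm x := by
      rw [cen_eq, add_assoc, add_sub_cancel_left, ← smul_add, norm_smul, Real.norm_of_nonneg hr0,
        mul_comm]
      exact mul_le_mul_of_nonneg_right ((norm_add_le _ _).trans (by linarith [hc.mem.1])) hr0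
    have a3 := norm_sub_le_norm_sub_add_norm_sub (cen v x (rt β v ρm x) w) (bs v x) x0
    have a4 := (abs_le.1 (abs_in he (cen v x (rt β v ρm x) w - x0))).2
    obtain ⟨p, b1, b2⟩ := (convex_segment (cen v x (rt β v ρm x) w) z).isPreconnected.intermediate_value
      (left_mem_segment ℝ _ _) (right_mem_segment ℝ _ _) (cd_height E x0).continuous.continuousOn
      (show f + 1 ∈ _ from ⟨by linarith, by linarith⟩)
    have b3 : p ∈ closedBall x0 (6 * (1 / ph0 v x) ^ 2) := (convex_closedBall _ _).segment_subset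
      (mem_closedBall_iff_norm.2 (by linarith)) (mem_closedBall_iff_norm.2 (by linarith)) b1
    linarith [t3 p (mem_closedBall_iff_norm.1 b3) b2, ct_seg hc G.fit h8 b1,
      ct_low hv hc hN h8 htx]
  have hsp : ⟪-E, z - (x0 + f • E)⟫ = f - ⟪E, z - x0⟫ := by
    rw [inner_neg_left, ← sub_sub, inner_sub_right _ (z - x0), real_inner_smul_right,
      real_inner_self_eq_norm_sq, he]; ring
  have hfE : ‖x0 - (x0 + f • E)‖ = f := by
    rw [sub_add_cancel_left, norm_neg, norm_smul, he, mul_one, Real.norm_of_nonneg (by linarith)]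
  obtain ⟨z1, z2, z3⟩ := t1.est z (by
    linarith [norm_sub_le_norm_sub_add_norm_sub z x0 (x0 + f • E)])
    (by rw [hsp]; linarith) (by rw [hsp]; linarith)
  rw [hsp] at z1
  obtain ⟨c1, c2, c3⟩ := ct_pos hv hc hN h8 z2 z3 htx hν u7
  have c4 : ‖z - (x0 + ((2 - β.h) * rt β v ρm x - dd v x) • E)‖ ≤ 5 * ph0 v x := by
    have a1 := hax ((2 - β.h) * rt β v ρm x - dd v x)
      (abs_le.2 ⟨by linarith [le_abs_self (dd v x)], by linarith⟩)
    rw [norm_sub_rev] at a1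
    linarith [norm_sub_le_norm_sub_add_norm_sub z
      (bs v x + ((2 - β.h) * rt β v ρm x - dd v x) • nu v x)
      (x0 + ((2 - β.h) * rt β v ρm x - dd v x) • E)]
  have c5 : |f - (2 - β.h) * rt β v ρm x| ≤ 7 * ph0 v x := by
    have a1 := abs_le.1 ((abs_in he _).trans c4)
    rw [← sub_sub, inner_sub_right _ (z - x0), real_inner_smul_right, real_inner_self_eq_norm_sq,
      he] at a1
    rw [abs_le] at z1 c2 ⊢
    constructor <;> linarith [a1.1, a1.2, z1.1, z1.2, c2.1, c2.2]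
  refine ⟨f, ⟨hzero, (dd_zero_iff hv).2 f3, hsh.mono le_rfl hTC le_rfl le_rfl,
    t1.mono le_rfl (by linarith [le_abs_self T]) le_rfl le_rfl, fun y a1 a2 a3 => t2 y ?_ a2 a3⟩,
    by linarith, ?_, ?_, z3, by linarith⟩
  · have := norm_sub_le_norm_sub_add_norm_sub y (x0 + (f / 2) • E) x0
    rw [add_sub_cancel_left, norm_smul, he, mul_one, Real.norm_of_nonneg (by linarith)] at this
    linarith
  · rw [show z - (x0 + (f - dd v x) • E) = (z - (x0 + ((2 - β.h) * rt β v ρm x - dd v x) • E)) -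
      (f - (2 - β.h) * rt β v ρm x) • E by module]
    refine (norm_sub_le _ _).trans ?_
    rw [norm_smul, he, mul_one, Real.norm_eq_abs]
    linarith
  · have := mul_le_mul_of_nonneg_left c1 hr0
    linarith

/-- **TOPS** -/
theorem tops (n : ℕ) : TopsStmt n := tops_of fun β C K C2 => by
  obtain ⟨g, hg, -, h⟩ := cap_height n C C2
  refine ⟨g, hg, fun C3 h3 => ?_⟩
  obtain ⟨M, hM, h⟩ := h K C3 h3
  refine ⟨M, hM, fun v ρm ε x x0 g' w om z G hb hc => ?_⟩
  obtain ⟨⟨z0, h1, h2, -, h3⟩, -⟩ := h β v ρm ε x x0 g' w om z G hb hc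
  exact ⟨z0, h1, h2, h3⟩

end Crest.Agent.N067.M
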